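import Vale.Agent.P160.Basic

/-!
P160 task Adj. Keep the statements unchanged; add lemmas freely (start them with `adj_`).

`exists_prim_ker`: `Matrix.exists_mulVec_eq_zero_iff`, divide by `Finset.gcd`, Bezout (`Finset.gcd_eq_sum_mul`). `mn_ker`, `cl_dot`:
`Fin.sum_univ_succAbove`. `minor_eq`: a kernel vector vanishing at `i₀` vanishes, so every kernel vector `y` equals `(c ⬝ᵥ y) • v`;
apply this to the columns of `adjugate A` (`Matrix.mul_adjugate`), which is symmetric (`Matrix.adjugate_transpose`), so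
`adjugate A i j = κ v i v j`; `Matrix.adjugate_fin_succ_eq_det_submatrix` on the diagonal.
`good_card`: reduce `v` modulo `p` or `4` (`RingHom.map_mulVec`, `ZMod.intCast_zmod_eq_zero_iff_dvd`); for the last claim use `p = 3`.
-/

set_option linter.unusedSectionVars false
set_option linter.unusedVariables false

namespace Vale.Agent.P160

open Finset Matrix Filter

theorem exists_prim_ker {n : ℕ} {A : ZM n} (h : A.det = 0) :
    ∃ v c : Fin n → ℤ, A *ᵥ v = 0 ∧ c ⬝ᵥ v = 1 := by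
  obtain ⟨v, hv0, hv⟩ := Matrix.exists_mulVec_eq_zero_iff.2 h
  obtain ⟨c, hc⟩ := Finset.gcd_eq_sum_mul (univ : Finset (Fin n)) v
  have hg : (univ : Finset (Fin n)).gcd v ≠ 0 := fun h0 =>
    hv0 (funext fun i => Finset.gcd_eq_zero_iff.1 h0 i (mem_univ i))
  have hd : ∀ i, ∃ w, v i = (univ : Finset (Fin n)).gcd v * w := fun i =>
    Finset.gcd_dvd (mem_univ i)
  choose w hw using hd
  generalize (univ : Finset (Fin n)).gcd v = g at hc hg hw
  have e : v = g • w := funext hw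
  refine ⟨w, c, ?_, mul_left_cancel₀ hg ?_⟩
  · rw [e, Matrix.mulVec_smul] at hv
    exact (smul_eq_zero.1 hv).resolve_left hg
  · rw [mul_one]
    nth_rewrite 2 [hc]
    simp only [dotProduct, Finset.mul_sum, hw]
    exact Finset.sum_congr rfl fun i _ => by ring

theorem mn_ker {n : ℕ} {A : ZM (n + 1)} {v : Fin (n + 1) → ℤ} (hv : A *ᵥ v = 0) (i : Fin (n + 1)) :
    mn A i *ᵥ (fun j => -v (i.succAbove j)) = v i • cl A i := by
  funext k
  have h := congrFun hv (i.succAbove k)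
  simp only [Matrix.mulVec, dotProduct, Pi.zero_apply] at h
  rw [Fin.sum_univ_succAbove _ i] at h
  simp only [Matrix.mulVec, dotProduct, mn, cl, Matrix.submatrix_apply, mul_neg,
    Finset.sum_neg_distrib, Pi.smul_apply, smul_eq_mul]
  linarith

theorem cl_dot {n : ℕ} {A : ZM (n + 1)} (hA : A ∈ SS (n + 1)) {v : Fin (n + 1) → ℤ}
    (hv : A *ᵥ v = 0) (i : Fin (n + 1)) :
    cl A i ⬝ᵥ (fun j => -v (i.succAbove j)) = A i i * v i := by
  have h := congrFun hv i
  simp only [Matrix.mulVec, dotProduct, Pi.zero_apply] at h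
  rw [Fin.sum_univ_succAbove _ i] at h
  simp only [dotProduct, cl, mul_neg, Finset.sum_neg_distrib, (mem_SS.1 hA).2 _ i]
  linarith

theorem sol_of_ker {n : ℕ} {A : ZM (n + 1)} (hA : A ∈ SS (n + 1)) {v c : Fin (n + 1) → ℤ}
    (hv : A *ᵥ v = 0) (hc : c ⬝ᵥ v = 1) (i : Fin (n + 1)) :
    Sol (mn A i) (cl A i) (v i) fun j => -v (i.succAbove j) := by
  refine ⟨mn_ker hv i, ?_, fun j => -c (i.succAbove j), c i, ?_⟩
  · rw [cl_dot hA hv i]
    rcases (mem_SS.1 hA).1 i i with h | h <;> simp [h]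
  · simp only [dotProduct] at hc ⊢
    rw [Fin.sum_univ_succAbove _ i] at hc
    simp only [neg_mul_neg]
    linarith

theorem cl_orth {n : ℕ} {A : ZM (n + 1)} (hA : A ∈ SS (n + 1)) {v : Fin (n + 1) → ℤ}
    (hv : A *ᵥ v = 0) {i : Fin (n + 1)} (hi : v i ≠ 0) {w : Fin n → ℤ} (hw : mn A i *ᵥ w = 0) :
    cl A i ⬝ᵥ w = 0 := by
  have hs : (mn A i)ᵀ = mn A i := by
    ext j k
    exact (mem_SS.1 hA).2 _ _
  refine (mul_eq_zero.1 ?_).resolve_left hi
  rw [← smul_eq_mul, ← smul_dotProduct, ← mn_ker hv i, ← Matrix.vecMul_transpose, hs,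
    ← Matrix.dotProduct_mulVec, hw, dotProduct_zero]

theorem minor_eq {n : ℕ} {A : ZM (n + 1)} (hA : A ∈ SS (n + 1)) {v c : Fin (n + 1) → ℤ}
    (hv : A *ᵥ v = 0) (hc : c ⬝ᵥ v = 1) {i₀ : Fin (n + 1)} (h₀ : (mn A i₀).det ≠ 0) :
    ∃ κ : ℤ, κ ≠ 0 ∧ ∀ i, (mn A i).det = κ * v i ^ 2 := by
  have z0 : ∀ y : Fin (n + 1) → ℤ, A *ᵥ y = 0 → y i₀ = 0 → y = 0 := fun y hy h => by
    have a1 := mn_ker hy i₀
    rw [h, zero_smul] at a1
    have a2 := Matrix.eq_zero_of_mulVec_eq_zero h₀ a1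
    funext j
    rcases Fin.eq_self_or_eq_succAbove i₀ j with rfl | ⟨k, rfl⟩
    · exact h
    · exact neg_eq_zero.1 (congrFun a2 k)
  have v0 : v ≠ 0 := by
    rintro rfl
    simp at hc
  have vi : v i₀ ≠ 0 := fun h => v0 (z0 v hv h)
  have ker : ∀ y : Fin (n + 1) → ℤ, A *ᵥ y = 0 → ∀ j, y j = (c ⬝ᵥ y) * v j := fun y hy j => by
    have a1 : v i₀ • y = y i₀ • v := by
      refine sub_eq_zero.1 (z0 _ ?_ ?_)
      · rw [Matrix.mulVec_sub, Matrix.mulVec_smul, Matrix.mulVec_smul, hy, hv, smul_zero, smul_zero,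
          sub_zero]
      · simp [mul_comm]
    have a2 := congrArg (fun z => c ⬝ᵥ z) a1
    simp only [dotProduct_smul, hc, smul_eq_mul, mul_one] at a2
    have a3 := congrFun a1 j
    simp only [Pi.smul_apply, smul_eq_mul] at a3
    refine mul_left_cancel₀ vi ?_
    rw [a3, ← mul_assoc, a2]
  have hdet : A.det = 0 := Matrix.exists_mulVec_eq_zero_iff.1 ⟨v, v0, hv⟩
  have hs : Aᵀ = A := by
    ext j k
    exact (mem_SS.1 hA).2 _ _
  have hsym : ∀ i j, adjugate A i j = adjugate A j i := fun i j => by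
    have := congrFun (congrFun (Matrix.adjugate_transpose A) j) i
    rwa [hs] at this
  have col : ∀ j, A *ᵥ (fun i => adjugate A i j) = 0 := fun j => by
    funext i
    have := congrFun (congrFun (Matrix.mul_adjugate A) i) j
    rw [hdet, zero_smul] at this
    exact this
  obtain ⟨t, ht⟩ : ∃ t : Fin (n + 1) → ℤ, ∀ i j, adjugate A i j = t j * v i :=
    ⟨fun j => c ⬝ᵥ fun i => adjugate A i j, fun i j => ker _ (col j) i⟩
  have ht2 : ∀ j, t j = (c ⬝ᵥ t) * v j := fun j => by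
    rw [← mul_one (t j), ← hc]
    simp only [dotProduct, Finset.mul_sum, Finset.sum_mul]
    refine Finset.sum_congr rfl fun i _ => ?_
    have := hsym i j
    rw [ht, ht] at this
    linear_combination c i * this
  have main : ∀ i, (mn A i).det = (c ⬝ᵥ t) * v i ^ 2 := fun i => by
    have := Matrix.adjugate_fin_succ_eq_det_submatrix A i i
    rw [← two_mul, pow_mul, neg_one_sq, one_pow, one_mul, ht, ht2 i] at this
    rw [mn, ← this]
    ring
  refine ⟨c ⬝ᵥ t, fun h => h₀ ?_, main⟩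
  rw [main, h, zero_mul]

theorem adj_red {n : ℕ} (m : ℕ) {A : ZM n} {v c : Fin n → ℤ} (hv : A *ᵥ v = 0) (hc : c ⬝ᵥ v = 1) :
    A.map (Int.cast : ℤ → ZMod m) *ᵥ (fun i => (v i : ZMod m)) = 0 ∧
      ∑ i, (c i : ZMod m) * (v i : ZMod m) = 1 := by
  refine ⟨funext fun i => ?_, ?_⟩
  · have := RingHom.map_mulVec (Int.castRingHom (ZMod m)) A v i
    rw [hv, Pi.zero_apply, map_zero] at this
    exact this.symm
  · have := congrArg (Int.cast : ℤ → ZMod m) hc
    simpa [dotProduct] using this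

theorem good_card {n s : ℕ} {A : ZM n} (hS : ¬ Sparse A s) {v c : Fin n → ℤ} (hv : A *ᵥ v = 0)
    (hc : c ⬝ᵥ v = 1) :
    (∀ p : ℕ, p.Prime → p ≠ 2 → s < (univ.filter fun i => ¬ (p : ℤ) ∣ v i).card) ∧
      s < (univ.filter fun i => ¬ (4 : ℤ) ∣ v i).card ∧ s < (univ.filter fun i => v i ≠ 0).card := by
  have h1 : ∀ p : ℕ, p.Prime → p ≠ 2 → s < (univ.filter fun i => ¬ (p : ℤ) ∣ v i).card := by
    intro p hp h2
    by_contra hlt
    haveI := Fact.mk hp
    obtain ⟨a1, a2⟩ := adj_red p hv hc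
    refine hS (Or.inl ⟨p, hp, h2, fun i => (v i : ZMod p), fun h0 => ?_,
      le_trans (Finset.card_le_card fun i hi => ?_) (not_lt.1 hlt), a1⟩)
    · have : ∀ i, (v i : ZMod p) = 0 := congrFun h0
      simp [this] at a2
    · simpa [ZMod.intCast_zmod_eq_zero_iff_dvd] using hi
  refine ⟨h1, ?_, (h1 3 Nat.prime_three (by norm_num)).trans_le
    (Finset.card_le_card fun i hi => ?_)⟩
  · by_contra hlt
    obtain ⟨a1, a2⟩ := adj_red 4 hv hc
    refine hS (Or.inr ⟨fun i => (v i : ZMod 4), ?_,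
      le_trans (Finset.card_le_card fun i hi => ?_) (not_lt.1 hlt), a1⟩)
    · by_contra h0
      push Not at h0
      have a3 : (2 : ZMod 4) * ∑ i, (c i : ZMod 4) * (v i : ZMod 4) = 0 := by
        rw [Finset.mul_sum]
        exact Finset.sum_eq_zero fun i _ => by rw [mul_left_comm, h0, mul_zero]
      rw [a2] at a3
      exact absurd a3 (by decide)
    · have := ZMod.intCast_zmod_eq_zero_iff_dvd (v i) 4
      simp only [Finset.mem_filter, Finset.mem_univ, true_and] at hi ⊢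
      exact fun h => hi (this.2 h)
  · simp only [Finset.mem_filter, Finset.mem_univ, true_and] at hi ⊢
    intro h
    exact hi (h ▸ dvd_zero _)

end Vale.Agent.P160
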