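import Mathlib

/-! P160: internal definitions (complete, do not edit). See notes/P160.md. -/

set_option linter.unusedSectionVars false
set_option linter.unusedVariables false

namespace Vale.Agent.P160

open Finset Matrix MeasureTheory

section lin
variable {ι κ : Type} [Fintype ι] [DecidableEq ι] [Fintype κ] [DecidableEq κ]

/-- Real version of an integer vector. -/
def iv (z : ι → ℤ) : ι → ℝ := fun i => (z i : ℝ)

/-- Real version of an integer matrix. -/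
def rm (U : Matrix ι κ ℤ) : Matrix ι κ ℝ := U.map (Int.cast : ℤ → ℝ)

/-- Quadratic form of a real matrix. -/
def qf (G : Matrix ι ι ℝ) (x : ι → ℝ) : ℝ := x ⬝ᵥ G *ᵥ x

/-- Gram matrix of the columns of the integer matrix `U` for the form `T`. -/
def gr (T : Matrix ι ι ℝ) (U : Matrix ι κ ℤ) : Matrix κ κ ℝ := (rm U)ᵀ * T * rm U

/-- Euclidean Gram determinant of the columns of `U`; nonzero iff the columns are independent. -/
def hg (U : Matrix ι κ ℤ) : ℤ := (Uᵀ * U).det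

/-- Schur complement (the quotient form on the second block). -/
noncomputable def sch (G : Matrix (ι ⊕ κ) (ι ⊕ κ) ℝ) : Matrix κ κ ℝ :=
  G.toBlocks₂₂ - G.toBlocks₂₁ * G.toBlocks₁₁⁻¹ * G.toBlocks₁₂

/-- `Z` is a unimodular change of basis of the integer lattice. -/
def Uni (Z : Matrix ι κ ℤ) : Prop := ∃ Q : Matrix κ ι ℤ, Z * Q = 1 ∧ Q * Z = 1

/-- The half-open unit cube. -/
def cell (ι : Type) : Set (ι → ℝ) := Set.pi Set.univ fun _ => Set.Ico (0 : ℝ) 1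

/-- Squared distance to the integer lattice for the form `G`. -/
noncomputable def dl (G : Matrix ι ι ℝ) (x : ι → ℝ) : ℝ := ⨅ z : ι → ℤ, qf G (x - iv z)

/-- Gaussian mass of the Voronoi cell, written on the unit cube. -/
noncomputable def FF (G : Matrix ι ι ℝ) : ℝ :=
  √G.det * ∫ x in cell ι, Real.exp (-Real.pi * dl G x)

/-- Every sublattice has covolume at least one. -/
def Stab (G : Matrix ι ι ℝ) : Prop :=
  ∀ (j : ℕ) (Z : Matrix ι (Fin j) ℤ), hg Z ≠ 0 → 1 ≤ (gr G Z).det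

/-- The Voronoi cell. -/
def Vor (G : Matrix ι ι ℝ) : Set (ι → ℝ) := {x | ∀ z : ι → ℤ, qf G x ≤ qf G (x - iv z)}

/-- Sign vectors. -/
def Sg (ι : Type) [Fintype ι] [DecidableEq ι] : Finset (ι → ℤ) :=
  Fintype.piFinset fun _ => ({1, -1} : Finset ℤ)

/-- Integer vectors with all entries in `[0, R)`. -/
noncomputable def Bx (ι : Type) [Fintype ι] [DecidableEq ι] (R : ℕ) : Finset (ι → ℤ) :=
  Fintype.piFinset fun _ => Finset.Ico (0 : ℤ) R

/-- Integer vectors with all entries in `(-R, R)`. -/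
noncomputable def Bs (ι : Type) [Fintype ι] [DecidableEq ι] (R : ℕ) : Finset (ι → ℤ) :=
  Fintype.piFinset fun _ => Finset.Ioo (-(R : ℤ)) R

/-- Keep the coordinates in `J`, put zero elsewhere. -/
def res (J : Finset ι) (y : ι → ℤ) : ι → ℤ := fun i => if i ∈ J then y i else 0

theorem mem_Sg {x : ι → ℤ} : x ∈ Sg ι ↔ ∀ i, x i = 1 ∨ x i = -1 := by
  simp [Sg]

theorem card_Sg : (Sg ι).card = 2 ^ Fintype.card ι := by
  simp [Sg]

theorem mem_Bx {R : ℕ} {x : ι → ℤ} : x ∈ Bx ι R ↔ ∀ i, 0 ≤ x i ∧ x i < R := by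
  simp [Bx]

theorem mem_Bs {R : ℕ} {x : ι → ℤ} : x ∈ Bs ι R ↔ ∀ i, |x i| < R := by
  simp [Bs, abs_lt]

end lin

/-- `exp (2 π i t / M)`. -/
noncomputable def ch (M : ℕ) (t : ℤ) : ℂ :=
  Complex.exp (2 * Real.pi * Complex.I * (t : ℂ) / (M : ℂ))

/-- `cos (2 π t / M)`. -/
noncomputable def cs (M : ℕ) (t : ℤ) : ℝ := Real.cos (2 * Real.pi * (t : ℝ) / (M : ℝ))

/-- Unnormalised Fejer kernel. -/
noncomputable def Fej (M R : ℕ) (t : ℤ) : ℝ := ‖∑ a ∈ range R, ch M ((a : ℤ) * t)‖ ^ 2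

/-- Integer square matrices. -/
abbrev ZM (n : ℕ) := Matrix (Fin n) (Fin n) ℤ

/-- All sign arrays (no symmetry). -/
def ZS (n : ℕ) : Finset (Fin n → Fin n → ℤ) := Fintype.piFinset fun _ => Sg (Fin n)

open Classical in
/-- Symmetric sign matrices. -/
noncomputable def SS (n : ℕ) : Finset (ZM n) :=
  @Finset.filter (ZM n) (fun A : ZM n => ∀ i j, A i j = A j i) _ (ZS n)

theorem mem_ZS {n : ℕ} {Z : Fin n → Fin n → ℤ} : Z ∈ ZS n ↔ ∀ i j, Z i j = 1 ∨ Z i j = -1 := by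
  simp [ZS, mem_Sg]

theorem mem_SS {n : ℕ} {A : ZM n} :
    A ∈ SS n ↔ (∀ i j, A i j = 1 ∨ A i j = -1) ∧ ∀ i j, A i j = A j i := by
  classical
  unfold SS
  exact Finset.mem_filter.trans (and_congr_left fun _ => mem_ZS)

open Classical in
/-- Probability of an event for a uniform symmetric sign matrix. -/
noncomputable def pr (n : ℕ) (E : ZM n → Prop) : ℝ :=
  (((SS n).filter E).card : ℝ) / ((SS n).card : ℝ)

/-- Resample the block `O × J` (and its mirror image) of `A` with the entries of `Z`. -/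
def rs {n : ℕ} (O J : Finset (Fin n)) (A : ZM n) (Z : Fin n → Fin n → ℤ) : ZM n :=
  Matrix.of fun i j => if i ∈ O ∧ j ∈ J then Z i j else if j ∈ O ∧ i ∈ J then Z j i else A i j

/-- Principal minor: delete row and column `i`. -/
def mn {n : ℕ} (A : ZM (n + 1)) (i : Fin (n + 1)) : ZM n := A.submatrix i.succAbove i.succAbove

/-- Column `i` without its diagonal entry. -/
def cl {n : ℕ} (A : ZM (n + 1)) (i : Fin (n + 1)) : Fin n → ℤ := fun j => A (i.succAbove j) i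

/-- `y` times `q` is a short integer combination of columns of `A` modulo the orthogonal
complement of the columns of `P`. -/
def Repr {n g : ℕ} (A : ZM n) (P : Matrix (Fin n) (Fin g) ℤ) (R q : ℕ) (y : Fin n → ℤ) : Prop :=
  ∃ u : Fin n → ℤ, (∀ l, |u l| < R) ∧ Pᵀ *ᵥ ((q : ℤ) • y - A *ᵥ u) = 0

/-- Almost all unit vectors are representable, up to junk on a small set `U`. -/
def Rep {n g : ℕ} (A : ZM n) (P : Matrix (Fin n) (Fin g) ℤ) (Q h : ℕ) : Prop :=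
  ∃ (U : Finset (Fin n)) (q : ℕ) (w u : Fin n → Fin n → ℤ), U.card ≤ h ∧ 1 ≤ q ∧ q ≤ Q ∧
    ∀ i, i ∉ U → (∀ l, l ∉ U → w i l = if l = i then 2 else 0) ∧ (∀ l, |w i l| ≤ 2) ∧
      (∀ l, |u i l| ≤ Q) ∧ Pᵀ *ᵥ ((q : ℤ) • w i - A *ᵥ u i) = 0

/-- The zero-one matrix `(J - A) / 2`. -/
def mm {n : ℕ} (A : ZM n) : ZM n := Matrix.of fun i j => (1 - A i j) / 2

/-- Small corank modulo every prime up to `Q`. -/
def Cork {n : ℕ} (A : ZM n) (Q c : ℕ) : Prop :=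
  ∀ p : ℕ, p.Prime → p ≤ Q → n ≤ ((mm A).map (Int.cast : ℤ → ZMod p)).rank + c

/-- Almost all columns together have a large volume. -/
def Vol {n : ℕ} (A : ZM n) (c : ℕ) : Prop :=
  ∃ J : Finset (Fin n), Jᶜ.card ≤ c ∧
    (n : ℤ) ^ n ≤ hg (A.submatrix id (Subtype.val : {i // i ∈ J} → Fin n)) ^ 5

open Classical in
/-- A sparse kernel vector modulo an odd prime or modulo four. -/
def Sparse {n : ℕ} (A : ZM n) (s : ℕ) : Prop :=
  (∃ p : ℕ, p.Prime ∧ p ≠ 2 ∧ ∃ v : Fin n → ZMod p, v ≠ 0 ∧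
    (univ.filter fun i => v i ≠ 0).card ≤ s ∧ A.map (Int.cast : ℤ → ZMod p) *ᵥ v = 0) ∨
  ∃ v : Fin n → ZMod 4, (∃ i, 2 * v i ≠ 0) ∧
    (univ.filter fun i => v i ≠ 0).card ≤ s ∧ A.map (Int.cast : ℤ → ZMod 4) *ᵥ v = 0

/-- The columns of the inverse outside `J`. -/
noncomputable def NB {n : ℕ} (A : ZM n) (J : Finset (Fin n)) : Matrix (Fin n) {i // i ∉ J} ℝ :=
  (rm A)⁻¹.submatrix id Subtype.val

/-- The form `|z|^2 + sum over l outside J of (A⁻¹ z)_l ^ 2`. -/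
noncomputable def TT {n : ℕ} (A : ZM n) (J : Finset (Fin n)) : Matrix (Fin n) (Fin n) ℝ :=
  1 + NB A J * (NB A J)ᵀ

/-- `n ^ (δ n)`. -/
noncomputable def nn (δ : ℝ) (n : ℕ) : ℝ := Real.exp (δ * n * Real.log n)

open Classical in
/-- Lattices of large index between `A ℤⁿ` and `ℤⁿ` contain few sign vectors. -/
def IL1 {n : ℕ} (ε δ : ℝ) (A : ZM n) : Prop :=
  ∀ L : Submodule ℤ (Fin n → ℤ), (∀ u, A *ᵥ u ∈ L) → nn δ n ≤ (L.toAddSubgroup.index : ℝ) →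
    (((Sg (Fin n)).filter fun x => x ∈ L).card : ℝ) ≤ (2 : ℝ) ^ (ε * n)

/-- `x` is the image under `A` of a point of the cube. -/
def InCube {n : ℕ} (A : ZM n) (x : Fin n → ℤ) : Prop :=
  ∃ u : Fin n → ℝ, (∀ i, |u i| ≤ 1) ∧ rm A *ᵥ u = iv x

open Classical in
/-- If the determinant is small, few sign vectors are images of points of the cube. -/
def IL2 {n : ℕ} (ε : ℝ) (A : ZM n) : Prop :=
  A.det ^ 20 ≤ (n : ℤ) ^ n → (((Sg (Fin n)).filter (InCube A)).card : ℝ) ≤ (2 : ℝ) ^ (ε * n)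

/-- `x` solves the quadratic equation, with primitive witness `(u, o)`. -/
def Sol {n : ℕ} (A : ZM n) (x : Fin n → ℤ) (o : ℤ) (u : Fin n → ℤ) : Prop :=
  A *ᵥ u = o • x ∧ (x ⬝ᵥ u = o ∨ x ⬝ᵥ u = -o) ∧ ∃ (c : Fin n → ℤ) (c₀ : ℤ), c ⬝ᵥ u + c₀ * o = 1

open Classical in
/-- Divisors of `d` just above the threshold `y`. -/
noncomputable def Dv (d y : ℕ) : Finset ℕ :=
  d.divisors.filter fun f => y ≤ f ∧ ∃ f' g : ℕ, f = f' * g ∧ f' < y ∧ IsPrimePow g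

/-- The three ways in which a column `x` can complete `A` to a matrix of corank one. -/
def Hit {n : ℕ} (y : ℕ) (A : ZM n) (x : Fin n → ℤ) : Prop :=
  (∃ f ∈ Dv A.det.natAbs y, Nat.Coprime f (A.det.natAbs / f) ∧
    ∃ s : Fin n → ℤ, A *ᵥ s = ((2 * (A.det.natAbs / f) : ℕ) : ℤ) • x) ∨
  (A.det ^ 20 ≤ (n : ℤ) ^ n ∧ InCube A x) ∨
  ∃ (o : ℤ) (u : Fin n → ℤ), Sol A x o u ∧ 2 * A.det.natAbs * y ^ 3 ≤ o.natAbs ^ 3

/-- Members of the small family of subspaces: a dimension and an integer basis. -/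
abbrev Sub (n : ℕ) := Σ g : ℕ, Matrix (Fin n) (Fin g) ℤ

/-- Input of the structure theorem: a lattice with basis `B`, a form `T ≥ 1` and many short sign
vectors in the lattice. -/
structure Rich {n : ℕ} (ε : ℝ) (B : ZM n) (T : Matrix (Fin n) (Fin n) ℝ)
    (X : Finset (Fin n → ℤ)) : Prop where
  det : B.det ≠ 0
  pd : T.PosDef
  ge : ∀ x, qf 1 x ≤ qf T x
  sg : X ⊆ Sg (Fin n)
  mem : ∀ x ∈ X, ∃ c, x = B *ᵥ c
  short : ∀ x ∈ X, qf T (iv x) ≤ 2 * n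
  card : (2 : ℝ) ^ (ε * n) ≤ X.card

/-- `U` spans a subspace `V` and the orthogonal complement of the columns of `P` lies in a space
of dimension at most `dim V + j` containing `V`. -/
def Near {n g v : ℕ} (P : Matrix (Fin n) (Fin g) ℤ) (U : Matrix (Fin n) (Fin v) ℤ) (j : ℕ) : Prop :=
  ∃ (g₀ : ℕ) (B₀ : Matrix (Fin n) (Fin g₀) ℤ), hg B₀ ≠ 0 ∧ B₀ᵀ * U = 0 ∧
    (∀ y : Fin n → ℤ, Pᵀ *ᵥ y = 0 → B₀ᵀ *ᵥ y = 0) ∧ n ≤ v + g₀ + j

/-- A two-valued cube on `S` is realised by bounded vectors `y σ`, all congruent to `y₀` modulo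
the columns of `U`. -/
structure Cube {n v : ℕ} (N : ℕ) (U : Matrix (Fin n) (Fin v) ℤ) (S : Finset (Fin n))
    (a b : Fin n → ℤ) (y : (Fin n → ℤ) → Fin n → ℤ) (y₀ : Fin n → ℤ) : Prop where
  ne : ∀ i ∈ S, a i ≠ b i
  ha : ∀ i ∈ S, |a i| ≤ N
  hb : ∀ i ∈ S, |b i| ≤ N
  val : ∀ σ ∈ Sg (Fin n), ∀ i ∈ S, y σ i = if σ i = 1 then a i else b i
  bdd : ∀ σ ∈ Sg (Fin n), ∀ i, |y σ i| ≤ N
  bdd₀ : ∀ i, |y₀ i| ≤ N
  cong : ∀ σ ∈ Sg (Fin n), ∃ c, y σ - y₀ = U *ᵥ c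

open Classical in
/-- Number of pairs in the box of side `R` whose difference is orthogonal to all `W j`. -/
noncomputable def orthPairs {n k : ℕ} (W : Fin k → Fin n → ℤ) (R : ℕ) : ℕ :=
  ((Bx (Fin n) R ×ˢ Bx (Fin n) R).filter fun p => ∀ j, W j ⬝ᵥ (p.1 - p.2) = 0).card

open Classical in
/-- Number of pairs of sign vectors whose difference on `J` is representable. -/
noncomputable def reprPairs {n g : ℕ} (A : ZM n) (P : Matrix (Fin n) (Fin g) ℤ)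
    (J : Finset (Fin n)) (R q : ℕ) : ℕ :=
  ((Sg (Fin n) ×ˢ Sg (Fin n)).filter fun p => Repr A P R q (res J (p.1 - p.2))).card

/-- Output of the elimination step, common to both endgames. -/
structure Elim {n v r : ℕ} (A : ZM n) (U : Matrix (Fin n) (Fin v) ℤ) (Q q : ℕ)
    (Ψ : Matrix (Fin n ⊕ Fin n) (Fin n) ℤ) (W : ZM n) (f : Fin r → Fin n) : Prop where
  q1 : 1 ≤ q
  qQ : q ≤ Q
  bΨ : ∀ a l, |Ψ a l| ≤ (n + 2) * Q
  bW : ∀ a l, |W a l| ≤ Q
  id : fromCols ((q : ℤ) • (1 : ZM n)) (1 : ZM n) * Ψ = (2 * q : ℤ) • (1 : ZM n) - A * W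
  ind : hg (fromCols (fromRows (0 : Matrix (Fin n) (Fin v) ℤ) U) ((Ψ * A).submatrix _root_.id f)) ≠ 0
  span : ∀ z : Fin n → ℤ, ∃ c : ℤ, c ≠ 0 ∧ ∃ e, c • (Ψ *ᵥ z) =
    fromCols (fromRows (0 : Matrix (Fin n) (Fin v) ℤ) U) ((Ψ * A).submatrix _root_.id f) *ᵥ e

end Vale.Agent.P160
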