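import Vale.Agent.P160.Unfold

/-!
P160 task Box. Keep the statements unchanged; add lemmas freely (start them with `box_`).

Many short vectors in a lattice of small covolume. Let `M` be the cardinality on the right and `G = ρ⁻² • gr 1 P`, so
`√det G = √(hg P) / ρ ^ card κ`. By `gauss` and `lintegral_unfold` it suffices to show for every real `s`:
`∑' z, exp (-π |P (s+z)|² / ρ²) ≤ 3 ^ card ι * M`. Group the `z` by `b = floor (P (s+z) / ρ) : ι → ℤ`: each fibre has at most `M`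
points (differences `P (z - z₀)` are integer vectors with entries of absolute value `< ρ`; `P` is injective), and on the fibre
the term is at most `∏ i, exp (-π m(b i)²)` with `m b = b` for `b ≥ 0`, `-b-1` otherwise; `∑' b : ℤ, exp (-π m(b)²) ≤ 3`
(bound `exp (-π m²) ≤ (1/4)^m`). Work in `ENNReal` with finite sub-sums (`ENNReal.tsum_eq_iSup_sum`, `Finset.prod_univ_sum`).
-/

set_option linter.unusedSectionVars false
set_option linter.unusedVariables false

namespace Vale.Agent.P160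

open Finset Matrix MeasureTheory

variable {ι κ : Type} [Fintype ι] [DecidableEq ι] [Fintype κ] [DecidableEq κ]

/-- Geometric weight on the integers. -/
noncomputable def box_w : ℤ → ℝ := Int.rec (fun n => (1 / 4 : ℝ) ^ n) (fun n => (1 / 4 : ℝ) ^ n)

theorem box_w_nonneg (b : ℤ) : 0 ≤ box_w b := by
  cases b with
  | ofNat n => exact pow_nonneg (by norm_num) n
  | negSucc n => exact pow_nonneg (by norm_num) n

theorem box_w_sum (T : Finset ℤ) : ∑ t ∈ T, box_w t ≤ 3 := by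
  have h := hasSum_geometric_of_lt_one (r := (1 / 4 : ℝ)) (by norm_num) (by norm_num)
  have h2 : HasSum box_w ((1 - 1 / 4 : ℝ)⁻¹ + (1 - 1 / 4 : ℝ)⁻¹) := HasSum.int_rec h h
  refine (sum_le_hasSum T (fun i _ => box_w_nonneg i) h2).trans ?_
  norm_num

theorem box_exp_le {y : ℝ} {n : ℕ} (h : (n : ℝ) ≤ |y|) :
    Real.exp (-Real.pi * y ^ 2) ≤ (1 / 4 : ℝ) ^ n := by
  have h1 : (n : ℝ) ≤ y ^ 2 := by
    have h2 : (n : ℝ) ≤ (n : ℝ) ^ 2 := by exact_mod_cast Nat.le_self_pow two_ne_zero n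
    have h3 : (n : ℝ) ^ 2 ≤ |y| ^ 2 := pow_le_pow_left₀ (Nat.cast_nonneg n) h 2
    rw [sq_abs] at h3
    linarith
  have h4 : Real.exp (-Real.pi) ≤ 1 / 4 := by
    rw [Real.exp_neg, one_div]
    refine inv_anti₀ (by norm_num) ?_
    linarith [Real.add_one_le_exp Real.pi, Real.pi_gt_three]
  calc Real.exp (-Real.pi * y ^ 2) ≤ Real.exp (n * -Real.pi) := by
        refine Real.exp_le_exp.2 ?_
        nlinarith [Real.pi_pos]
    _ = Real.exp (-Real.pi) ^ n := Real.exp_nat_mul _ _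
    _ ≤ _ := pow_le_pow_left₀ (Real.exp_pos _).le h4 n

theorem box_exp_w (y : ℝ) : Real.exp (-Real.pi * y ^ 2) ≤ box_w ⌊y⌋ := by
  have h1 := Int.floor_le y
  have h2 := Int.lt_floor_add_one y
  generalize ⌊y⌋ = b at h1 h2
  cases b with
  | ofNat n =>
    refine box_exp_le (n := n) (le_trans ?_ (le_abs_self y))
    simpa using h1
  | negSucc n =>
    refine box_exp_le (n := n) (le_trans ?_ (neg_le_abs y))
    rw [Int.cast_negSucc] at h2
    push_cast at h2
    linarith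

theorem box_prod_sum (S : Finset (ι → ℤ)) :
    ∑ b ∈ S, ∏ i, box_w (b i) ≤ 3 ^ Fintype.card ι := by
  have h1 : S ⊆ Fintype.piFinset fun i => S.image fun b => b i := fun b hb =>
    Fintype.mem_piFinset.2 fun i => mem_image_of_mem _ hb
  refine (sum_le_sum_of_subset_of_nonneg h1 fun b _ _ =>
    prod_nonneg fun i _ => box_w_nonneg _).trans ?_
  rw [← Finset.prod_univ_sum, ← card_univ, ← prod_const]
  exact prod_le_prod (fun i _ => sum_nonneg fun t _ => box_w_nonneg t) fun i _ => box_w_sum _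

theorem box_qf (P : Matrix ι κ ℤ) (r : ℝ) (x : κ → ℝ) :
    qf ((r ^ 2)⁻¹ • gr 1 P) x = ∑ i, ((rm P *ᵥ x) i / r) ^ 2 := by
  have h : qf ((r ^ 2)⁻¹ • gr 1 P) x = (r ^ 2)⁻¹ * qf (gr 1 P) x := by
    simp only [qf, smul_mulVec, dotProduct_smul, smul_eq_mul]
  rw [h, qf_gr, qf_one, Finset.mul_sum]
  refine sum_congr rfl fun i _ => ?_
  rw [div_pow, div_eq_inv_mul]

open Classical in
theorem box_fibre {P : Matrix ι κ ℤ} (hP : hg P ≠ 0) {ρ : ℕ} (hρ : 1 ≤ ρ) (s : κ → ℝ)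
    (S : Finset (κ → ℤ)) (b : ι → ℤ) :
    (S.filter fun z => (fun i => ⌊(rm P *ᵥ (s + iv z)) i / ρ⌋) = b).card ≤
      ((Bs ι ρ).filter fun w => ∃ c, w = P *ᵥ c).card := by
  rcases (S.filter fun z => (fun i => ⌊(rm P *ᵥ (s + iv z)) i / ρ⌋) = b).eq_empty_or_nonempty
    with h | ⟨z₀, h₀⟩
  · rw [h]
    exact Nat.zero_le _
  have hρ' : (0 : ℝ) < ρ := by exact_mod_cast hρ
  refine card_le_card_of_injOn (fun z => P *ᵥ (z - z₀)) (fun z hz => ?_) fun z hz z' hz' e => ?_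
  · refine mem_coe.2 (mem_filter.2 ⟨mem_Bs.2 fun i => ?_, _, rfl⟩)
    have e1 := congrFun (mem_filter.1 (mem_coe.1 hz)).2 i
    have e2 := congrFun (mem_filter.1 h₀).2 i
    have e3 := Int.abs_sub_lt_one_of_floor_eq_floor (e1.trans e2.symm)
    have e4 : (rm P *ᵥ (s + iv z)) i - (rm P *ᵥ (s + iv z₀)) i = ((P *ᵥ (z - z₀)) i : ℝ) := by
      have e5 := congrFun (iv_mulVec P (z - z₀)) i
      have e6 : iv (z - z₀) = (s + iv z) - (s + iv z₀) := by
        ext j
        simp [iv]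
      rw [e6, mulVec_sub (rm P)] at e5
      exact e5.symm
    rw [← sub_div, e4, abs_div, abs_of_pos hρ', div_lt_one hρ'] at e3
    exact_mod_cast e3
  · have e1 : P *ᵥ (z - z') = 0 := by
      have e2 : z - z' = (z - z₀) - (z' - z₀) := by abel
      rw [e2, mulVec_sub]
      exact sub_eq_zero.2 e
    exact sub_eq_zero.1 (hg_ne_zero_iff.1 hP _ e1)

open Classical in
theorem box_sum {P : Matrix ι κ ℤ} (hP : hg P ≠ 0) {ρ : ℕ} (hρ : 1 ≤ ρ) (s : κ → ℝ)
    (S : Finset (κ → ℤ)) :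
    ∑ z ∈ S, Real.exp (-Real.pi * qf (((ρ : ℝ) ^ 2)⁻¹ • gr 1 P) (s + iv z)) ≤
      3 ^ Fintype.card ι * (((Bs ι ρ).filter fun w => ∃ c, w = P *ᵥ c).card : ℝ) := by
  have h1 : ∀ z ∈ S, Real.exp (-Real.pi * qf (((ρ : ℝ) ^ 2)⁻¹ • gr 1 P) (s + iv z)) ≤
      (fun b : ι → ℤ => ∏ i, box_w (b i)) (fun i => ⌊(rm P *ᵥ (s + iv z)) i / ρ⌋) := by
    intro z _
    rw [box_qf, Finset.mul_sum, Real.exp_sum]
    exact prod_le_prod (fun i _ => (Real.exp_pos _).le) fun i _ => box_exp_w _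
  refine (sum_le_sum h1).trans ?_
  rw [Finset.sum_comp (fun b : ι → ℤ => ∏ i, box_w (b i))
    (fun z : κ → ℤ => fun i => ⌊(rm P *ᵥ (s + iv z)) i / ρ⌋)]
  refine le_trans ?_ (mul_le_mul_of_nonneg_right (box_prod_sum
    (S.image fun z : κ → ℤ => fun i => ⌊(rm P *ᵥ (s + iv z)) i / ρ⌋)) (Nat.cast_nonneg _))
  rw [Finset.sum_mul]
  refine sum_le_sum fun b _ => ?_
  rw [nsmul_eq_mul, mul_comm]
  refine mul_le_mul_of_nonneg_left ?_ (prod_nonneg fun i _ => box_w_nonneg _)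
  exact_mod_cast box_fibre hP hρ s S b

open Classical in
theorem box {P : Matrix ι κ ℤ} (hP : hg P ≠ 0) {ρ : ℕ} (hρ : 1 ≤ ρ) :
    (ρ : ℝ) ^ Fintype.card κ ≤ 3 ^ Fintype.card ι * √(hg P : ℝ) *
      (((Bs ι ρ).filter fun w => ∃ c, w = P *ᵥ c).card : ℝ) := by
  have hρ' : (0 : ℝ) < ρ := by exact_mod_cast hρ
  have hG : (((ρ : ℝ) ^ 2)⁻¹ • gr 1 P).PosDef :=
    (gr_posDef PosDef.one hP).smul (by positivity)
  have hs := box_sum hP hρ
  have hdet : √(((ρ : ℝ) ^ 2)⁻¹ • gr 1 P).det = √(hg P : ℝ) / (ρ : ℝ) ^ Fintype.card κ := by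
    rw [det_smul, det_gr_one, inv_pow, ← pow_mul, mul_comm 2, pow_mul, ← div_eq_inv_mul,
      Real.sqrt_div' _ (by positivity), Real.sqrt_sq (by positivity)]
  have hg1 := gauss hG
  have hi := integrable_gauss hG
  generalize (((Bs ι ρ).filter fun w => ∃ c, w = P *ᵥ c).card : ℝ) = M at hs ⊢
  generalize ((ρ : ℝ) ^ 2)⁻¹ • gr 1 P = G at hs hdet hg1 hi
  have hM : 0 ≤ 3 ^ Fintype.card ι * M := by simpa using hs 0 ∅
  have hm : Measurable fun x => ENNReal.ofReal (Real.exp (-Real.pi * qf G x)) :=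
    ENNReal.measurable_ofReal.comp
      (Real.continuous_exp.comp (continuous_const.mul (continuous_qf G))).measurable
  have h1 : ∫ x, Real.exp (-Real.pi * qf G x) ≤ 3 ^ Fintype.card ι * M := by
    rw [← ENNReal.ofReal_le_ofReal_iff hM, ofReal_integral_eq_lintegral_ofReal hi
      (Filter.Eventually.of_forall fun x => (Real.exp_pos _).le), lintegral_unfold hm]
    refine (lintegral_mono (g := fun _ => ENNReal.ofReal (3 ^ Fintype.card ι * M))
      fun x => ?_).trans ?_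
    · beta_reduce
      rw [ENNReal.tsum_eq_iSup_sum]
      refine iSup_le fun S => ?_
      rw [← ENNReal.ofReal_sum_of_nonneg fun z _ => (Real.exp_pos _).le]
      exact ENNReal.ofReal_le_ofReal (hs x S)
    · rw [setLIntegral_const, volume_cell, mul_one]
  have h2 := mul_le_mul_of_nonneg_left h1 (Real.sqrt_nonneg G.det)
  rw [hg1, hdet, div_mul_eq_mul_div, le_div_iff₀ (by positivity), one_mul] at h2
  linarith

end Vale.Agent.P160
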