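import Vale.Agent.P160.Comb

/-!
P160 task Divs. Keep the statements unchanged; add lemmas freely (start them with `divs_`).

`card_small_divisors`: split a divisor `f < y` of `d` into the part made of primes `p` with `p² ≤ n` and the rest. First part: determined by at most
`√n + 1` exponents, each at most `log₂ d ≤ n²`, so at most `(n² + 1)^(√n + 1) = 2^(o(n))` choices. Second part: the list `l` of prime factors
of `d` with `p² > n` has length `≤ 2n` (product `≤ n^n`), the large primes of `f` form a sublist of length `≤ 2 δ n`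
(`Nat.primeFactorsList_sublist_of_dvd`, `List.Sublist.filter`, `List.sublistsLen`), use `bin` with `m = 2n`. A prime power dividing `d` has at most
`log₂ d ≤ n²` choices times the number of primes, crude bound `n⁴`. `exists_Dv_dvd`: the least divisor `f` of `m` with `y ≤ f`, `g = minFac f`.
`exists_Dv_unitary`: a subset of minimal cardinality with product at least `y`.
-/

set_option linter.unusedSectionVars false
set_option linter.unusedVariables false

namespace Vale.Agent.P160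

open Finset Matrix Filter

theorem divs_split (n : ℕ) {d : ℕ} (hd : d ≠ 0) : ∃ d₁ d₂ : ℕ, d = d₁ * d₂ ∧
    (∀ p : ℕ, p.Prime → p ∣ d₁ → p ^ 2 ≤ n) ∧ ∀ p : ℕ, p.Prime → p ∣ d₂ → n ≤ p ^ 2 := by
  induction d using induction_on_primes with
  | zero => exact absurd rfl hd
  | one =>
    exact ⟨1, 1, rfl, fun p hp h => absurd (Nat.dvd_one.1 h) hp.ne_one,
      fun p hp h => absurd (Nat.dvd_one.1 h) hp.ne_one⟩
  | prime_mul q a hq ih =>
    obtain ⟨d₁, d₂, rfl, h₁, h₂⟩ := ih (right_ne_zero_of_mul hd)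
    by_cases hqn : q ^ 2 ≤ n
    · refine ⟨q * d₁, d₂, by ring, fun p hp h => ?_, h₂⟩
      rcases (Nat.Prime.dvd_mul hp).1 h with h | h
      · rwa [(Nat.prime_dvd_prime_iff_eq hp hq).1 h]
      · exact h₁ p hp h
    · refine ⟨d₁, q * d₂, by ring, h₁, fun p hp h => ?_⟩
      rcases (Nat.Prime.dvd_mul hp).1 h with h | h
      · rw [(Nat.prime_dvd_prime_iff_eq hp hq).1 h]
        omega
      · exact h₂ p hp h

theorem divs_two {n d k : ℕ} (hd : d ≤ n ^ n) (hk : 2 ^ k ≤ d) : k ≤ n ^ 2 := by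
  have h1 : n ^ n ≤ (2 ^ n) ^ n := Nat.pow_le_pow_left Nat.lt_two_pow_self.le n
  rw [← pow_mul, ← sq] at h1
  exact (Nat.pow_le_pow_iff_right (by norm_num)).1 (hk.trans (hd.trans h1))

theorem divs_fac {n d p k : ℕ} (hd0 : d ≠ 0) (hd : d ≤ n ^ n) (hp : p.Prime) (hk : p ^ k ∣ d) :
    k ≤ n ^ 2 :=
  divs_two hd ((Nat.pow_le_pow_left hp.two_le k).trans (Nat.le_of_dvd (Nat.pos_of_ne_zero hd0) hk))

theorem divs_tau {n d : ℕ} (hd0 : d ≠ 0) (hd : d ≤ n ^ n)
    (h : ∀ p : ℕ, p.Prime → p ∣ d → p ^ 2 ≤ n) :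
    d.divisors.card ≤ (n ^ 2 + 1) ^ (Nat.sqrt n + 1) := by
  rw [Nat.card_divisors hd0]
  refine (Finset.prod_le_pow_card _ _ (n ^ 2 + 1) fun p hp => ?_).trans
    (Nat.pow_le_pow_right (by omega) ?_)
  · exact Nat.succ_le_succ (divs_fac hd0 hd (Nat.prime_of_mem_primeFactors hp) (Nat.ordProj_dvd d p))
  · rw [← Finset.card_range (Nat.sqrt n + 1)]
    refine Finset.card_le_card fun p hp => Finset.mem_range.2 (Nat.lt_succ_of_le ?_)
    exact Nat.le_sqrt'.2 (h p (Nat.prime_of_mem_primeFactors hp) (Nat.dvd_of_mem_primeFactors hp))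

theorem divs_list {n : ℕ} (l : List ℕ) (h : ∀ p ∈ l, n ≤ p ^ 2) : n ^ l.length ≤ l.prod ^ 2 := by
  induction l with
  | nil => simp
  | cons a l ih =>
    rw [List.length_cons, List.prod_cons, mul_pow, pow_succ']
    exact Nat.mul_le_mul (h a (by simp)) (ih fun p hp => h p (by simp [hp]))

theorem divs_len {n f : ℕ} (hf : f ≠ 0) (h : ∀ p : ℕ, p.Prime → p ∣ f → n ≤ p ^ 2) :
    n ^ f.primeFactorsList.length ≤ f ^ 2 := by
  have := divs_list (n := n) f.primeFactorsList fun p hp =>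
    h p (Nat.prime_of_mem_primeFactorsList hp) (Nat.dvd_of_mem_primeFactorsList hp)
  rwa [Nat.prod_primeFactorsList hf] at this

theorem divs_rough {d m k : ℕ} (hd0 : d ≠ 0) (hm : d.primeFactorsList.length ≤ m) (S : Finset ℕ)
    (hS : ∀ f ∈ S, f ∣ d ∧ f.primeFactorsList.length ≤ k) :
    S.card ≤ ∑ j ∈ range (k + 1), m.choose j := by
  have hsub : S ⊆ (range (k + 1)).biUnion fun j =>
      (d.primeFactorsList.sublistsLen j).toFinset.image List.prod := by
    intro f hf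
    obtain ⟨h1, h2⟩ := hS f hf
    refine Finset.mem_biUnion.2 ⟨f.primeFactorsList.length, Finset.mem_range.2 (by omega),
      Finset.mem_image.2 ⟨f.primeFactorsList, ?_, Nat.prod_primeFactorsList ?_⟩⟩
    · rw [List.mem_toFinset, List.mem_sublistsLen]
      exact ⟨Nat.primeFactorsList_sublist_of_dvd h1 hd0, rfl⟩
    · rintro rfl
      exact hd0 (zero_dvd_iff.1 h1)
  refine (Finset.card_le_card hsub).trans (Finset.card_biUnion_le.trans
    (Finset.sum_le_sum fun j _ => Finset.card_image_le.trans ((List.toFinset_card_le _).trans ?_)))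
  rw [List.length_sublistsLen]
  exact Nat.choose_le_choose j hm

theorem divs_ev {c : ℝ} (hc : 0 < c) :
    ∀ᶠ n : ℕ in atTop, 2 ≤ n ∧ Real.exp (6 * √(n : ℝ) * Real.log n) ≤ (2 : ℝ) ^ (c * n) := by
  have h2 : 0 < Real.log 2 := Real.log_pos (by norm_num)
  have h1 := (isLittleO_log_rpow_atTop (r := 1 / 2) (by norm_num)).bound
    (c := c * Real.log 2 / 6) (by positivity)
  filter_upwards [tendsto_natCast_atTop_atTop.eventually h1, eventually_ge_atTop 2] with n hn hn2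
  refine ⟨hn2, ?_⟩
  have h0 : (0 : ℝ) ≤ n := Nat.cast_nonneg n
  rw [← Real.sqrt_eq_rpow, Real.norm_eq_abs, Real.norm_eq_abs,
    abs_of_nonneg (Real.sqrt_nonneg _)] at hn
  rw [Real.rpow_def_of_pos (by norm_num), Real.exp_le_exp]
  have h3 : Real.log n ≤ c * Real.log 2 / 6 * √(n : ℝ) := (le_abs_self _).trans hn
  have h4 : √(n : ℝ) * √(n : ℝ) = n := Real.mul_self_sqrt h0
  calc 6 * √(n : ℝ) * Real.log n ≤ 6 * √(n : ℝ) * (c * Real.log 2 / 6 * √(n : ℝ)) :=
        mul_le_mul_of_nonneg_left h3 (by positivity)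
    _ = c * Real.log 2 * (√(n : ℝ) * √(n : ℝ)) := by ring
    _ = Real.log 2 * (c * n) := by rw [h4]; ring

theorem divs_pow {n k : ℕ} (hn : 2 ≤ n) (hk : (k : ℝ) ≤ 6 * √(n : ℝ)) :
    ((n ^ k : ℕ) : ℝ) ≤ Real.exp (6 * √(n : ℝ) * Real.log n) := by
  have h0 : (1 : ℝ) ≤ n := by exact_mod_cast (by omega : 1 ≤ n)
  rw [Nat.cast_pow, ← Real.exp_log (x := (n : ℝ) ^ k) (by positivity), Real.log_pow,
    Real.exp_le_exp]
  exact mul_le_mul_of_nonneg_right hk (Real.log_nonneg h0)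

theorem divs_cube {n : ℕ} (hn : 2 ≤ n) : n ^ 2 + 1 ≤ n ^ 3 := by
  have h : 1 ≤ n ^ 2 := Nat.one_le_pow _ _ (by omega)
  calc n ^ 2 + 1 ≤ 2 * n ^ 2 := by omega
    _ ≤ n * n ^ 2 := Nat.mul_le_mul_right _ hn
    _ = n ^ 3 := by ring

theorem divs_sqrt {n : ℕ} (hn : 2 ≤ n) : (1 : ℝ) ≤ √(n : ℝ) :=
  Real.one_le_sqrt.2 (by exact_mod_cast (by omega : 1 ≤ n))

theorem card_small_divisors {ε : ℝ} (hε : 0 < ε) : ∃ δ > (0 : ℝ), ∀ᶠ n : ℕ in atTop, ∀ d y : ℕ,
    1 ≤ d → d ≤ n ^ n → (y : ℝ) ≤ nn δ n →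
      ((d.divisors.filter fun f => f < y).card : ℝ) ≤ (2 : ℝ) ^ (ε * n) := by
  obtain ⟨α, hα, hb⟩ := bin (ε := ε / 4) (by positivity) 1
  refine ⟨α, hα, ?_⟩
  filter_upwards [divs_ev (c := ε / 2) (by positivity)] with n ⟨hn, hev⟩ d y hd1 hd hy
  obtain ⟨d₁, d₂, rfl, h₁, h₂⟩ := divs_split n (d := d) (by omega)
  have hd₁ : d₁ ≠ 0 := by rintro rfl; simp at hd1
  have hd₂ : d₂ ≠ 0 := by rintro rfl; simp at hd1
  have hle₁ : d₁ ≤ n ^ n := (Nat.le_mul_of_pos_right _ (Nat.pos_of_ne_zero hd₂)).trans hd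
  have hle₂ : d₂ ≤ n ^ n := (Nat.le_mul_of_pos_left _ (Nat.pos_of_ne_zero hd₁)).trans hd
  have hn1 : (1 : ℝ) < n := by exact_mod_cast (by omega : 1 < n)
  have hsub : ((d₁ * d₂).divisors.filter fun f => f < y) ⊆
      Finset.image₂ (· * ·) d₁.divisors (d₂.divisors.filter fun f => f < y) := by
    intro f hf
    obtain ⟨h1, h2⟩ := Finset.mem_filter.1 hf
    obtain ⟨f₁, f₂, e₁, e₂, rfl⟩ := exists_dvd_and_dvd_of_dvd_mul (Nat.dvd_of_mem_divisors h1)
    refine Finset.mem_image₂.2 ⟨f₁, Nat.mem_divisors.2 ⟨e₁, hd₁⟩, f₂,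
      Finset.mem_filter.2 ⟨Nat.mem_divisors.2 ⟨e₂, hd₂⟩, lt_of_le_of_lt ?_ h2⟩, rfl⟩
    exact Nat.le_mul_of_pos_left _ (Nat.pos_of_dvd_of_pos e₁ (Nat.pos_of_ne_zero hd₁))
  have hA : (d₁.divisors.card : ℝ) ≤ (2 : ℝ) ^ (ε / 2 * n) := by
    refine le_trans ?_ ((divs_pow (k := 3 * (Nat.sqrt n + 1)) hn ?_).trans hev)
    · rw [pow_mul]
      exact_mod_cast (divs_tau hd₁ hle₁ h₁).trans (Nat.pow_le_pow_left (divs_cube hn) _)
    · have := divs_sqrt hn
      have h3 : (Nat.sqrt n : ℝ) ≤ √(n : ℝ) := Real.nat_sqrt_le_real_sqrt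
      push_cast
      linarith
  have hB : ((d₂.divisors.filter fun f => f < y).card : ℝ) ≤ (2 : ℝ) ^ (ε / 2 * n) := by
    have hm : d₂.primeFactorsList.length ≤ 2 * n := by
      have h3 := (divs_len hd₂ h₂).trans (Nat.pow_le_pow_left hle₂ 2)
      rw [← pow_mul, mul_comm] at h3
      exact (Nat.pow_le_pow_iff_right (by omega)).1 h3
    have h4 := divs_rough (k := ⌊α * (2 * n : ℕ)⌋₊) hd₂ hm (d₂.divisors.filter fun f => f < y)
      fun f hf => by
        obtain ⟨h1, h2⟩ := Finset.mem_filter.1 hf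
        have hfd := Nat.dvd_of_mem_divisors h1
        have hf0 : f ≠ 0 := (Nat.pos_of_mem_divisors h1).ne'
        refine ⟨hfd, Nat.le_floor ?_⟩
        have h5 : ((n : ℝ)) ^ f.primeFactorsList.length ≤ (f : ℝ) ^ 2 := by
          exact_mod_cast divs_len hf0 fun p hp h => h₂ p hp (h.trans hfd)
        have h6 : (f : ℝ) ≤ nn α n := le_trans (by exact_mod_cast h2.le) hy
        have h7 := h5.trans (pow_le_pow_left₀ (Nat.cast_nonneg f) h6 2)
        rw [nn, ← Real.exp_nat_mul, ← Real.log_le_iff_le_exp (by positivity), Real.log_pow] at h7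
        have h8 := Real.log_pos hn1
        refine le_of_mul_le_mul_right (h7.trans_eq ?_) h8
        push_cast
        ring
    have h5 := hb (2 * n) ⌊α * (2 * n : ℕ)⌋₊ (Nat.floor_le (by positivity))
    simp only [Nat.cast_one, one_pow, mul_one] at h5
    have e : ε / 4 * ((2 * n : ℕ) : ℝ) = ε / 2 * n := by
      push_cast
      ring
    rw [e] at h5
    refine le_trans ?_ h5
    exact_mod_cast h4
  have e : (2 : ℝ) ^ (ε * n) = (2 : ℝ) ^ (ε / 2 * n) * (2 : ℝ) ^ (ε / 2 * n) := by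
    rw [← Real.rpow_add (by norm_num)]
    congr 1
    ring
  rw [e]
  refine le_trans ?_ (mul_le_mul hA hB (Nat.cast_nonneg _) (by positivity))
  exact_mod_cast (Finset.card_le_card hsub).trans (Finset.card_image₂_le _ _ _)

theorem card_Dv {ε : ℝ} (hε : 0 < ε) : ∃ δ > (0 : ℝ), ∀ᶠ n : ℕ in atTop, ∀ d y : ℕ,
    1 ≤ d → d ≤ n ^ n → (y : ℝ) ≤ nn δ n → ((Dv d y).card : ℝ) ≤ (2 : ℝ) ^ (ε * n) := by
  classical
  obtain ⟨δ, hδ, hb⟩ := card_small_divisors (ε := ε / 2) (by positivity)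
  refine ⟨δ, hδ, ?_⟩
  filter_upwards [hb, divs_ev (c := ε / 2) (by positivity)] with n hb ⟨hn, hev⟩ d y hd1 hd hy
  have hd0 : d ≠ 0 := by omega
  have hsub : Dv d y ⊆ Finset.image₂ (· * ·) (d.divisors.filter fun f => f < y)
      (Finset.image₂ (· ^ ·) d.primeFactors (range (n ^ 2 + 1))) := by
    intro f hf
    rw [Dv, Finset.mem_filter] at hf
    obtain ⟨h1, -, f', g, rfl, h2, hg⟩ := hf
    have h3 := Nat.dvd_of_mem_divisors h1
    obtain ⟨p, k, hp, hk, rfl⟩ := (isPrimePow_nat_iff g).1 hg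
    have h4 : p ^ k ∣ d := (Dvd.intro_left _ rfl).trans h3
    refine Finset.mem_image₂.2 ⟨f', Finset.mem_filter.2
      ⟨Nat.mem_divisors.2 ⟨(Dvd.intro _ rfl).trans h3, hd0⟩, h2⟩, p ^ k,
      Finset.mem_image₂.2 ⟨p, ?_, k, ?_, rfl⟩, rfl⟩
    · exact Nat.mem_primeFactors.2 ⟨hp, (dvd_pow_self p hk.ne').trans h4, hd0⟩
    · exact Finset.mem_range.2 (Nat.lt_succ_of_le (divs_fac hd0 hd hp h4))
  have hω : d.primeFactors.card ≤ n ^ 2 := by
    refine divs_two hd (le_trans ?_ (Nat.le_of_dvd hd1 (Nat.prod_primeFactors_dvd d)))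
    exact Finset.pow_card_le_prod _ _ _ fun p hp => (Nat.prime_of_mem_primeFactors hp).two_le
  have hB : ((Finset.image₂ (· ^ ·) d.primeFactors (range (n ^ 2 + 1))).card : ℝ) ≤
      (2 : ℝ) ^ (ε / 2 * n) := by
    refine le_trans ?_ ((divs_pow (k := 5) hn ?_).trans hev)
    · have h5 : (Finset.image₂ (· ^ ·) d.primeFactors (range (n ^ 2 + 1))).card ≤ n ^ 5 := by
        refine (Finset.card_image₂_le _ _ _).trans ?_
        rw [Finset.card_range, show n ^ 5 = n ^ 2 * n ^ 3 by ring]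
        exact Nat.mul_le_mul hω (divs_cube hn)
      exact_mod_cast h5
    · have := divs_sqrt hn
      push_cast
      linarith
  have e : (2 : ℝ) ^ (ε * n) = (2 : ℝ) ^ (ε / 2 * n) * (2 : ℝ) ^ (ε / 2 * n) := by
    rw [← Real.rpow_add (by norm_num)]
    congr 1
    ring
  rw [e]
  refine le_trans ?_ (mul_le_mul (hb d y hd1 hd hy) hB (Nat.cast_nonneg _) (by positivity))
  exact_mod_cast (Finset.card_le_card hsub).trans (Finset.card_image₂_le _ _ _)

theorem exists_Dv_dvd {d m y : ℕ} (hd : d ≠ 0) (hm : m ∣ d) (hy : 2 ≤ y) (hym : y ≤ m) :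
    ∃ f ∈ Dv d y, f ∣ m := by
  classical
  have hex : ∃ f, f ∣ m ∧ y ≤ f := ⟨m, dvd_rfl, hym⟩
  obtain ⟨h1, h2⟩ := Nat.find_spec hex
  have hp : (Nat.find hex).minFac.Prime := Nat.minFac_prime (by omega)
  obtain ⟨f', hf'⟩ := Nat.minFac_dvd (Nat.find hex)
  refine ⟨Nat.find hex, ?_, h1⟩
  rw [Dv, Finset.mem_filter]
  refine ⟨Nat.mem_divisors.2 ⟨h1.trans hm, hd⟩, h2, f', _, hf'.trans (mul_comm _ _), ?_,
    hp.isPrimePow⟩
  by_contra hlt
  have h3 : f' < Nat.find hex := by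
    have h4 := hp.two_le
    have h5 : 0 < f' := by omega
    calc f' < 2 * f' := by omega
      _ ≤ (Nat.find hex).minFac * f' := Nat.mul_le_mul_right _ h4
      _ = Nat.find hex := hf'.symm
  exact Nat.find_min hex h3 ⟨(Dvd.intro_left _ hf'.symm).trans h1, by omega⟩

theorem exists_Dv_unitary {d y : ℕ} (hd : d ≠ 0) (hy : 2 ≤ y) (T : Finset ℕ)
    (hT : ∀ p ∈ T, p.Prime) (h : y ≤ ∏ p ∈ T, p ^ d.factorization p) :
    ∃ T' ⊆ T, (∏ p ∈ T', p ^ d.factorization p) ∈ Dv d y := by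
  classical
  induction T using Finset.induction_on with
  | empty =>
    rw [Finset.prod_empty] at h
    omega
  | insert p T hp ih =>
    by_cases h' : y ≤ ∏ p ∈ T, p ^ d.factorization p
    · obtain ⟨T', h1, h2⟩ := ih (fun q hq => hT q (Finset.mem_insert_of_mem hq)) h'
      exact ⟨T', h1.trans (Finset.subset_insert _ _), h2⟩
    · refine ⟨insert p T, Finset.Subset.refl _, ?_⟩
      rw [Dv, Finset.mem_filter]
      refine ⟨Nat.mem_divisors.2 ⟨?_, hd⟩, h, ∏ p ∈ T, p ^ d.factorization p,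
        p ^ d.factorization p, by rw [Finset.prod_insert hp, mul_comm], by omega, ?_⟩
      · refine Finset.prod_dvd_of_isRelPrime (fun a ha b hb hab => ?_) fun q _ =>
          Nat.ordProj_dvd d q
        exact Nat.coprime_iff_isRelPrime.1 (Nat.Coprime.pow _ _
          ((Nat.coprime_primes (hT a ha) (hT b hb)).2 hab))
      · refine (hT p (Finset.mem_insert_self _ _)).isPrimePow.pow fun h0 => h' ?_
        rwa [Finset.prod_insert hp, h0, pow_zero, one_mul] at h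

end Vale.Agent.P160
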