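import Vale.Agent.P160.Adj
import Vale.Agent.P160.Divs

/-!
P160 task Cases. Keep the statements unchanged; add lemmas freely (start them with `cases_`).

`v, c` from `exists_prim_ker`, `κ` from `minor_eq`, `k = |κ| ≥ 1`. Case `y^(n+1) ≤ k^s`: call `i` good for a prime `p` if `¬ p ∣ v i` (`p` odd) or
`¬ 4 ∣ v i` (`p = 2`); `T i` = primes of `k` for which `i` is good; swapping products, `∏ i, ∏ p ∈ T i, p^(v_p k) ≥ k^s` (`good_card`,
`Nat.factorization_prod_pow_eq_self`), so some `i` has `y ≤ ∏ p ∈ T i, p^(v_p k) ≤ ∏ p ∈ T i, p^(v_p d)`, `d = k (v i)²` (`T i` is nonempty,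
so `v i ≠ 0`). `exists_Dv_unitary` gives `f`; `f` is coprime to `d / f` and `v i ∣ 2 (d/f)` (compare factorizations); scale `mn_ker`.
Otherwise take `i` maximising `|v i|`. If `d^20 ≤ n^n`: `InCube` with `u = -v'/v i`. Else `hnum` gives `4 y⁶ k³ < d`, so
`(2 d y³)² ≤ |v i|⁶`; `sol_of_ker`.
-/

set_option linter.unusedSectionVars false
set_option linter.unusedVariables false

namespace Vale.Agent.P160

open Finset Matrix Filter

theorem cases_fact {d : ℕ} (T : Finset ℕ) (hT : ∀ p ∈ T, p.Prime) (q : ℕ) :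
    (∏ p ∈ T, p ^ d.factorization p).factorization q = if q ∈ T then d.factorization q else 0 := by
  rw [Nat.factorization_prod fun p hp => pow_ne_zero _ (hT p hp).ne_zero, Finset.sum_apply']
  rw [Finset.sum_congr rfl (g := fun p => if p = q then d.factorization p else 0) fun p hp => by
    rw [(hT p hp).factorization_pow, Finsupp.single_apply]]
  rw [Finset.sum_ite_eq']

theorem cases_unit {d V f : ℕ} (hd : d ≠ 0) (hV : V ∣ d) (T : Finset ℕ) (hT : ∀ p ∈ T, p.Prime)
    (hg : ∀ p ∈ T, if p = 2 then ¬ 4 ∣ V else ¬ p ∣ V)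
    (hf : f = ∏ p ∈ T, p ^ d.factorization p) (hfd : f ∣ d) :
    Nat.Coprime f (d / f) ∧ V ∣ 2 * (d / f) := by
  have hf0 : f ≠ 0 := by rintro rfl; exact hd (zero_dvd_iff.1 hfd)
  have hV0 : V ≠ 0 := by rintro rfl; exact hd (zero_dvd_iff.1 hV)
  have hq0 : d / f ≠ 0 := (Nat.div_pos (Nat.le_of_dvd (Nat.pos_of_ne_zero hd) hfd)
    (Nat.pos_of_ne_zero hf0)).ne'
  have h1 : ∀ q, f.factorization q = if q ∈ T then d.factorization q else 0 := fun q => by
    rw [hf]; exact cases_fact T hT q
  have h2 : ∀ q, (d / f).factorization q = if q ∈ T then 0 else d.factorization q := fun q => by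
    rw [Nat.factorization_div hfd, Finsupp.tsub_apply, h1]
    split_ifs <;> simp
  constructor
  · refine Nat.coprime_of_dvd fun q hq hqf hqd => ?_
    have a1 := (hq.dvd_iff_one_le_factorization hf0).1 hqf
    have a2 := (hq.dvd_iff_one_le_factorization hq0).1 hqd
    rw [h1] at a1
    rw [h2] at a2
    split_ifs at a1 a2 <;> omega
  · rw [← Nat.factorization_prime_le_iff_dvd hV0 (mul_ne_zero two_ne_zero hq0)]
    intro q hq
    rw [Nat.factorization_mul two_ne_zero hq0, Finsupp.add_apply, h2]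
    split_ifs with hqT
    · have := hg q hqT
      split_ifs at this with h2q
      · subst h2q
        rw [Nat.Prime.factorization_self Nat.prime_two]
        by_contra hlt
        apply this
        have : 2 ^ 2 ∣ V := (Nat.prime_two.pow_dvd_iff_le_factorization hV0).2 (by omega)
        simpa using this
      · rw [Nat.factorization_eq_zero_of_not_dvd this]
        exact Nat.zero_le _
    · have := (Nat.factorization_le_iff_dvd hV0 hd).2 hV q
      omega

theorem cases_pigeon {m s y k : ℕ} (hk : k ≠ 0) (G : ℕ → Fin (m + 1) → Prop)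
    [∀ p i, Decidable (G p i)]
    (hG : ∀ p : ℕ, p.Prime → s < (univ.filter fun i => G p i).card) (h : y ^ (m + 1) ≤ k ^ s) :
    ∃ i, y ≤ ∏ p ∈ k.primeFactors.filter (fun p => G p i), p ^ k.factorization p := by
  by_contra hn
  push Not at hn
  have h1 : ∏ i : Fin (m + 1), ∏ p ∈ k.primeFactors.filter (fun p => G p i), p ^ k.factorization p <
      ∏ _i : Fin (m + 1), y :=
    Finset.prod_lt_prod_of_nonempty (fun i _ => Finset.prod_pos fun p hp =>
      pow_pos (Nat.prime_of_mem_primeFactors (Finset.mem_filter.1 hp).1).pos _)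
      (fun i _ => hn i) Finset.univ_nonempty
  rw [Finset.prod_const, Finset.card_univ, Fintype.card_fin] at h1
  have h2 : ∏ i : Fin (m + 1), ∏ p ∈ k.primeFactors.filter (fun p => G p i), p ^ k.factorization p =
      ∏ p ∈ k.primeFactors, (p ^ k.factorization p) ^ (univ.filter fun i => G p i).card := by
    simp only [Finset.prod_filter]
    rw [Finset.prod_comm]
    refine Finset.prod_congr rfl fun p _ => ?_
    rw [← Finset.prod_filter, Finset.prod_const]
  have h3 : k ^ s = ∏ p ∈ k.primeFactors, (p ^ k.factorization p) ^ s := by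
    rw [Finset.prod_pow]
    have := Nat.prod_factorization_pow_eq_self hk
    rw [Finsupp.prod, Nat.support_factorization] at this
    rw [this]
  have h4 : ∏ p ∈ k.primeFactors, (p ^ k.factorization p) ^ s ≤
      ∏ p ∈ k.primeFactors, (p ^ k.factorization p) ^ (univ.filter fun i => G p i).card :=
    Finset.prod_le_prod' fun p hp =>
      Nat.pow_le_pow_right (pow_pos (Nat.prime_of_mem_primeFactors hp).pos _)
        (hG p (Nat.prime_of_mem_primeFactors hp)).le
  omega

theorem cases_hit {n s y : ℕ} {A : ZM (n + 1)} (hA : A ∈ SS (n + 1)) (hd : A.det = 0)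
    (hS : ¬ Sparse A s) {i₀ : Fin (n + 1)} (h₀ : (mn A i₀).det ≠ 0) (hy : 2 ≤ y)
    (hnum : ∀ κ : ℕ, κ ^ s < y ^ (n + 1) → (4 * y ^ 6 * κ ^ 3) ^ 20 ≤ n ^ n) :
    ∃ i, (mn A i).det ≠ 0 ∧ Hit y (mn A i) (cl A i) := by
  classical
  obtain ⟨v, c, hv, hc⟩ := exists_prim_ker hd
  obtain ⟨κ, hκ, hm⟩ := minor_eq hA hv hc h₀
  have hk : κ.natAbs ≠ 0 := Int.natAbs_ne_zero.2 hκ
  have hdn : ∀ i, (mn A i).det.natAbs = κ.natAbs * (v i).natAbs ^ 2 := fun i => by
    rw [hm, Int.natAbs_mul, Int.natAbs_pow]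
  by_cases hcase : y ^ (n + 1) ≤ κ.natAbs ^ s
  · obtain ⟨g1, g2, -⟩ := good_card hS hv hc
    obtain ⟨i, hi⟩ := cases_pigeon (s := s) hk
      (fun p i => if p = 2 then ¬ 4 ∣ (v i).natAbs else ¬ p ∣ (v i).natAbs) (fun p hp => by
        by_cases h2 : p = 2
        · refine g2.trans_le (Finset.card_le_card fun i hi => ?_)
          simp only [Finset.mem_filter, Finset.mem_univ, true_and, h2, if_true] at hi ⊢
          intro h4
          exact hi (Int.natCast_dvd.2 h4)
        · refine (g1 p hp h2).trans_le (Finset.card_le_card fun i hi => ?_)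
          simp only [Finset.mem_filter, Finset.mem_univ, true_and, h2, if_false] at hi ⊢
          intro h4
          exact hi (Int.natCast_dvd.2 h4)) hcase
    set T := κ.natAbs.primeFactors.filter
      (fun p => if p = 2 then ¬ 4 ∣ (v i).natAbs else ¬ p ∣ (v i).natAbs) with hT
    have hTp : ∀ p ∈ T, p.Prime := fun p hp =>
      Nat.prime_of_mem_primeFactors (Finset.mem_filter.1 hp).1
    have hvi : v i ≠ 0 := by
      intro h0
      have : T = ∅ := by
        rw [hT, Finset.filter_eq_empty_iff]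
        intro p _
        simp [h0]
      rw [this, Finset.prod_empty] at hi
      omega
    have hdet : (mn A i).det ≠ 0 := by rw [hm]; exact mul_ne_zero hκ (pow_ne_zero 2 hvi)
    have hd0 : (mn A i).det.natAbs ≠ 0 := Int.natAbs_ne_zero.2 hdet
    have hi2 : y ≤ ∏ p ∈ T, p ^ (mn A i).det.natAbs.factorization p := by
      refine hi.trans (Finset.prod_le_prod' fun p hp => Nat.pow_le_pow_right (hTp p hp).pos ?_)
      exact (Nat.factorization_le_iff_dvd hk hd0).2 (by rw [hdn]; exact Dvd.intro _ rfl) p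
    obtain ⟨T', hT', hf⟩ := exists_Dv_unitary hd0 hy T hTp hi2
    have hfd := Nat.dvd_of_mem_divisors (Finset.mem_filter.1 hf).1
    obtain ⟨u1, t, u2⟩ := cases_unit (V := (v i).natAbs) hd0
      (by rw [hdn]; exact Dvd.dvd.mul_left (dvd_pow_self _ two_ne_zero) _) T'
      (fun p hp => hTp p (hT' hp)) (fun p hp => (Finset.mem_filter.1 (hT' hp)).2) rfl hfd
    refine ⟨i, hdet, Or.inl ⟨_, hf, u1, ((v i).sign * t) • fun j => -v (i.succAbove j), ?_⟩⟩
    rw [Matrix.mulVec_smul, mn_ker hv, smul_smul, u2]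
    have : (v i).sign * (t : ℤ) * v i = (((v i).natAbs * t : ℕ) : ℤ) := by
      push_cast
      rw [← Int.sign_mul_self_eq_abs]
      ring
    rw [this]
  · push Not at hcase
    have hn := hnum _ hcase
    obtain ⟨i, -, hi⟩ := Finset.exists_max_image univ (fun i => |v i|) Finset.univ_nonempty
    have hvi : v i ≠ 0 := by
      intro h0
      have : v = 0 := by
        funext j
        have := hi j (Finset.mem_univ j)
        rw [h0, abs_zero] at this
        exact abs_nonpos_iff.1 this
      rw [this, dotProduct_zero] at hc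
      exact zero_ne_one hc
    have hdet : (mn A i).det ≠ 0 := by rw [hm]; exact mul_ne_zero hκ (pow_ne_zero 2 hvi)
    refine ⟨i, hdet, Or.inr ?_⟩
    by_cases hsm : (mn A i).det ^ 20 ≤ (n : ℤ) ^ n
    · have hvr : (v i : ℝ) ≠ 0 := by exact_mod_cast hvi
      refine Or.inl ⟨hsm, fun j => -(v (i.succAbove j) : ℝ) / v i, fun j => ?_, ?_⟩
      · rw [abs_div, abs_neg, div_le_one (abs_pos.2 hvr)]
        exact_mod_cast hi _ (Finset.mem_univ _)
      · funext j
        have h1 := congrFun (mn_ker hv i) j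
        simp only [Matrix.mulVec, dotProduct, Pi.smul_apply, smul_eq_mul] at h1
        have h2 : ∑ l, ((mn A i j l : ℤ) : ℝ) * -(v (i.succAbove l) : ℝ) = v i * (cl A i j : ℝ) := by
          exact_mod_cast h1
        simp only [Matrix.mulVec, dotProduct, rm, iv, Matrix.map_apply, ← mul_div_assoc]
        rw [← Finset.sum_div, h2]
        field_simp
    · refine Or.inr ⟨v i, _, sol_of_ker hA hv hc i, ?_⟩
      push Not at hsm
      have h1 : n ^ n < (mn A i).det.natAbs ^ 20 := by
        have : (mn A i).det ^ 20 = (((mn A i).det.natAbs ^ 20 : ℕ) : ℤ) := by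
          push_cast
          exact (Even.pow_abs (by norm_num) _).symm
        rw [this] at hsm
        exact_mod_cast hsm
      have h2 := lt_of_pow_lt_pow_left₀ 20 (Nat.zero_le _) (hn.trans_lt h1)
      rw [hdn] at h2 ⊢
      have h3 : 4 * y ^ 6 * κ.natAbs ^ 2 ≤ (v i).natAbs ^ 2 := by
        refine (Nat.lt_of_mul_lt_mul_left (a := κ.natAbs) ?_).le
        calc κ.natAbs * (4 * y ^ 6 * κ.natAbs ^ 2) = 4 * y ^ 6 * κ.natAbs ^ 3 := by ring
          _ < _ := h2
      rw [← Nat.pow_le_pow_iff_left two_ne_zero]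
      calc (2 * (κ.natAbs * (v i).natAbs ^ 2) * y ^ 3) ^ 2
          = (4 * y ^ 6 * κ.natAbs ^ 2) * (v i).natAbs ^ 4 := by ring
        _ ≤ (v i).natAbs ^ 2 * (v i).natAbs ^ 4 := Nat.mul_le_mul_right _ h3
        _ = ((v i).natAbs ^ 3) ^ 2 := by ring

end Vale.Agent.P160
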