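import Vale.Agent.P160.Schur

/-!
P160 task UC. Keep the statements unchanged; add lemmas freely (start them with `uc_`).

Integer lattices. `exists_uni`: the quotient by a saturated submodule is torsion free, hence free
(`Module.free_of_finite_type_torsion_free'`), so the projection splits; or use `Submodule.smithNormalForm`
(`bN i = a i • bM (f i)` and saturation give `bM (f i) ∈ S`). Turn the basis indexed by `Fin a ⊕ Fin b` into matrices
(`Basis.toMatrix` with `Pi.basisFun`). `dual`: `P, Y` from `exists_uni` for the kernel of `Uᵀ`. Then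
`[P U]ᵀ [P Y] = fromBlocks (PᵀP) (PᵀY) 0 (UᵀY)` and `[P U]ᵀ [P U]` is block diagonal. `UᵀY` is injective on integer vectors,
so `b ≤ card κ`; also `a + card κ ≤ card ι` since `[P U]` has independent columns, hence `b = card κ`. Reindex to square matrices:
`hg P ^ 2 det (UᵀY) ^ 2 = hg P * hg U` with `det (UᵀY) ≠ 0`.
`saturate`: `S` = vectors with a nonzero multiple in the column span of `Z`; `Z = P M` with `M` square, `det M ≠ 0`.
`ext`: apply `exists_uni` in `Fin g → ℤ` to `S = {z | some nonzero multiple of P z lies in the column span of P'}`; `B₀ = P Z₀`, `B₁ = P Z₁`;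
`hg P = hg B₀ * det sch[B₀ B₁]`, `hg [P' B₁] = hg P' * det sch[P' B₁]`, `sch_anti`, `1 ≤ hg B₀`.
-/

set_option linter.unusedSectionVars false
set_option linter.unusedVariables false

namespace Vale.Agent.P160

open Finset Matrix MeasureTheory

variable {ι κ : Type} [Fintype ι] [DecidableEq ι] [Fintype κ] [DecidableEq κ]

theorem exists_uni (S : Submodule ℤ (ι → ℤ)) (hS : ∀ (c : ℤ) z, c ≠ 0 → c • z ∈ S → z ∈ S) :
    ∃ (a b : ℕ) (P : Matrix ι (Fin a) ℤ) (Y : Matrix ι (Fin b) ℤ), Uni (fromCols P Y) ∧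
      ∀ z, z ∈ S ↔ ∃ c, z = P *ᵥ c := by
  obtain ⟨a, o, hao, bO, bN, d, hd⟩ :=
    Submodule.exists_smith_normal_form_of_le (Pi.basisFun ℤ ι) S ⊤ le_top
  obtain ⟨b, rfl⟩ := Nat.exists_eq_add_of_le hao
  let β : Module.Basis (Fin a ⊕ Fin b) ℤ (ι → ℤ) :=
    (bO.map Submodule.topEquiv).reindex finSumFinEquiv.symm
  have hβ : ∀ i, (bN i : ι → ℤ) = d i • β (Sum.inl i) := fun i => by
    rw [hd i]
    simp only [β, Module.Basis.reindex_apply, Module.Basis.map_apply, Equiv.symm_symm,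
      finSumFinEquiv_apply_left, Submodule.topEquiv_apply]
    rfl
  have hP : ∀ c : Fin a → ℤ, (Matrix.of fun i j => β (Sum.inl j) i) *ᵥ c =
      ∑ j, c j • β (Sum.inl j) := fun c => by
    ext i
    simp [mulVec, dotProduct, mul_comm]
  refine ⟨a, b, Matrix.of fun i j => β (Sum.inl j) i, Matrix.of fun i j => β (Sum.inr j) i,
    ⟨β.toMatrix (Pi.basisFun ℤ ι), ?_⟩, fun z => ⟨fun hz => ?_, ?_⟩⟩
  · have h : fromCols (Matrix.of fun i j => β (Sum.inl j) i) (Matrix.of fun i j => β (Sum.inr j) i)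
        = (Pi.basisFun ℤ ι).toMatrix β := by
      ext i (j | j) <;> simp [Module.Basis.toMatrix_apply]
    rw [h]
    exact ⟨Module.Basis.toMatrix_mul_toMatrix_flip _ _, Module.Basis.toMatrix_mul_toMatrix_flip _ _⟩
  · refine ⟨fun j => bN.repr ⟨z, hz⟩ j * d j, ?_⟩
    have h := congrArg Subtype.val (bN.sum_repr ⟨z, hz⟩)
    simp only [AddSubmonoidClass.coe_finsetSum, SetLike.val_smul, hβ, smul_smul] at h
    rw [hP, h]
  · rintro ⟨c, rfl⟩
    rw [hP]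
    refine S.sum_mem fun j _ => S.smul_mem _ (hS (d j) _ (fun h0 => bN.ne_zero j ?_) ?_)
    · exact Subtype.ext (by rw [hβ, h0, zero_smul]; rfl)
    · rw [← hβ]; exact (bN j).2

theorem uc_left {μ : Type} [Fintype μ] [DecidableEq μ] {P : Matrix ι κ ℤ} {Y : Matrix ι μ ℤ}
    (h : hg (fromCols P Y) ≠ 0) : hg P ≠ 0 :=
  hg_ne_zero_iff.2 fun z hz => by
    have := hg_ne_zero_iff.1 h (Sum.elim z 0) (by
      rw [fromCols_mulVec_sumElim, hz, mulVec_zero, add_zero])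
    exact funext fun i => congrFun this (Sum.inl i)

theorem uc_sep {μ : Type} [Fintype μ] [DecidableEq μ] {P : Matrix ι κ ℤ} {Y : Matrix ι μ ℤ}
    (h : hg (fromCols P Y) ≠ 0) {z : μ → ℤ} {c : κ → ℤ} (hc : Y *ᵥ z = P *ᵥ c) : z = 0 := by
  have := hg_ne_zero_iff.1 h (Sum.elim (-c) z) (by
    rw [fromCols_mulVec_sumElim, hc, mulVec_neg, neg_add_cancel])
  exact funext fun i => congrFun this (Sum.inr i)

theorem uc_uni {Z : Matrix ι κ ℤ} (hZ : Uni Z) : hg Z = 1 := by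
  have h := det_gr_uni (T := 1) hZ
  rw [det_gr_one, det_one] at h
  exact_mod_cast h

theorem uc_sq (A B : Matrix ι κ ℤ) (h : Fintype.card κ = Fintype.card ι) :
    (Aᵀ * B).det ^ 2 = hg A * hg B := by
  obtain ⟨e⟩ := Fintype.card_eq.1 h
  have k : ∀ A B : Matrix ι κ ℤ,
      (Aᵀ * B).det = (A.submatrix e id).det * (B.submatrix e id).det := fun A B => by
    rw [← det_transpose (A.submatrix e id), ← det_mul, transpose_submatrix, submatrix_mul_equiv,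
      submatrix_id_id]
  rw [hg, hg, k, k, k]
  ring

theorem dual {U : Matrix ι κ ℤ} (hU : hg U ≠ 0) :
    ∃ (g : ℕ) (P : Matrix ι (Fin g) ℤ), hg P ≠ 0 ∧ g + Fintype.card κ = Fintype.card ι ∧
      Pᵀ * U = 0 ∧ (∀ z, Uᵀ *ᵥ z = 0 → ∃ c, z = P *ᵥ c) ∧ hg P ≤ hg U := by
  obtain ⟨a, b, P, Y, hu, hS⟩ := exists_uni (LinearMap.ker Uᵀ.mulVecLin) fun c z hc h => by
    rw [LinearMap.mem_ker, map_smul, smul_eq_zero] at h
    exact h.resolve_left hc
  simp only [LinearMap.mem_ker, mulVecLin_apply] at hS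
  have hP := uc_left hu.hg_ne
  have h1 : Uᵀ * P = 0 := ext_iff_mulVec.2 fun c => by
    rw [← mulVec_mulVec, (hS _).2 ⟨c, rfl⟩, zero_mulVec]
  have h2 : Pᵀ * U = 0 := by simpa using congrArg transpose h1
  have h3 : hg (Uᵀ * Y) ≠ 0 := hg_ne_zero_iff.2 fun z hz => by
    rw [← mulVec_mulVec] at hz
    obtain ⟨c, hc⟩ := (hS _).1 hz
    exact uc_sep hu.hg_ne hc
  have h4 : hg (fromCols P U) = hg P * hg U := by
    rw [hg, transpose_fromCols, fromRows_mul_fromCols, h1, det_fromBlocks_zero₂₁, hg, hg]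
  have h5 := card_le_of_hg h3
  have h6 := card_le_of_hg (h4 ▸ mul_ne_zero hP hU)
  have h7 := hu.card_eq
  simp only [Fintype.card_sum, Fintype.card_fin] at h5 h6 h7
  obtain ⟨e⟩ : Nonempty (κ ≃ Fin b) := Fintype.card_eq.1 (by rw [Fintype.card_fin]; omega)
  refine ⟨a, P, hP, by omega, h2, fun z hz => (hS z).1 hz, ?_⟩
  have h8 : hg (fromCols P (Y.submatrix id e)) = 1 := by
    rw [← uc_uni hu, ← hg_reindex (fromCols P Y) (Equiv.sumCongr (Equiv.refl _) e)]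
    congr 1
    ext i (j | j) <;> rfl
  have h9 := uc_sq (fromCols P U) (fromCols P (Y.submatrix id e))
    (by rw [Fintype.card_sum, Fintype.card_fin]; omega)
  rw [h8, h4, transpose_fromCols, fromRows_mul_fromCols, h1, det_fromBlocks_zero₂₁, mul_one,
    show (Pᵀ * P).det = hg P from rfl] at h9
  generalize (Uᵀ * Y.submatrix id e).det = m at h9
  have h10 : hg P * m ^ 2 = hg U := mul_left_cancel₀ hP (by rw [← h9]; ring)
  have h11 : m ≠ 0 := fun h => hU (by rw [← h10, h]; ring)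
  have h12 : 1 ≤ m ^ 2 := by have := sq_pos_of_ne_zero h11; omega
  have := hg_nonneg P
  nlinarith

/-- The saturation of the column span. -/
def uc_sat (Z : Matrix ι κ ℤ) : Submodule ℤ (ι → ℤ) where
  carrier := {z | ∃ c : ℤ, c ≠ 0 ∧ ∃ e, c • z = Z *ᵥ e}
  add_mem' := by
    rintro x y ⟨c, hc, e, he⟩ ⟨d, hd, f, hf⟩
    refine ⟨c * d, mul_ne_zero hc hd, d • e + c • f, ?_⟩
    rw [mulVec_add, mulVec_smul, mulVec_smul, ← he, ← hf, smul_add, smul_smul, smul_smul,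
      mul_comm d c]
  zero_mem' := ⟨1, one_ne_zero, 0, by simp⟩
  smul_mem' := by
    rintro d x ⟨c, hc, e, he⟩
    exact ⟨c, hc, d • e, by rw [mulVec_smul, ← he, smul_comm]⟩

theorem uc_sat_sat (Z : Matrix ι κ ℤ) (c : ℤ) (z : ι → ℤ) (hc : c ≠ 0) (h : c • z ∈ uc_sat Z) :
    z ∈ uc_sat Z := by
  obtain ⟨d, hd, e, he⟩ := h
  exact ⟨d * c, mul_ne_zero hd hc, e, by rw [mul_smul, he]⟩

theorem uc_main {Z : Matrix ι κ ℤ} (hZ : hg Z ≠ 0) :
    ∃ (a b : ℕ) (P : Matrix ι (Fin a) ℤ) (Y : Matrix ι (Fin b) ℤ) (e : Fin a ≃ κ)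
      (M : Matrix (Fin a) (Fin a) ℤ), Uni (fromCols P Y) ∧
      (∀ z, z ∈ uc_sat Z ↔ ∃ c, z = P *ᵥ c) ∧ Z.submatrix id e = P * M ∧ M.det ≠ 0 := by
  obtain ⟨a, b, P, Y, hu, hS⟩ := exists_uni (uc_sat Z) (uc_sat_sat Z)
  have hP := uc_left hu.hg_ne
  choose c hc using fun j =>
    (hS (Z *ᵥ Pi.single j 1)).1 ⟨1, one_ne_zero, _, one_smul _ _⟩
  have h1 : Z = P * (Matrix.of c)ᵀ := by
    ext i j
    simpa [mul_apply, mulVec, dotProduct, Pi.single_apply] using congrFun (hc j) i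
  have h2 : hg (Matrix.of c)ᵀ ≠ 0 := hg_ne_zero_iff.2 fun z hz =>
    hg_ne_zero_iff.1 hZ z (by rw [h1, ← mulVec_mulVec, hz, mulVec_zero])
  choose d hd f hf using fun j => (hS (P *ᵥ Pi.single j 1)).2 ⟨_, rfl⟩
  have h3 : P * diagonal d = Z * (Matrix.of f)ᵀ := by
    ext i j
    simpa [mul_apply, mulVec, dotProduct, Pi.single_apply, diagonal_apply, mul_comm] using
      congrFun (hf j) i
  have h4 : hg (Matrix.of f)ᵀ ≠ 0 := hg_ne_zero_iff.2 fun z hz => by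
    have h5 := hg_ne_zero_iff.1 hP (diagonal d *ᵥ z)
      (by rw [mulVec_mulVec, h3, ← mulVec_mulVec, hz, mulVec_zero])
    ext j
    have h6 := congrFun h5 j
    rw [mulVec_diagonal] at h6
    exact (mul_eq_zero.1 h6).resolve_left (hd j)
  obtain ⟨e⟩ := Fintype.card_eq.1 (le_antisymm (card_le_of_hg h4) (card_le_of_hg h2))
  refine ⟨a, b, P, Y, e, (Matrix.of c)ᵀ.submatrix id e, hu, hS, ?_, fun h0 => h2 ?_⟩
  · conv_lhs => rw [h1]
    rfl
  · rw [← hg_reindex _ e, hg, det_mul, h0, mul_zero]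

theorem saturate {G : Matrix ι ι ℝ} (hG : G.PosDef) {Z : Matrix ι κ ℤ} (hZ : hg Z ≠ 0) :
    ∃ (a b : ℕ) (P : Matrix ι (Fin a) ℤ) (Y : Matrix ι (Fin b) ℤ), Uni (fromCols P Y) ∧
      a = Fintype.card κ ∧ hg P ≠ 0 ∧ (gr G P).det ≤ (gr G Z).det := by
  obtain ⟨a, b, P, Y, e, M, hu, -, hM, hd⟩ := uc_main hZ
  have hP := uc_left hu.hg_ne
  refine ⟨a, b, P, Y, hu, by simpa using Fintype.card_congr e, hP, ?_⟩
  rw [← det_gr_reindex G Z e, hM, ← gr_gr, det_gr_sq]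
  have h1 : (1 : ℝ) ≤ (M.det : ℝ) ^ 2 := by
    have : 1 ≤ M.det ^ 2 := by have := sq_pos_of_ne_zero hd; omega
    exact_mod_cast this
  exact le_mul_of_one_le_left (gr_posDef hG hP).det_pos.le h1

theorem ext {g : ℕ} {P' : Matrix ι κ ℤ} (hP' : hg P' ≠ 0) {P : Matrix ι (Fin g) ℤ} (hP : hg P ≠ 0) :
    ∃ (g₀ j : ℕ) (Z₀ : Matrix (Fin g) (Fin g₀) ℤ) (Z₁ : Matrix (Fin g) (Fin j) ℤ), g₀ + j = g ∧
      hg (P * Z₀) ≠ 0 ∧ (∀ v : ι → ℤ, P'ᵀ *ᵥ v = 0 → (P * Z₀)ᵀ *ᵥ v = 0) ∧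
      hg (fromCols P' (P * Z₁)) ≠ 0 ∧ hg (fromCols P' (P * Z₁)) ≤ hg P' * hg P := by
  obtain ⟨g₀, j, Z₀, Z₁, hu, hS⟩ := exists_uni ((uc_sat P').comap P.mulVecLin) fun c z hc h => by
    rw [Submodule.mem_comap, map_smul] at h
    exact uc_sat_sat P' c _ hc h
  have hS' : ∀ z, (∃ c : ℤ, c ≠ 0 ∧ ∃ e, c • (P *ᵥ z) = P' *ᵥ e) ↔ ∃ c, z = Z₀ *ᵥ c := hS
  have h1 : hg (P * Z₀) ≠ 0 := hg_ne_zero_iff.2 fun z hz => by
    rw [← mulVec_mulVec] at hz
    exact hg_ne_zero_iff.1 (uc_left hu.hg_ne) z (hg_ne_zero_iff.1 hP _ hz)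
  have h2 : ∀ e, ∃ c : ℤ, c ≠ 0 ∧ ∃ z, c • ((P * Z₀) *ᵥ e) = P' *ᵥ z := fun e => by
    rw [← mulVec_mulVec]
    exact (hS' _).2 ⟨e, rfl⟩
  refine ⟨g₀, j, Z₀, Z₁, by simpa using hu.card_eq, h1, fun v hv => ?_, ?_, ?_⟩
  · refine dotProduct_self_eq_zero.1 ?_
    obtain ⟨c, hc, z, hz⟩ := h2 ((P * Z₀)ᵀ *ᵥ v)
    refine (mul_eq_zero.1 ?_).resolve_left hc
    nth_rewrite 1 [mulVec_transpose]
    rw [← dotProduct_mulVec, ← smul_eq_mul, ← dotProduct_smul, hz, dotProduct_mulVec,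
      ← mulVec_transpose, hv, zero_dotProduct]
  · refine hg_ne_zero_iff.2 fun z hz => ?_
    rw [fromCols_mulVec, ← mulVec_mulVec] at hz
    obtain ⟨c, hc⟩ := (hS' (Z₁ *ᵥ z ∘ Sum.inr)).1 ⟨1, one_ne_zero, -(z ∘ Sum.inl), by
      rw [one_smul, mulVec_neg]; exact eq_neg_of_add_eq_zero_right hz⟩
    have h3 := uc_sep hu.hg_ne hc
    rw [h3, mulVec_zero, mulVec_zero, add_zero] at hz
    have h4 := hg_ne_zero_iff.1 hP' _ hz
    ext (k | k)
    · exact congrFun h4 k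
    · exact congrFun h3 k
  · have h3 := sch_anti PosDef.one hP' h1 h2 (P * Z₁)
    have h4 := det_eq_sch (G := gr 1 (fromCols P' (P * Z₁)))
      (by rw [gr_cols₁₁]; exact gr_posDef PosDef.one hP')
    have h5 := det_eq_sch (G := gr 1 (fromCols (P * Z₀) (P * Z₁)))
      (by rw [gr_cols₁₁]; exact gr_posDef PosDef.one h1)
    rw [gr_cols₁₁, det_gr_one, det_gr_one] at h4
    rw [gr_cols₁₁, det_gr_one (P * Z₀)] at h5
    have h6 : (gr 1 (fromCols (P * Z₀) (P * Z₁))).det = hg P := by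
      rw [← mul_fromCols, ← gr_gr, det_gr_uni hu, det_gr_one]
    rw [h6] at h5
    have h7 : (1 : ℝ) ≤ hg (P * Z₀) := by exact_mod_cast one_le_hg h1
    have h8 : (1 : ℝ) ≤ hg P := by exact_mod_cast one_le_hg hP
    have h9 : (0 : ℝ) ≤ hg P' := by exact_mod_cast hg_nonneg P'
    have h10 : (sch (gr 1 (fromCols (P * Z₀) (P * Z₁)))).det ≤ hg P := by
      by_contra hlt
      nlinarith
    have h11 := mul_le_mul_of_nonneg_left (h3.trans h10) h9
    rw [← h4] at h11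
    exact_mod_cast h11

end Vale.Agent.P160
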