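import Vale.Agent.P160.Fej
import Vale.Agent.P160.Box
import Vale.Agent.P160.UC

/-!
P160 task Clo. Keep the statements unchanged; add lemmas freely (start them with `clo_`).

Height closure. Among all `C : Sub n` with `hg C.2 ≠ 0` and `C.2ᵀ W j = 0` (then `C.1 ≤ n`; the empty matrix qualifies) minimise the natural number
`(hg C.2).toNat * ρ₀^(2 (n - C.1))` (`Nat.find` or `WellFounded.min`). Comparing with the empty matrix gives the height bound.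
Counting: `box` for `C.2`, each short `w = C.2 c` is orthogonal to all `W j`, `pairs_ge`, `√hg ≤ ρ₀^g`.
Last part: `P` from `dual hU`, `Z₀, Z₁` from `ext`; `fromCols C.2 (P Z₁)` reindexed by `finSumFinEquiv` (`hg_reindex`) is a competitor, so
`ρ₀^(2j) ≤ hg P ≤ hg U`; `B₀ = P Z₀`.
-/

set_option linter.unusedSectionVars false
set_option linter.unusedVariables false

namespace Vale.Agent.P160

open Finset Matrix Filter

theorem clo_count {n k g ρ₀ ρ : ℕ} (W : Fin k → Fin n → ℤ) {P : Matrix (Fin n) (Fin g) ℤ}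
    (hP : hg P ≠ 0) (hW : ∀ j, Pᵀ *ᵥ W j = 0) (hh : hg P ≤ (ρ₀ : ℤ) ^ (2 * g)) (hρ : 1 ≤ ρ) :
    (ρ : ℝ) ^ g * (ρ : ℝ) ^ n ≤ 3 ^ n * (ρ₀ : ℝ) ^ g * (orthPairs W (2 * ρ) : ℝ) := by
  classical
  have h1 := box hP hρ
  have h2 : √(hg P : ℝ) ≤ (ρ₀ : ℝ) ^ g := by
    refine Real.sqrt_le_iff.2 ⟨by positivity, ?_⟩
    rw [← pow_mul, mul_comm g]
    exact_mod_cast hh
  obtain ⟨F, hF, h1⟩ : ∃ F : Finset (Fin n → ℤ), (∀ w ∈ F, w ∈ Bs (Fin n) ρ ∧ ∃ c, w = P *ᵥ c) ∧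
      (ρ : ℝ) ^ Fintype.card (Fin g) ≤ 3 ^ Fintype.card (Fin n) * √(hg P : ℝ) * F.card :=
    ⟨_, fun w hw => mem_filter.1 hw, h1⟩
  have h3 : F.card * ρ ^ n ≤ orthPairs W (2 * ρ) := by
    refine (card_nsmul_le_sum F (fun w => ((Bx (Fin n) (2 * ρ) ×ˢ Bx (Fin n) (2 * ρ)).filter
      fun p => p.1 - p.2 = w).card) _ fun w hw => ?_).trans ?_
    · have h := pairs_ge (hF w hw).1
      rw [Fintype.card_fin] at h
      exact h
    · rw [sum_card_fiberwise_eq_card_filter, orthPairs]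
      refine card_le_card fun p hp => mem_filter.2 ⟨(mem_filter.1 hp).1, fun j => ?_⟩
      obtain ⟨c, hc⟩ := (hF _ (mem_filter.1 hp).2).2
      rw [hc, dotProduct_mulVec, ← mulVec_transpose, hW, zero_dotProduct]
  have h4 : (F.card : ℝ) * (ρ : ℝ) ^ n ≤ orthPairs W (2 * ρ) := by exact_mod_cast h3
  rw [Fintype.card_fin, Fintype.card_fin] at h1
  calc _ ≤ 3 ^ n * (ρ₀ : ℝ) ^ g * F.card * (ρ : ℝ) ^ n := by
        refine mul_le_mul_of_nonneg_right (h1.trans ?_) (by positivity)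
        gcongr
    _ ≤ _ := by
        rw [mul_assoc]
        gcongr

theorem exists_clo {n k ρ₀ : ℕ} (hρ₀ : 1 ≤ ρ₀) (W : Fin k → Fin n → ℤ) :
    ∃ C : Sub n, hg C.2 ≠ 0 ∧ hg C.2 ≤ (ρ₀ : ℤ) ^ (2 * C.1) ∧
      (∀ ρ : ℕ, 1 ≤ ρ → (ρ : ℝ) ^ C.1 * (ρ : ℝ) ^ n ≤
        3 ^ n * (ρ₀ : ℝ) ^ C.1 * (orthPairs W (2 * ρ) : ℝ)) ∧
      ∀ (v : ℕ) (U : Matrix (Fin n) (Fin v) ℤ), hg U ≠ 0 → (∀ j, ∃ c, W j = U *ᵥ c) →
        ∃ j : ℕ, (ρ₀ : ℤ) ^ (2 * j) ≤ hg U ∧ Near C.2 U j := by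
  have e0 : hg (0 : Matrix (Fin n) (Fin 0) ℤ) = 1 := det_isEmpty
  have m0 : (⟨0, 0⟩ : Sub n) ∈ {C : Sub n | hg C.2 ≠ 0 ∧ ∀ j, C.2ᵀ *ᵥ W j = 0} :=
    ⟨e0.trans_ne one_ne_zero, fun _ => Subsingleton.elim _ _⟩
  obtain ⟨⟨g, P⟩, ⟨hP, hW⟩, hmin⟩ := (measure fun C : Sub n =>
    (hg C.2).toNat * ρ₀ ^ (2 * (n - C.1))).wf.has_min _ ⟨_, m0⟩
  dsimp only at hP hW
  have hm : ∀ (a : ℕ) (C : Matrix (Fin n) (Fin a) ℤ), hg C ≠ 0 → (∀ j, Cᵀ *ᵥ W j = 0) →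
      hg P * (ρ₀ : ℤ) ^ (2 * (n - g)) ≤ hg C * (ρ₀ : ℤ) ^ (2 * (n - a)) := by
    intro a C h1 h2
    have h3 : (hg P).toNat * ρ₀ ^ (2 * (n - g)) ≤ (hg C).toNat * ρ₀ ^ (2 * (n - a)) :=
      not_lt.1 (hmin ⟨a, C⟩ ⟨h1, h2⟩)
    rw [← Int.toNat_of_nonneg (hg_nonneg P), ← Int.toNat_of_nonneg (hg_nonneg C)]
    exact_mod_cast h3
  have hρ : (0 : ℤ) < ρ₀ := by exact_mod_cast hρ₀
  have hh : hg P ≤ (ρ₀ : ℤ) ^ (2 * g) := by
    have h1 := hm 0 0 m0.1 m0.2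
    have h2 : g ≤ n := by simpa using card_le_of_hg hP
    rw [e0, one_mul, show 2 * (n - 0) = 2 * g + 2 * (n - g) by omega, pow_add] at h1
    exact le_of_mul_le_mul_right h1 (pow_pos hρ _)
  refine ⟨⟨g, P⟩, hP, hh, fun ρ h => clo_count W hP hW hh h, fun v U hU hWU => ?_⟩
  obtain ⟨g', P', hP', hc, h0, -, hle⟩ := dual hU
  obtain ⟨g₀, j, Z₀, Z₁, hj, h1, h2, h3, h4⟩ := ext hP hP'
  simp only [Fintype.card_fin] at hc
  refine ⟨j, le_trans ?_ hle, g₀, P' * Z₀, h1, ?_, h2, by omega⟩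
  · have h5 := hg_reindex (fromCols P (P' * Z₁)) finSumFinEquiv.symm
    have h6 := hm _ _ (h5.trans_ne h3) fun l => funext fun i => by
      obtain ⟨c, hc⟩ := hWU l
      have h6 : (P' * Z₁)ᵀ *ᵥ W l = 0 := by
        rw [hc, mulVec_mulVec, transpose_mul, Matrix.mul_assoc, h0, Matrix.mul_zero, zero_mulVec]
      show ((fromCols P (P' * Z₁))ᵀ *ᵥ W l) (finSumFinEquiv.symm i) = 0
      rw [transpose_fromCols, fromRows_mulVec, hW, h6, Sum.elim_zero_zero]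
      rfl
    have h7 : g + j ≤ n := by simpa using card_le_of_hg h3
    rw [h5, show 2 * (n - g) = 2 * j + 2 * (n - (g + j)) by omega, pow_add, ← mul_assoc] at h6
    exact le_of_mul_le_mul_left ((le_of_mul_le_mul_right h6 (pow_pos hρ _)).trans h4)
      (one_pos.trans_le (one_le_hg hP))
  · rw [transpose_mul, Matrix.mul_assoc, h0, Matrix.mul_zero]


end Vale.Agent.P160
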