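import Vale.Agent.P160.Basic

/-!
P160 task Comb. Keep the statements unchanged; add lemmas freely (start them with `comb_`).

Finite combinatorics. `natarajan` (contrapositive): induct on a finset `I` of coordinates, for all `d` and all families `Y` whose members
agree outside `I`: if no `d`-set inside `I` carries a two-valued cube then `|Y| ≤ ∑ j < d, C(|I|, j) (|A|²)^j`. Step `insert i I`:
`G` = image of `Y` under `update · i 0`, and for `a ≠ b` in `A`, `Y a b` = members `g` of `G` with `update g i a ∈ Y` and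
`update g i b ∈ Y`. Then `|Y| ≤ |G| + ∑ (a,b), |Y a b|` (a fibre of size `m ≥ 1` has `m ≤ 1 + m (m-1)`), `G` has no `d`-cube, `Y a b` no
`(d-1)`-cube; Pascal. (Values outside `I` are irrelevant, so only require values in `A` on `I`.)
`edge`: take `U ⊆ J` of maximal cardinality such that members of `X` agreeing on `J \ U` agree on `J`; then `x ↦` (restriction to the
complement of `U`) is injective on `X`, so `|X| ≤ 2^(card - |U|)`; maximality gives the pairs.
`bin`: for `0 < z ≤ 1` the sum is at most `z^(-d) (1 + K z)^m` (`add_pow`); choose `z` with `K z ≤ ε log 2 / 2`, then `α`.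
-/

set_option linter.unusedSectionVars false
set_option linter.unusedVariables false

namespace Vale.Agent.P160

open Finset Matrix Filter

variable {ι κ : Type} [Fintype ι] [DecidableEq ι] [Fintype κ] [DecidableEq κ]

/-- A two-valued cube of dimension `d` inside `I`. -/
def CombCube (A : Finset ℤ) (I : Finset ι) (Y : Finset (ι → ℤ)) (d : ℕ) : Prop :=
  ∃ (S : Finset ι) (a b : ι → ℤ), S ⊆ I ∧ S.card = d ∧
    (∀ i ∈ S, a i ≠ b i ∧ a i ∈ A ∧ b i ∈ A) ∧
      ∀ σ : ι → ℤ, ∃ y ∈ Y, ∀ i ∈ S, y i = if σ i = 1 then a i else b i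

theorem comb_zero {A : Finset ℤ} {I : Finset ι} {Y : Finset (ι → ℤ)} (h : ¬ CombCube A I Y 0) :
    Y = ∅ := by
  by_contra h1
  obtain ⟨y, hy⟩ := nonempty_iff_ne_empty.2 h1
  exact h ⟨∅, 0, 0, empty_subset _, rfl, by simp, fun _ => ⟨y, hy, by simp⟩⟩

theorem comb_fib {A : Finset ℤ} (i : ι) (Y : Finset (ι → ℤ)) (hY : ∀ y ∈ Y, y i ∈ A) :
    Y.card ≤ (Y.image fun y => Function.update y i 0).card + ∑ p ∈ A.offDiag,
      ((Y.image fun y => Function.update y i 0).filter fun g =>
        Function.update g i p.1 ∈ Y ∧ Function.update g i p.2 ∈ Y).card := by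
  set G := Y.image fun y => Function.update y i 0 with hG
  have h1 : Y.card ≤ (G.sigma fun g => A.filter fun a => Function.update g i a ∈ Y).card := by
    refine card_le_card_of_injOn (fun y => ⟨Function.update y i 0, y i⟩) (fun y hy => ?_)
      fun y _ y' _ h => ?_
    · refine mem_coe.2 (mem_sigma.2 ⟨mem_image_of_mem _ hy, mem_filter.2 ⟨hY y hy, ?_⟩⟩)
      simpa using hy
    · simp only [Sigma.mk.injEq, heq_eq_eq] at h
      have h2 := congrArg (fun g => Function.update g i (y i)) h.1
      simp only [Function.update_idem, Function.update_eq_self] at h2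
      rw [h2, h.2, Function.update_eq_self]
  have h2 : ∀ g, (A.filter fun a => Function.update g i a ∈ Y).card ≤ 1 + (A.offDiag.filter
      fun p => Function.update g i p.1 ∈ Y ∧ Function.update g i p.2 ∈ Y).card := fun g => by
    have h3 : (A.filter fun a => Function.update g i a ∈ Y).offDiag ⊆ A.offDiag.filter
        fun p => Function.update g i p.1 ∈ Y ∧ Function.update g i p.2 ∈ Y := fun p hp => by
      simp only [mem_offDiag, mem_filter] at hp ⊢
      exact ⟨⟨hp.1.1, hp.2.1.1, hp.2.2⟩, hp.1.2, hp.2.1.2⟩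
    have h4 := card_le_card h3
    rw [offDiag_card] at h4
    generalize (A.filter fun a => Function.update g i a ∈ Y).card = m at h4 ⊢
    have h5 : 2 * m ≤ 1 + m * m := by nlinarith [sq_nonneg ((m : ℤ) - 1)]
    omega
  rw [card_sigma] at h1
  refine h1.trans ((sum_le_sum fun g _ => h2 g).trans_eq ?_)
  rw [sum_add_distrib, ← card_eq_sum_ones]
  simp only [card_filter]
  rw [sum_comm]

theorem comb_pascal (m d K : ℕ) : ∑ j ∈ range (d + 1), (m + 1).choose j * K ^ j =
    ∑ j ∈ range (d + 1), m.choose j * K ^ j + K * ∑ j ∈ range d, m.choose j * K ^ j := by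
  rw [sum_range_succ', sum_range_succ', mul_sum, add_right_comm, ← sum_add_distrib]
  simp only [Nat.choose_zero_right]
  congr 1
  exact sum_congr rfl fun j _ => by rw [Nat.choose_succ_succ']; ring

theorem comb_main (A : Finset ℤ) (I : Finset ι) : ∀ (d : ℕ) (Y : Finset (ι → ℤ)),
    (∀ y ∈ Y, ∀ i ∈ I, y i ∈ A) → (∀ y ∈ Y, ∀ y' ∈ Y, ∀ i, i ∉ I → y i = y' i) →
      ¬ CombCube A I Y d → Y.card ≤ ∑ j ∈ range d, I.card.choose j * (A.card ^ 2) ^ j := by
  induction I using Finset.induction_on with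
  | empty =>
    intro d Y _ h2 h3
    rcases d with _ | d
    · rw [comb_zero h3]
      exact Nat.zero_le _
    · rw [sum_range_succ']
      exact (card_le_one.2 fun y hy y' hy' => funext fun i => h2 y hy y' hy' i (by simp)).trans
        (by simp)
  | insert i I hi ih =>
    intro d Y h1 h2 h3
    rcases d with _ | d
    · rw [comb_zero h3]
      exact Nat.zero_le _
    have hne : ∀ l ∈ I, l ≠ i := fun l hl h => hi (h ▸ hl)
    have g1 : ∀ g ∈ Y.image fun y => Function.update y i 0, ∀ l ∈ I, g l ∈ A := fun g hg l hl => by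
      obtain ⟨y, hy, rfl⟩ := mem_image.1 hg
      rw [Function.update_of_ne (hne l hl)]
      exact h1 y hy l (mem_insert_of_mem hl)
    have g2 : ∀ g ∈ Y.image fun y => Function.update y i 0,
        ∀ g' ∈ Y.image fun y => Function.update y i 0, ∀ l, l ∉ I → g l = g' l :=
      fun g hg g' hg' l hl => by
        obtain ⟨y, hy, rfl⟩ := mem_image.1 hg
        obtain ⟨y', hy', rfl⟩ := mem_image.1 hg'
        by_cases h : l = i
        · rw [h, Function.update_self, Function.update_self]
        · rw [Function.update_of_ne h, Function.update_of_ne h]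
          exact h2 y hy y' hy' l (by simp [h, hl])
    have k1 := ih (d + 1) _ g1 g2 (by
      rintro ⟨S, a, b, hS, hc, hab, hσ⟩
      refine h3 ⟨S, a, b, hS.trans (subset_insert _ _), hc, hab, fun σ => ?_⟩
      obtain ⟨g, hg, h⟩ := hσ σ
      obtain ⟨y, hy, rfl⟩ := mem_image.1 hg
      exact ⟨y, hy, fun l hl => by rw [← h l hl, Function.update_of_ne (hne l (hS hl))]⟩)
    have k2 : ∀ p ∈ A.offDiag, ((Y.image fun y => Function.update y i 0).filter fun g =>
        Function.update g i p.1 ∈ Y ∧ Function.update g i p.2 ∈ Y).card ≤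
        ∑ j ∈ range d, I.card.choose j * (A.card ^ 2) ^ j := fun p hp => by
      refine ih d _ (fun g hg => g1 g (mem_filter.1 hg).1)
        (fun g hg g' hg' => g2 g (mem_filter.1 hg).1 g' (mem_filter.1 hg').1) ?_
      rintro ⟨S, a, b, hS, hc, hab, hσ⟩
      rw [mem_offDiag] at hp
      refine h3 ⟨insert i S, Function.update a i p.1, Function.update b i p.2,
        insert_subset_insert _ hS, by rw [card_insert_of_notMem fun h => hi (hS h), hc],
        fun l hl => ?_, fun σ => ?_⟩
      · rcases mem_insert.1 hl with h | h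
        · rw [h, Function.update_self, Function.update_self]
          exact ⟨hp.2.2, hp.1, hp.2.1⟩
        · rw [Function.update_of_ne (hne l (hS h)), Function.update_of_ne (hne l (hS h))]
          exact hab l h
      · obtain ⟨g, hg, h⟩ := hσ σ
        refine ⟨Function.update g i (if σ i = 1 then p.1 else p.2), ?_, fun l hl => ?_⟩
        · split_ifs
          exacts [(mem_filter.1 hg).2.1, (mem_filter.1 hg).2.2]
        · rcases mem_insert.1 hl with h' | h'
          · rw [h', Function.update_self, Function.update_self, Function.update_self]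
          · rw [Function.update_of_ne (hne l (hS h')), Function.update_of_ne (hne l (hS h')),
              Function.update_of_ne (hne l (hS h'))]
            exact h l h'
    rw [card_insert_of_notMem hi, comb_pascal]
    refine (comb_fib i Y fun y hy => h1 y hy i (mem_insert_self _ _)).trans
      (add_le_add k1 ((sum_le_card_nsmul _ _ _ k2).trans ?_))
    rw [smul_eq_mul, offDiag_card, sq]
    exact Nat.mul_le_mul_right _ (Nat.sub_le _ _)

theorem natarajan {A : Finset ℤ} (Y : Finset (ι → ℤ)) (hY : ∀ y ∈ Y, ∀ i, y i ∈ A) {d : ℕ}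
    (h : ∑ j ∈ range d, (Fintype.card ι).choose j * (A.card ^ 2) ^ j < Y.card) :
    ∃ (S : Finset ι) (a b : ι → ℤ), S.card = d ∧ (∀ i ∈ S, a i ≠ b i ∧ a i ∈ A ∧ b i ∈ A) ∧
      ∀ σ ∈ Sg ι, ∃ y ∈ Y, ∀ i ∈ S, y i = if σ i = 1 then a i else b i := by
  have h1 : CombCube A univ Y d := by
    by_contra h2
    exact absurd (comb_main A univ d Y (fun y hy i _ => hY y hy i)
      (fun _ _ _ _ i hi => absurd (mem_univ i) hi) h2) (not_le.2 h)
  obtain ⟨S, a, b, -, h2, h3, h4⟩ := h1
  exact ⟨S, a, b, h2, h3, fun σ _ => h4 σ⟩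

theorem edge (J : Finset ι) {X : Finset (ι → ℤ)} (hX : X ⊆ Sg ι) {h : ℕ}
    (hc : 2 ^ Fintype.card ι ≤ 2 ^ h * X.card) :
    ∃ U ⊆ J, U.card ≤ h ∧ ∀ i ∈ J, i ∉ U → ∃ x ∈ X, ∃ x' ∈ X, x i = 1 ∧ x' i = -1 ∧
      ∀ l ∈ J, l ∉ U → l ≠ i → x l = x' l := by
  classical
  obtain ⟨U, hU, hmax⟩ := exists_max_image (J.powerset.filter fun U => ∀ x ∈ X, ∀ x' ∈ X,
    (∀ l ∈ J, l ∉ U → x l = x' l) → ∀ l ∈ J, x l = x' l) card
    ⟨∅, mem_filter.2 ⟨empty_mem_powerset _, fun x _ x' _ h l hl => h l hl (notMem_empty _)⟩⟩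
  rw [mem_filter, mem_powerset] at hU
  refine ⟨U, hU.1, ?_, fun i hi hiU => ?_⟩
  · have h1 : X.card ≤
        (Fintype.piFinset fun l => if l ∈ Uᶜ then ({1, -1} : Finset ℤ) else {1}).card := by
      refine card_le_card_of_injOn (fun x l => if l ∈ Uᶜ then x l else 1) (fun x hx => ?_)
        fun x hx x' hx' he => funext fun l => ?_
      · refine mem_coe.2 (Fintype.mem_piFinset.2 fun l => ?_)
        beta_reduce
        split_ifs
        · simpa using mem_Sg.1 (hX hx) l
        · exact mem_singleton_self _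
      · have h2 : ∀ l, l ∉ U → x l = x' l := fun l hl => by
          simpa [hl] using congrFun he l
        by_cases hl : l ∈ U
        · exact hU.2 x hx x' hx' (fun l _ => h2 l) l (hU.1 hl)
        · exact h2 l hl
    have h2 : (Fintype.piFinset fun l => if l ∈ Uᶜ then ({1, -1} : Finset ℤ) else {1}).card =
        2 ^ (Fintype.card ι - U.card) := by
      rw [Fintype.card_piFinset, ← card_compl]
      simp only [apply_ite card, card_singleton, prod_ite_mem, univ_inter, prod_const]
      rfl
    have h3 := hc.trans (Nat.mul_le_mul_left _ (h1.trans_eq h2))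
    rw [← pow_add, Nat.pow_le_pow_iff_right (by norm_num)] at h3
    have h4 := card_le_univ U
    omega
  · have h1 : ¬ ∀ x ∈ X, ∀ x' ∈ X,
        (∀ l ∈ J, l ∉ insert i U → x l = x' l) → ∀ l ∈ J, x l = x' l := fun h1 => by
      have h2 := hmax _ (mem_filter.2 ⟨mem_powerset.2 (insert_subset hi hU.1), h1⟩)
      rw [card_insert_of_notMem hiU] at h2
      omega
    push Not at h1
    obtain ⟨x, hx, x', hx', h2, l, hl, h3⟩ := h1
    have h4 : ∀ l ∈ J, l ∉ U → l ≠ i → x l = x' l := fun l hl h5 h6 => h2 l hl (by simp [h5, h6])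
    have h5 : x i ≠ x' i := fun h5 => h3 (hU.2 x hx x' hx' (fun k hk hkU => by
      by_cases h6 : k = i
      · rw [h6, h5]
      · exact h4 k hk hkU h6) l hl)
    rcases mem_Sg.1 (hX hx) i with h6 | h6 <;> rcases mem_Sg.1 (hX hx') i with h7 | h7
    · exact absurd (h6.trans h7.symm) h5
    · exact ⟨x, hx, x', hx', h6, h7, h4⟩
    · exact ⟨x', hx', x, hx, h7, h6, fun l hl h8 h9 => (h4 l hl h8 h9).symm⟩
    · exact absurd (h6.trans h7.symm) h5

theorem comb_sum (m d : ℕ) {t : ℝ} (ht : 0 ≤ t) :
    ∑ j ∈ range (d + 1), (m.choose j : ℝ) * t ^ j ≤ Real.exp (t * m) := by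
  calc ∑ j ∈ range (d + 1), (m.choose j : ℝ) * t ^ j
      ≤ ∑ j ∈ range (d + m + 1), (m.choose j : ℝ) * t ^ j :=
        sum_le_sum_of_subset_of_nonneg (range_subset_range.2 (by omega))
          fun j _ _ => by positivity
    _ = ∑ j ∈ range (m + 1), (m.choose j : ℝ) * t ^ j :=
        (sum_subset (range_subset_range.2 (by omega)) fun j _ hj => by
          rw [Nat.choose_eq_zero_of_lt (by simpa using hj), Nat.cast_zero, zero_mul]).symm
    _ = (t + 1) ^ m := by
        rw [add_pow]
        exact sum_congr rfl fun j _ => by rw [one_pow, mul_one, mul_comm]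
    _ ≤ Real.exp t ^ m := pow_le_pow_left₀ (by linarith) (Real.add_one_le_exp t) m
    _ = Real.exp (t * m) := by rw [← Real.exp_nat_mul, mul_comm]

theorem bin {ε : ℝ} (hε : 0 < ε) (K : ℕ) : ∃ α > (0 : ℝ), ∀ m d : ℕ, (d : ℝ) ≤ α * m →
    ∑ j ∈ range (d + 1), (m.choose j : ℝ) * (K : ℝ) ^ j ≤ (2 : ℝ) ^ (ε * m) := by
  have hc : 0 < Real.log 2 * ε / 2 := half_pos (mul_pos (Real.log_pos one_lt_two) hε)
  obtain ⟨c, hc'⟩ : ∃ c, c = Real.log 2 * ε / 2 := ⟨_, rfl⟩
  rw [← hc'] at hc
  obtain ⟨z, hz0, hz1, hz⟩ : ∃ z : ℝ, 0 < z ∧ z ≤ 1 ∧ K * z ≤ c := by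
    refine ⟨min 1 (c / (K + 1)), lt_min one_pos (by positivity), min_le_left _ _, ?_⟩
    calc (K : ℝ) * min 1 (c / (K + 1)) ≤ (K + 1) * (c / (K + 1)) :=
          mul_le_mul (by linarith) (min_le_right _ _) (le_min zero_le_one (by positivity))
            (by positivity)
      _ = c := by field_simp
  have hL : 0 ≤ -Real.log z := neg_nonneg.2 (Real.log_nonpos hz0.le hz1)
  refine ⟨c / (-Real.log z + 1), by positivity, fun m d hd => ?_⟩
  have h1 : z ^ d * ∑ j ∈ range (d + 1), (m.choose j : ℝ) * (K : ℝ) ^ j ≤ Real.exp (c * m) := by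
    refine le_trans ?_ ((comb_sum m d (t := K * z) (by positivity)).trans
      (Real.exp_le_exp.2 (mul_le_mul_of_nonneg_right hz (Nat.cast_nonneg _))))
    rw [mul_sum]
    refine sum_le_sum fun j hj => ?_
    rw [mul_pow, ← mul_assoc, ← mul_assoc, mul_assoc (z ^ d), mul_comm]
    exact mul_le_mul_of_nonneg_left
      (pow_le_pow_of_le_one hz0.le hz1 (Nat.lt_succ_iff.1 (mem_range.1 hj))) (by positivity)
  have h2 : (d : ℝ) * -Real.log z ≤ c * m := by
    calc (d : ℝ) * -Real.log z ≤ c / (-Real.log z + 1) * m * (-Real.log z + 1) :=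
          mul_le_mul hd (by linarith) hL (by positivity)
      _ = c * m := by field_simp
  refine le_of_mul_le_mul_left (h1.trans ?_) (pow_pos hz0 d)
  rw [Real.rpow_def_of_pos two_pos, ← Real.exp_log (pow_pos hz0 d), ← Real.exp_add, Real.log_pow]
  refine Real.exp_le_exp.2 ?_
  have h3 : Real.log 2 * (ε * m) = 2 * (c * m) := by rw [hc']; ring
  linarith

end Vale.Agent.P160
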