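import Vale.Agent.P160.Basic

/-!
P160 task CoreP. Keep the statements unchanged; add lemmas freely (start them with `corep_`).

Pure asymptotics. If `e > 1` the last clause is vacuous for `n ≥ 1`; in general put `e' = min e 1`, `λ = ⌈8/e'⌉`, `κ > 0` small
(`κ ≤ 1`, `80 κ λ log (4N+1) ≤ η log 2`), `ρ₀ = ⌊n^κ⌋ → ∞`, `ρ = ρ₀^λ`, `u = n^(-1/4)`, `k₀ = ⌈16 κ λ n⌉`. Take logarithms everywhere;
`log ρ₀ ≤ κ log n`, `12 u ≤ n^(-1/8)` for large `n`, `log n = o(√n)`. Last clause: `(λ-1) g log ρ₀ ≤ λ (n - s) log ρ₀ + n log 12 + log 2`.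
-/

set_option linter.unusedSectionVars false
set_option linter.unusedVariables false

namespace Vale.Agent.P160

open Finset Matrix Filter

theorem core_params {N : ℕ} (hN : 1 ≤ N) {e η ζ : ℝ} (he : 0 < e) (hη : 0 < η) (hζ : 0 < ζ) :
    ∀ᶠ n : ℕ in atTop, ∃ (ρ₀ ρ k₀ : ℕ) (u : ℝ), 1 ≤ ρ₀ ∧ ρ₀ ≤ n ∧ 1 ≤ ρ ∧ 0 < u ∧
      2 * ((2 * ρ : ℕ) : ℝ) * Real.exp (-2 * u ^ 2 * k₀) ≤ 1 ∧
      4 * (N : ℝ) * ((2 * ρ : ℕ) : ℝ) * (12 * u) ^ k₀ ≤ (1 / (ρ : ℝ)) ^ n ∧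
      (4 * (N : ℝ) + 1) ^ (2 * k₀ * n) ≤ (2 : ℝ) ^ (η * (n : ℝ) ^ 2) ∧
      (∀ j : ℕ, (ρ₀ : ℝ) ^ (2 * j) ≤ 4 * (8 * (N : ℝ) ^ 2) ^ n → (j : ℝ) ≤ ζ * n) ∧
      ∀ g s : ℕ, e * n ≤ s → s ≤ n →
        (ρ : ℝ) ^ g * (ρ : ℝ) ^ s ≤ 2 * 12 ^ n * (ρ₀ : ℝ) ^ g * (ρ : ℝ) ^ n → (g : ℝ) + e / 2 * n ≤ n := by
  obtain ⟨M, hM⟩ : ∃ M : ℕ, 1 ≤ M ∧ (4 * (N : ℝ) + 1) ^ 2 ≤ (2 : ℝ) ^ (η * M) := by
    have h1 : Tendsto (fun M : ℕ => (2 : ℝ) ^ (η * M)) atTop atTop :=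
      (tendsto_rpow_atTop_of_base_gt_one 2 one_lt_two).comp
        (tendsto_natCast_atTop_atTop.const_mul_atTop hη)
    exact ((eventually_ge_atTop 1).and (h1.eventually_ge_atTop _)).exists
  obtain ⟨m, hm⟩ := exists_nat_gt (1 / ζ)
  rw [div_lt_iff₀ hζ] at hm
  have hm0 : m ≠ 0 := by
    rintro rfl
    norm_num at hm
  obtain ⟨l, hl⟩ := exists_nat_gt (4 / e)
  rw [div_lt_iff₀ he] at hl
  have hb : 32 ≤ 32 * N ^ 2 := Nat.le_mul_of_pos_right _ (by positivity)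
  obtain ⟨ρ₀, hρ₀⟩ : ∃ ρ₀, ρ₀ = (32 * N ^ 2) ^ m := ⟨_, rfl⟩
  have h32 : 32 ≤ ρ₀ := hρ₀ ▸ hb.trans (Nat.le_self_pow hm0 _)
  have r32 : (32 : ℝ) ≤ ρ₀ := by exact_mod_cast h32
  obtain ⟨ρ, hρ⟩ : ∃ ρ, ρ = ρ₀ ^ (l + 2) := ⟨_, rfl⟩
  have h1 : 1 ≤ ρ := hρ ▸ Nat.one_le_pow _ _ (by omega)
  have r1 : (1 : ℝ) ≤ ρ := by exact_mod_cast h1
  have rN : (1 : ℝ) ≤ N := by exact_mod_cast hN
  obtain ⟨u, hu⟩ : ∃ u : ℝ, u = (1 / (ρ : ℝ)) ^ (2 * M) * (8 * N * ρ : ℝ)⁻¹ / 12 := ⟨_, rfl⟩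
  have u0 : 0 < u := by rw [hu]; positivity
  obtain ⟨K, hK⟩ := exists_nat_ge (Real.log (4 * ρ) / (2 * u ^ 2))
  rw [div_le_iff₀ (by positivity)] at hK
  filter_upwards [eventually_ge_atTop ρ₀, eventually_ge_atTop ((K + 1) * M)] with n n1 n2
  have k1 : K + 1 ≤ n / M := (Nat.le_div_iff_mul_le hM.1).2 n2
  have k2 : n / M * M ≤ n := Nat.div_mul_le_self n M
  have k3 : n ≤ 2 * M * (n / M) := by
    have := Nat.lt_mul_div_succ n hM.1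
    nlinarith
  generalize n / M = k at k1 k2 k3
  refine ⟨ρ₀, ρ, k, u, by omega, n1, h1, u0, ?_, ?_, ?_, fun j hj => ?_, fun g s g1 g2 g3 => ?_⟩
  · have a1 : (K : ℝ) ≤ k := by exact_mod_cast (by omega : K ≤ k)
    have a2 : Real.exp (-2 * u ^ 2 * k) ≤ Real.exp (-Real.log (4 * ρ)) :=
      Real.exp_le_exp.2 (by nlinarith [sq_nonneg u])
    rw [Real.exp_neg, Real.exp_log (by positivity)] at a2
    calc _ ≤ 2 * ((2 * ρ : ℕ) : ℝ) * (4 * ρ : ℝ)⁻¹ := by gcongr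
      _ = 1 := by
        push_cast
        field_simp
        norm_num
  · have a1 : 12 * u = (1 / (ρ : ℝ)) ^ (2 * M) * (8 * N * ρ : ℝ)⁻¹ := by
      rw [hu]
      ring
    have a2 : (1 / (ρ : ℝ)) ^ (2 * M * k) ≤ (1 / (ρ : ℝ)) ^ n :=
      pow_le_pow_of_le_one (by positivity) ((div_le_one (by positivity)).2 r1) k3
    have a3 : (8 * N * ρ : ℝ)⁻¹ ^ k ≤ (8 * N * ρ : ℝ)⁻¹ :=
      pow_le_of_le_one (by positivity) (inv_le_one_of_one_le₀ (by nlinarith)) (by omega)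
    rw [a1, mul_pow, ← pow_mul]
    calc _ ≤ 4 * (N : ℝ) * ((2 * ρ : ℕ) : ℝ) * ((1 / (ρ : ℝ)) ^ n * (8 * N * ρ : ℝ)⁻¹) := by gcongr
      _ = _ := by
        push_cast
        field_simp
        norm_num
  · rw [mul_assoc, pow_mul]
    refine (pow_le_pow_left₀ (by positivity) hM.2 _).trans ?_
    rw [← Real.rpow_mul_natCast (by norm_num)]
    refine Real.rpow_le_rpow_of_exponent_le (by norm_num) ?_
    have a1 : (k : ℝ) * M ≤ n := by exact_mod_cast k2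
    have a2 := mul_le_mul_of_nonneg_left a1 (show 0 ≤ η * n by positivity)
    push_cast
    nlinarith
  · have a1 : (4 : ℝ) * (8 * (N : ℝ) ^ 2) ^ n ≤ (32 * (N : ℝ) ^ 2) ^ n := by
      rw [show (32 * (N : ℝ) ^ 2) = 4 * (8 * (N : ℝ) ^ 2) by ring, mul_pow (4 : ℝ)]
      gcongr
      exact le_self_pow₀ (by norm_num) (by omega)
    have a2 := hj.trans a1
    rw [hρ₀] at a2
    push_cast at a2
    rw [← pow_mul, pow_le_pow_iff_right₀ (by nlinarith)] at a2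
    have a3 : (m : ℝ) * (2 * j) ≤ n := by exact_mod_cast a2
    have a4 := mul_le_mul_of_nonneg_left a3 hζ.le
    have a5 := mul_le_mul_of_nonneg_left hm.le (Nat.cast_nonneg (α := ℝ) j)
    nlinarith [Nat.cast_nonneg (α := ℝ) j]
  · have a1 : (2 : ℝ) * 12 ^ n ≤ (ρ₀ : ℝ) ^ n := by
      refine le_trans ?_ (pow_le_pow_left₀ (by norm_num) (show (2 * 12 : ℝ) ≤ ρ₀ by linarith) n)
      rw [mul_pow]
      gcongr
      exact le_self_pow₀ (by norm_num) (by omega)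
    have a2 : (ρ : ℝ) ^ g * (ρ : ℝ) ^ s ≤ (ρ₀ : ℝ) ^ n * (ρ₀ : ℝ) ^ g * (ρ : ℝ) ^ n :=
      g3.trans (by gcongr)
    rw [hρ] at a2
    push_cast at a2
    simp only [← pow_mul, ← pow_add] at a2
    rw [pow_le_pow_iff_right₀ (by linarith)] at a2
    have a3 : ((l : ℝ) + 2) * g + (l + 2) * s ≤ n + g + (l + 2) * n := by exact_mod_cast a2
    have a4 := mul_le_mul_of_nonneg_left g1 (show (0 : ℝ) ≤ l + 2 by positivity)
    have a5 := mul_le_mul_of_nonneg_left hl.le (Nat.cast_nonneg (α := ℝ) n)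
    have a6 : (0 : ℝ) ≤ e * n := by positivity
    refine le_of_mul_le_mul_left ?_ (show (0 : ℝ) < l + 1 by positivity)
    nlinarith

theorem corep_pos (θ : ℝ) (n : ℕ) : 0 < nn θ n := Real.exp_pos _

theorem corep_pow (θ : ℝ) (n k : ℕ) : nn θ n ^ k = nn (k * θ) n := by
  rw [nn, nn, ← Real.exp_nat_mul]
  congr 1
  ring

theorem corep_mono {θ θ' : ℝ} (h : θ ≤ θ') (n : ℕ) : nn θ n ≤ nn θ' n := by
  have := Real.log_natCast_nonneg n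
  unfold nn
  gcongr

theorem corep_le {θ : ℝ} {n E : ℕ} (hn : 1 ≤ n) (h : (E : ℝ) ≤ θ * n) : (n : ℝ) ^ E ≤ nn θ n := by
  have := Real.log_natCast_nonneg n
  rw [← Real.exp_log (show (0 : ℝ) < n by exact_mod_cast hn), ← Real.exp_nat_mul, nn]
  gcongr

theorem corep_one {n : ℕ} (hn : 1 ≤ n) : nn 1 n = (n : ℝ) ^ n := by
  rw [nn, one_mul, Real.exp_nat_mul, Real.exp_log (by exact_mod_cast hn)]

theorem corep_lt {K θ : ℝ} (hK : 0 ≤ K) (hθ : 0 < θ) : ∀ᶠ n : ℕ in atTop, K ^ n < nn θ n := by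
  have h1 := ((Real.tendsto_log_atTop.comp tendsto_natCast_atTop_atTop).const_mul_atTop
    hθ).eventually_gt_atTop (Real.log (K + 1))
  filter_upwards [h1, eventually_ge_atTop 1] with n h2 h3
  refine (pow_le_pow_left₀ hK (le_add_of_nonneg_right zero_le_one) n).trans_lt ?_
  rw [← Real.exp_log (show 0 < K + 1 by positivity), ← Real.exp_nat_mul, nn, Real.exp_lt_exp,
    mul_comm θ, mul_assoc]
  exact mul_lt_mul_of_pos_left h2 (by exact_mod_cast h3)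

theorem corep_four {x y : ℝ} (hx : 0 ≤ x) (hy : 0 ≤ y) {n : ℕ} (hn : 1 ≤ n) :
    x ^ n * (4 * y ^ n) ≤ (x * (4 * y)) ^ n := by
  rw [mul_pow, mul_pow]
  gcongr
  exact le_self_pow₀ (by norm_num) (by omega)

theorem il_params (N a : ℕ) {δ : ℝ} (hδ : 0 < δ) : ∃ ξ > (0 : ℝ), ∀ᶠ n : ℕ in atTop, 2 ≤ n ∧
    ∀ c r : ℕ, (c : ℝ) ≤ ξ * n → (r : ℝ) ≤ 2 * ξ * n →
      4 ^ n * ((n : ℝ) ^ a) ^ (2 * (c + 1)) * (4 * (8 * (N : ℝ) ^ 2) ^ n) *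
          ((n : ℝ) ^ 8 * ((n : ℝ) ^ a) ^ 2) ^ r < nn δ n ^ 2 ∧
      (32 ^ n * (4 * (8 * (N : ℝ) ^ 2) ^ n) * ((n : ℝ) ^ 8 * ((n : ℝ) ^ a) ^ 2) ^ (c + r)) ^ 10 <
          (n : ℝ) ^ n := by
  obtain ⟨ξ, hξ, h1⟩ := exists_pos_mul_lt (lt_min (half_pos hδ) (show (0 : ℝ) < 1 / 20 by norm_num))
    (3 * (8 + 2 * a) : ℝ)
  rw [lt_min_iff] at h1
  refine ⟨ξ, hξ, ?_⟩
  filter_upwards [eventually_ge_atTop 2,
    corep_lt (show (0 : ℝ) ≤ 4 * (4 * (8 * (N : ℝ) ^ 2)) by positivity) hδ,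
    corep_lt (show (0 : ℝ) ≤ 32 * (4 * (8 * (N : ℝ) ^ 2)) by positivity)
      (show (0 : ℝ) < 1 / 20 by norm_num),
    (tendsto_natCast_atTop_atTop.const_mul_atTop (half_pos hδ)).eventually_ge_atTop (2 * a : ℝ)]
    with n n2 k1 k2 k3
  have n1 : 1 ≤ n := by omega
  have n0 : (0 : ℝ) < n := by exact_mod_cast n1
  refine ⟨n2, fun c r hc hr => ⟨?_, ?_⟩⟩
  · have a1 : (n : ℝ) ^ (a * (2 * (c + 1)) + (8 + a * 2) * r) ≤ nn δ n := by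
      refine corep_le n1 ?_
      have b1 := mul_le_mul_of_nonneg_left hc (show (0 : ℝ) ≤ 8 + 2 * a by positivity)
      have b2 := mul_le_mul_of_nonneg_left hr (show (0 : ℝ) ≤ 8 + 2 * a by positivity)
      have b3 := mul_le_mul_of_nonneg_right h1.1.le n0.le
      push_cast
      nlinarith [Nat.cast_nonneg (α := ℝ) c]
    calc _ = 4 ^ n * (4 * (8 * (N : ℝ) ^ 2) ^ n) *
          (n : ℝ) ^ (a * (2 * (c + 1)) + (8 + a * 2) * r) := by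
          rw [← pow_mul, ← pow_mul, ← pow_add, ← pow_mul, pow_add (n : ℝ) (a * _)]
          ac_rfl
      _ < nn δ n * nn δ n := mul_lt_mul ((corep_four (by norm_num) (by positivity) n1).trans_lt k1)
          a1 (by positivity) (corep_pos _ _).le
      _ = _ := (sq _).symm
  · have a1 : (n : ℝ) ^ ((8 + a * 2) * (c + r)) ≤ nn (1 / 20) n := by
      refine corep_le n1 ?_
      have b1 := mul_le_mul_of_nonneg_left hc (show (0 : ℝ) ≤ 8 + 2 * a by positivity)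
      have b2 := mul_le_mul_of_nonneg_left hr (show (0 : ℝ) ≤ 8 + 2 * a by positivity)
      have b3 := mul_le_mul_of_nonneg_right h1.2.le n0.le
      push_cast
      nlinarith
    have a2 := mul_lt_mul ((corep_four (by norm_num) (by positivity) n1).trans_lt k2)
      a1 (by positivity) (corep_pos _ _).le
    rw [← pow_mul (n : ℝ) a, ← pow_add, ← pow_mul (n : ℝ)]
    refine (pow_lt_pow_left₀ a2 (by positivity) (by norm_num)).trans_eq ?_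
    rw [← sq, ← pow_mul, corep_pow, ← corep_one n1]
    norm_num

theorem upper_params {β δ₀ : ℝ} (hβ : 0 < β) (hδ₀ : 0 < δ₀) : ∃ δ > (0 : ℝ), ∀ᶠ n : ℕ in atTop,
    ∃ y : ℕ, 2 ≤ y ∧ 2 ^ n * nn δ n ≤ y ∧ (y : ℝ) ≤ nn δ₀ n ∧
      ∀ κ : ℕ, κ ^ ⌊β * ((n + 1 : ℕ) : ℝ)⌋₊ < y ^ (n + 1) → (4 * y ^ 6 * κ ^ 3) ^ 20 ≤ n ^ n := by
  obtain ⟨t, ht⟩ := exists_nat_ge (2 / β)
  rw [div_le_iff₀ hβ] at ht
  obtain ⟨δ₁, h0, h1⟩ := exists_pos_mul_lt one_pos (((8 + t * 3) * 20 : ℕ) * 2 : ℝ)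
  obtain ⟨δ, hδ, h2, h3⟩ : ∃ δ : ℝ, 0 < δ ∧ δ ≤ δ₁ ∧ δ ≤ δ₀ / 2 :=
    ⟨min δ₁ (δ₀ / 2), by positivity, min_le_left _ _, min_le_right _ _⟩
  refine ⟨δ, hδ, ?_⟩
  filter_upwards [eventually_ge_atTop 1, corep_lt (show (0 : ℝ) ≤ 4 by norm_num) hδ,
    (tendsto_natCast_atTop_atTop.const_mul_atTop hβ).eventually_ge_atTop (2 : ℝ)] with n n1 k1 k2
  have a1 : 1 ≤ nn δ n := (one_le_pow₀ (by norm_num)).trans k1.le
  have a2 : (2 : ℝ) ≤ 2 ^ n := le_self_pow₀ (by norm_num) (by omega)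
  have a3 : (2 : ℝ) ≤ 2 ^ n * nn δ n := by nlinarith
  have a4 := Nat.le_ceil (2 ^ n * nn δ n)
  have a5 : (⌈2 ^ n * nn δ n⌉₊ : ℝ) ≤ nn (2 * δ) n := by
    have b1 := Nat.ceil_lt_add_one (show 0 ≤ 2 ^ n * nn δ n by linarith)
    have b2 : (4 : ℝ) ^ n = 2 ^ n * 2 ^ n := by
      rw [← mul_pow]
      norm_num
    have b3 := corep_pow δ n 2
    have b4 := mul_le_mul_of_nonneg_right k1.le (corep_pos δ n).le
    have b5 := mul_le_mul_of_nonneg_right a2 (show 0 ≤ 2 ^ n * nn δ n by linarith)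
    push_cast at b3
    rw [← b3]
    rw [b2] at b4
    nlinarith
  generalize ⌈2 ^ n * nn δ n⌉₊ = y at a4 a5
  have y2 : 2 ≤ y := by exact_mod_cast a3.trans a4
  refine ⟨y, y2, a4, a5.trans (corep_mono (by linarith) n), fun κ hκ => ?_⟩
  have b1 : n + 1 ≤ t * ⌊β * ((n + 1 : ℕ) : ℝ)⌋₊ := by
    have c1 := Nat.lt_floor_add_one (β * ((n + 1 : ℕ) : ℝ))
    generalize ⌊β * ((n + 1 : ℕ) : ℝ)⌋₊ = m at c1
    have c2 : β * ((n + 1 : ℕ) : ℝ) ≤ β * (t * m) := by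
      have := mul_le_mul_of_nonneg_right ht (Nat.cast_nonneg (α := ℝ) m)
      push_cast at c1 ⊢
      nlinarith
    exact_mod_cast le_of_mul_le_mul_left c2 hβ
  have b2 : κ ≤ y ^ t := by
    refine (lt_of_pow_lt_pow_left₀ _ (Nat.zero_le _) (hκ.trans_le ?_)).le
    rw [← pow_mul]
    exact Nat.pow_le_pow_right (by omega) b1
  have b3 : 4 * y ^ 6 * κ ^ 3 ≤ y ^ (8 + t * 3) := by
    calc _ ≤ y ^ 2 * y ^ 6 * (y ^ t) ^ 3 := by
          gcongr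
          nlinarith
      _ = _ := by rw [← pow_add, ← pow_mul, ← pow_add]
  refine (Nat.pow_le_pow_left b3 20).trans ?_
  rw [← pow_mul]
  have b4 : (y : ℝ) ^ ((8 + t * 3) * 20) ≤ (n : ℝ) ^ n := by
    refine (pow_le_pow_left₀ (by positivity) a5 _).trans ?_
    rw [corep_pow, ← corep_one n1]
    refine corep_mono ?_ n
    have := mul_le_mul_of_nonneg_left h2 (show (0 : ℝ) ≤ ((8 + t * 3) * 20 : ℕ) * 2 by positivity)
    linarith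
  exact_mod_cast b4

end Vale.Agent.P160
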