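import Vale.Agent.P160.Fej

/-!
P160 task Short. Keep the statements unchanged; add lemmas freely (start them with `short_`).

Few short vectors are orthogonal to random samples. `k = 2 k₀`; take a prime `p > 2 N ρ`, `p ≥ 1/u`. By `prod_Fej`, `sum_ch_pi`:
`p^k * orthPairs W ρ ≤ ∑ θ ∈ Bx (Fin k) p, ∏ i, Fej p ρ (∑ j, θ j * W j i)`. Sum over `τ ∈ piFinset (Sg)`. Call `θ` bad if for some
`1 ≤ m ≤ 2 N ρ` at least `k₀` indices `j` have `|m θ j - m' p| < u p` for some integer `m'` (`bad_card`: at most `2 N ρ (12 u)^k₀ p^k` of them: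
multiplication by `m` permutes residues, at most `2 u p + 1 ≤ 3 u p` small residues, `4^k₀` subsets); bound their terms by `ρ^(2n)`.
For good `θ` bound the factors `i ∉ S` by `ρ²`; the factors `i ∈ S` depend on the disjoint columns `(τ j i)_j` (swap the two indices,
`Finset.prod_univ_sum`), and with `2 y = (a+b) + σ (a-b)`, `Fej_two_mul`, `row_le` (index `κ = Unit`, `J = univ`, modulus `2p`) and
`abs_cs_le` each has average at most `ρ (1 + 2 ρ exp (-2 u² k₀)) ≤ 2ρ`. Some `τ` is below the average (`Finset.exists_le_of_sum_le`).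
-/

set_option linter.unusedSectionVars false
set_option linter.unusedVariables false

namespace Vale.Agent.P160

open Finset Matrix Filter

theorem short_biUnion {α β : Type} [DecidableEq β] (s : Finset α) (f : α → Finset β) {B : ℝ}
    (h : ∀ a ∈ s, ((f a).card : ℝ) ≤ B) : ((s.biUnion f).card : ℝ) ≤ s.card * B := by
  refine (Nat.cast_le.2 card_biUnion_le).trans ?_
  rw [Nat.cast_sum, ← nsmul_eq_mul]
  exact sum_le_card_nsmul _ _ _ h

open Classical in
theorem short_small {p m : ℕ} (hp : p.Prime) (h1 : 1 ≤ m) (hm : m < p) {u : ℝ} (hu : 1 ≤ u * p) :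
    (((Finset.Ico (0 : ℤ) p).filter fun t =>
      ∃ m' : ℤ, |((m * t : ℤ) : ℝ) - m' * p| < u * p).card : ℝ) ≤ 3 * (u * p) := by
  have h2 : ∀ t ∈ (Finset.Ico (0 : ℤ) p).filter fun t =>
      ∃ m' : ℤ, |((m * t : ℤ) : ℝ) - m' * p| < u * p,
      ∃ m' : ℤ, |((m * t : ℤ) : ℝ) - m' * p| < u * p := fun t ht => (mem_filter.1 ht).2
  choose! f hf using h2
  have h3 := card_le_card_of_injOn (t := Finset.Icc (-⌊u * p⌋) ⌊u * p⌋) (fun t => m * t - f t * p)
    (fun t ht => by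
      rw [mem_coe, mem_Icc, ← abs_le, Int.le_floor]
      have := hf t ht
      push_cast at this ⊢
      exact this.le)
    (fun t ht t' ht' h => by
      have h4 := mem_Ico.1 (mem_filter.1 ht).1
      have h5 := mem_Ico.1 (mem_filter.1 ht').1
      have h6 : (p : ℤ) ∣ m * (t - t') := ⟨f t - f t', by linear_combination h⟩
      rcases (Nat.prime_iff_prime_int.1 hp).dvd_or_dvd h6 with h7 | h7
      · exact absurd (Nat.le_of_dvd h1 (Int.natCast_dvd_natCast.1 h7)) (by omega)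
      · exact sub_eq_zero.1 (Int.eq_zero_of_abs_lt_dvd h7 (abs_lt.2 ⟨by omega, by omega⟩)))
  refine (Nat.cast_le.2 h3).trans ?_
  have h8 : 0 ≤ ⌊u * p⌋ := Int.floor_nonneg.2 (by linarith)
  have h9 := Int.floor_le (u * p)
  rw [Int.card_Icc, ← Int.cast_natCast, Int.toNat_of_nonneg (by omega)]
  push_cast
  linarith

open Classical in
theorem bad_card {p k₀ L : ℕ} (hp : p.Prime) (hL : L < p) {u : ℝ} (hu : 1 ≤ u * p) :
    (((Bx (Fin (2 * k₀)) p).filter fun θ => ∃ m : ℕ, 1 ≤ m ∧ m ≤ L ∧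
      k₀ ≤ (univ.filter fun j => ∃ m' : ℤ, |((m * θ j : ℤ) : ℝ) - m' * p| < u * p).card).card : ℝ) ≤
      L * (12 * u) ^ k₀ * (p : ℝ) ^ (2 * k₀) := by
  have hp0 : (0 : ℝ) < p := Nat.cast_pos.2 hp.pos
  have hu0 : 0 ≤ u := by
    by_contra h
    nlinarith
  refine (Nat.cast_le.2 (card_le_card (t := (Finset.Icc 1 L).biUnion fun m : ℕ =>
    (powersetCard k₀ (univ : Finset (Fin (2 * k₀)))).biUnion fun T => Fintype.piFinset fun j =>
      if j ∈ T then (Finset.Ico (0 : ℤ) p).filter fun t =>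
        ∃ m' : ℤ, |((m * t : ℤ) : ℝ) - m' * p| < u * p else Finset.Ico (0 : ℤ) p)
    fun θ hθ => ?_)).trans ((short_biUnion _ _ (B := (12 * u) ^ k₀ * (p : ℝ) ^ (2 * k₀))
      fun m hm => ?_).trans ?_)
  · obtain ⟨h1, m, h2, h3, h4⟩ := mem_filter.1 hθ
    obtain ⟨T, h5, h6⟩ := exists_subset_card_eq h4
    refine mem_biUnion.2 ⟨m, mem_Icc.2 ⟨h2, h3⟩, mem_biUnion.2
      ⟨T, mem_powersetCard.2 ⟨subset_univ _, h6⟩, Fintype.mem_piFinset.2 fun j => ?_⟩⟩
    have h7 := mem_Ico.2 (mem_Bx.1 h1 j)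
    split_ifs with h
    · exact mem_filter.2 ⟨h7, (mem_filter.1 (h5 h)).2⟩
    · exact h7
  · have h1 := short_small hp (mem_Icc.1 hm).1 ((mem_Icc.1 hm).2.trans_lt hL) hu
    refine (short_biUnion _ _ (B := (3 * u) ^ k₀ * (p : ℝ) ^ (2 * k₀)) fun T hT => ?_).trans ?_
    · rw [Fintype.card_piFinset, Nat.cast_prod]
      refine (prod_le_prod (g := fun j => (if j ∈ T then 3 * u else 1) * (p : ℝ))
        (fun j _ => Nat.cast_nonneg _) fun j _ => ?_).trans_eq ?_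
      · split_ifs with h
        · exact h1.trans_eq (mul_assoc _ _ _).symm
        · simp
      · rw [prod_mul_distrib, prod_ite_mem, univ_inter, prod_const, prod_const,
          (mem_powersetCard.1 hT).2, card_univ, Fintype.card_fin]
    · have h2 : ((powersetCard k₀ (univ : Finset (Fin (2 * k₀)))).card : ℝ) ≤ 4 ^ k₀ := by
        rw [card_powersetCard, card_univ, Fintype.card_fin, show (4 : ℝ) = 2 ^ 2 by norm_num,
          ← pow_mul]
        exact_mod_cast Nat.choose_le_two_pow _ _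
      refine (mul_le_mul_of_nonneg_right h2 (by positivity)).trans_eq ?_
      rw [← mul_assoc, ← mul_pow, ← mul_assoc]
      norm_num
  · rw [Nat.card_Icc, Nat.add_sub_cancel, mul_assoc]

theorem short_four {n k p : ℕ} (hp : 0 < p) (W : Fin k → Fin n → ℤ) (ρ : ℕ) :
    (p : ℝ) ^ k * orthPairs W ρ ≤ ∑ θ ∈ Bx (Fin k) p, ∏ i, Fej p ρ (∑ j, θ j * W j i) := by
  classical
  have h : ((∑ θ ∈ Bx (Fin k) p, ∏ i, Fej p ρ (∑ j, θ j * W j i) : ℝ) : ℂ) =
      ((∑ q ∈ Bx (Fin n) ρ ×ˢ Bx (Fin n) ρ,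
        if ∀ j, (p : ℤ) ∣ W j ⬝ᵥ (q.1 - q.2) then (p : ℝ) ^ k else 0 : ℝ) : ℂ) := by
    rw [Complex.ofReal_sum, Complex.ofReal_sum]
    simp only [prod_Fej]
    rw [sum_comm]
    refine sum_congr rfl fun q _ => ?_
    have h1 := sum_ch_pi hp fun j => W j ⬝ᵥ (q.1 - q.2)
    rw [Fintype.card_fin] at h1
    rw [apply_ite Complex.ofReal, Complex.ofReal_pow, Complex.ofReal_natCast, Complex.ofReal_zero]
    refine Eq.trans (sum_congr rfl fun θ _ => congrArg _ ?_)
      (h1.trans (ite_congr rfl (fun _ => rfl) fun _ => rfl))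
    simp only [dotProduct, mul_sum, sum_mul]
    rw [sum_comm]
    exact sum_congr rfl fun j _ => sum_congr rfl fun i _ => by ring
  rw [Complex.ofReal_injective h, orthPairs, card_filter, Nat.cast_sum, mul_sum]
  refine sum_le_sum fun q _ => ?_
  by_cases h1 : ∀ j, W j ⬝ᵥ (q.1 - q.2) = 0
  · rw [if_pos h1, if_pos fun j => by rw [h1 j]; exact dvd_zero _, Nat.cast_one, mul_one]
  · rw [if_neg h1, Nat.cast_zero, mul_zero]
    split_ifs
    · positivity
    · exact le_rfl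

open Classical in
theorem short_row {k₀ ρ p L : ℕ} (hp : 0 < p) {u : ℝ} (hu0 : 0 < u)
    (h1 : 2 * (ρ : ℝ) * Real.exp (-2 * u ^ 2 * k₀) ≤ 1) {θ : Fin (2 * k₀) → ℤ}
    (hθ : ¬∃ m : ℕ, 1 ≤ m ∧ m ≤ L ∧
      k₀ ≤ (univ.filter fun j => ∃ m' : ℤ, |((m * θ j : ℤ) : ℝ) - m' * p| < u * p).card)
    {d : ℤ} (hd : d ≠ 0) (hL : ρ * |d| ≤ L) (sh : ℤ) :
    ∑ σ ∈ Sg (Fin (2 * k₀)), Fej (2 * p) ρ (sh + ∑ j, σ j * (d * θ j)) ≤
      2 ^ (2 * k₀) * (2 * ρ) := by
  have h := row_le (κ := Unit) (2 * p) ρ univ (fun _ j => d * θ j) fun _ => sh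
  simp only [Fintype.prod_unique, Fintype.sum_unique, Fintype.card_unique, Fintype.card_fin,
    pow_one] at h
  have h2 : ∀ t ∈ (Bs Unit ρ).erase 0, ∏ j, |cs (2 * p) (t default * (d * θ j))| ≤
      Real.exp (-2 * u ^ 2 * k₀) := fun t ht => by
    obtain ⟨h3, h4⟩ := mem_erase.1 ht
    have h5 : t default * d ≠ 0 := mul_ne_zero (fun h => h3 (funext fun _ => h)) hd
    have h6 : ((t default * d).natAbs : ℤ) ≤ L := by
      rw [Int.natCast_natAbs, abs_mul]
      exact (mul_le_mul_of_nonneg_right (mem_Bs.1 h4 default).le (abs_nonneg d)).trans hL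
    have h7 := not_le.1 fun h => hθ ⟨(t default * d).natAbs, Int.natAbs_pos.2 h5,
      Int.ofNat_le.1 h6, h⟩
    generalize hA : (univ.filter fun j => ∃ m' : ℤ,
      |((((t default * d).natAbs : ℕ) * θ j : ℤ) : ℝ) - m' * p| < u * p) = A at h7
    refine (prod_le_prod (g := fun j => if j ∈ Aᶜ then Real.exp (-2 * u ^ 2) else 1)
      (fun j _ => abs_nonneg _) fun j _ => ?_).trans ?_
    · split_ifs with h8
      · refine abs_cs_le hp hu0.le fun m' => not_lt.1 fun h9 => mem_compl.1 h8 ?_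
        rw [← hA]
        refine mem_filter.2 ⟨mem_univ _, ?_⟩
        rw [Int.natCast_natAbs, ← mul_assoc] at *
        rcases abs_choice (t default * d) with h10 | h10 <;> rw [h10]
        · exact ⟨m', h9⟩
        · refine ⟨-m', ?_⟩
          rw [← abs_neg]
          push_cast at h9 ⊢
          exact lt_of_eq_of_lt (congrArg _ (by ring)) h9
      · exact Real.abs_cos_le_one _
    · rw [prod_ite_mem, univ_inter, prod_const, ← Real.exp_nat_mul, Real.exp_le_exp,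
        card_compl, Fintype.card_fin]
      have h8 : (k₀ : ℝ) ≤ ((2 * k₀ - A.card : ℕ) : ℝ) := Nat.cast_le.2 (by omega)
      nlinarith [sq_nonneg u]
  have h3 := sum_le_card_nsmul _ _ _ h2
  have h4 : (((Bs Unit ρ).erase 0).card : ℝ) ≤ 2 * ρ := by
    have := (card_erase_le (a := 0)).trans (card_Bs_le (ι := Unit) ρ)
    rw [Fintype.card_unique, pow_one] at this
    exact_mod_cast this
  rw [nsmul_eq_mul] at h3
  have h5 := (h3.trans (mul_le_mul_of_nonneg_right h4 (Real.exp_pos _).le)).trans h1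
  refine h.trans ((mul_le_mul_of_nonneg_left (add_le_add_right h5 1) (by positivity)).trans_eq ?_)
  ring

theorem short_swap {n k : ℕ} (g : Fin n → (Fin k → ℤ) → ℝ) :
    ∑ τ ∈ Fintype.piFinset fun _ : Fin k => Sg (Fin n), ∏ i, g i (fun j => τ j i) =
      ∏ i, ∑ σ ∈ Sg (Fin k), g i σ := by
  rw [prod_univ_sum]
  refine sum_nbij' (fun τ i j => τ j i) (fun τ j i => τ i j) ?_ ?_ (fun _ _ => rfl)
    (fun _ _ => rfl) fun _ _ => rfl <;> intro τ h <;>
    exact Fintype.mem_piFinset.2 fun i => mem_Sg.2 fun j =>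
      mem_Sg.1 (Fintype.mem_piFinset.1 h j) i

open Classical in
theorem short_good {n v k₀ ρ N p : ℕ} {U : Matrix (Fin n) (Fin v) ℤ} {S : Finset (Fin n)}
    {a b : Fin n → ℤ} {y : (Fin n → ℤ) → Fin n → ℤ} {y₀ : Fin n → ℤ} (hC : Cube N U S a b y y₀)
    (hρ : 1 ≤ ρ) {u : ℝ} (hu0 : 0 < u) (h1 : 2 * (ρ : ℝ) * Real.exp (-2 * u ^ 2 * k₀) ≤ 1)
    (hp : 0 < p) {θ : Fin (2 * k₀) → ℤ} (hθ : ¬∃ m : ℕ, 1 ≤ m ∧ m ≤ 2 * N * ρ ∧
      k₀ ≤ (univ.filter fun j => ∃ m' : ℤ, |((m * θ j : ℤ) : ℝ) - m' * p| < u * p).card) :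
    ∑ τ ∈ Fintype.piFinset fun _ : Fin (2 * k₀) => Sg (Fin n),
      ∏ i, Fej p ρ (∑ j, θ j * (y (τ j) - y₀) i) ≤
        (2 ^ n) ^ (2 * k₀) * ((ρ : ℝ) ^ (2 * n) * (2 / (ρ : ℝ)) ^ S.card) := by
  have hρ0 : (0 : ℝ) < ρ := Nat.cast_pos.2 hρ
  refine (sum_le_sum fun τ hτ => prod_le_prod (fun i _ => Fej_nonneg _ _ _)
    fun i _ => ?_).trans ((short_swap fun i σ => if i ∈ S then Fej (2 * p) ρ
      (∑ j, θ j * (a i + b i - 2 * y₀ i) + ∑ j, σ j * ((a i - b i) * θ j))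
        else (ρ : ℝ) ^ 2).trans_le ((prod_le_prod (g := fun i => 2 ^ (2 * k₀) * (ρ : ℝ) ^ 2 *
          if i ∈ S then 2 / (ρ : ℝ) else 1) (fun i _ => sum_nonneg fun σ _ => ?_)
            fun i _ => ?_).trans_eq ?_))
  · split_ifs with h
    · rw [← Fej_two_mul, mul_sum, ← sum_add_distrib]
      refine le_of_eq (congrArg _ (sum_congr rfl fun j _ => ?_))
      have h2 := Fintype.mem_piFinset.1 hτ j
      rw [Pi.sub_apply, hC.val _ h2 i h]
      beta_reduce
      rcases mem_Sg.1 h2 i with h3 | h3 <;> rw [h3]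
      · rw [if_pos rfl]
        ring
      · rw [if_neg (by norm_num)]
        ring
    · exact Fej_le _ _ _
  · split_ifs
    · exact Fej_nonneg _ _ _
    · positivity
  · split_ifs with h
    · refine (short_row hp hu0 h1 hθ (sub_ne_zero.2 (hC.ne i h)) ?_ _).trans_eq (by field_simp)
      have h2 := (abs_sub _ _).trans (add_le_add (hC.ha i h) (hC.hb i h))
      refine (mul_le_mul_of_nonneg_left h2 (Int.natCast_nonneg ρ)).trans_eq ?_
      push_cast
      ring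
    · rw [sum_const, card_Sg, Fintype.card_fin, nsmul_eq_mul, mul_one]
      exact le_of_eq (by push_cast; rfl)
  · rw [prod_mul_distrib, prod_ite_mem, univ_inter, prod_const, prod_const, card_univ,
      Fintype.card_fin, mul_pow, ← pow_mul, ← pow_mul, ← pow_mul, mul_comm n, mul_assoc]

theorem short {n v k₀ ρ N : ℕ} {U : Matrix (Fin n) (Fin v) ℤ} {S : Finset (Fin n)}
    {a b : Fin n → ℤ} {y : (Fin n → ℤ) → Fin n → ℤ} {y₀ : Fin n → ℤ} (hC : Cube N U S a b y y₀)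
    (hρ : 1 ≤ ρ) {u : ℝ} (hu0 : 0 < u) (h1 : 2 * (ρ : ℝ) * Real.exp (-2 * u ^ 2 * k₀) ≤ 1) :
    ∃ τ : Fin (2 * k₀) → Fin n → ℤ, (∀ j, τ j ∈ Sg (Fin n)) ∧
      (orthPairs (fun j => y (τ j) - y₀) ρ : ℝ) ≤
        (ρ : ℝ) ^ (2 * n) * ((2 / (ρ : ℝ)) ^ S.card + 4 * N * ρ * (12 * u) ^ k₀) := by
  classical
  obtain ⟨p, hp1, hp⟩ := Nat.exists_infinite_primes (2 * N * ρ + 1 + ⌈1 / u⌉₊)
  have hp0 : (0 : ℝ) < (p : ℝ) ^ (2 * k₀) := pow_pos (Nat.cast_pos.2 hp.pos) _
  have hu : 1 ≤ u * p := by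
    rw [← div_le_iff₀' hu0]
    exact Nat.ceil_le.1 (by omega)
  have hb := bad_card (k₀ := k₀) hp (L := 2 * N * ρ) (by omega) hu
  have hc : ((Fintype.piFinset fun _ : Fin (2 * k₀) => Sg (Fin n)).card : ℝ) =
      (2 ^ n) ^ (2 * k₀) := by
    rw [Fintype.card_piFinset, prod_const, card_Sg, card_univ, Fintype.card_fin, Fintype.card_fin]
    push_cast
    rfl
  obtain ⟨τ, hτ, h⟩ := exists_le_of_sum_le
    (s := Fintype.piFinset fun _ : Fin (2 * k₀) => Sg (Fin n))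
    (f := fun τ => (p : ℝ) ^ (2 * k₀) * orthPairs (fun j => y (τ j) - y₀) ρ)
    (g := fun _ => (p : ℝ) ^ (2 * k₀) *
      ((ρ : ℝ) ^ (2 * n) * ((2 / (ρ : ℝ)) ^ S.card + 4 * N * ρ * (12 * u) ^ k₀)))
    ⟨fun _ _ => 1, Fintype.mem_piFinset.2 fun _ => mem_Sg.2 fun _ => Or.inl rfl⟩ (by
      refine (sum_le_sum fun τ _ => short_four hp.pos _ ρ).trans ?_
      rw [sum_comm]
      refine (sum_le_sum (g := fun θ => (2 ^ n) ^ (2 * k₀) * (ρ : ℝ) ^ (2 * n) *
        ((2 / (ρ : ℝ)) ^ S.card + if ∃ m : ℕ, 1 ≤ m ∧ m ≤ 2 * N * ρ ∧ k₀ ≤ (univ.filter fun j =>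
          ∃ m' : ℤ, |((m * θ j : ℤ) : ℝ) - m' * p| < u * p).card then 1 else 0))
        fun θ _ => ?_).trans ?_
      · split_ifs with h
        · refine (sum_le_card_nsmul _ _ ((ρ : ℝ) ^ (2 * n)) fun τ _ => ?_).trans ?_
          · refine (prod_le_prod (fun i _ => Fej_nonneg _ _ _) fun i _ => Fej_le _ _ _).trans_eq ?_
            rw [prod_const, card_univ, Fintype.card_fin, pow_mul]
          · rw [nsmul_eq_mul, hc]
            exact le_mul_of_one_le_right (by positivity) (le_add_of_nonneg_left (by positivity))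
        · rw [add_zero, mul_assoc]
          exact short_good hC hρ hu0 h1 hp.pos h
      · rw [← mul_sum, sum_add_distrib, sum_boole, sum_const, sum_const, nsmul_eq_mul,
          nsmul_eq_mul, hc, card_Bx, Fintype.card_fin, Nat.cast_pow, mul_assoc,
          mul_left_comm ((p : ℝ) ^ (2 * k₀)), mul_add ((p : ℝ) ^ (2 * k₀))]
        refine mul_le_mul_of_nonneg_left (mul_le_mul_of_nonneg_left
          (add_le_add_right (hb.trans ?_) _) (by positivity)) (by positivity)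
        have : 0 ≤ (p : ℝ) ^ (2 * k₀) * (N * ρ * (12 * u) ^ k₀) := by positivity
        push_cast
        linarith)
  exact ⟨τ, Fintype.mem_piFinset.1 hτ, le_of_mul_le_mul_left h hp0⟩

end Vale.Agent.P160
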