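import Vale.Agent.P160.Fibre
import Vale.Agent.P160.Short
import Vale.Agent.P160.Clo
import Vale.Agent.P160.CoreP

/-!
P160 task Core. Keep the statements unchanged; add lemmas freely (start them with `core_`).

`N, e` from `fibre`, `μ = e/2`, parameters from `core_params`. Choose `clo W` by `exists_clo` (`choose`), let `F` be the image of
`piFinset fun _ : Fin (2 k₀) => piFinset fun _ => Icc (-2N) (2N)` under `clo`, filtered by the dimension condition (classical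
decidability). Given `Rich`, take the cube, `τ` from `short` with box side `2ρ`, `W j = y (τ j) - y₀`; combine the counting clause of
`exists_clo` with `short` (`(2/(2ρ))^|S| = ρ^(-|S|)`, `(1/ρ)^n ≤ (1/ρ)^|S|`) to get the hypothesis of the last clause of `core_params`.
`hg U ≤ det (gr T U)` by `det_gr_one`, `det_mono`.
-/

set_option linter.unusedSectionVars false
set_option linter.unusedVariables false

namespace Vale.Agent.P160

open Finset Matrix Filter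

theorem core_arith {n s g : ℕ} {ρ ρ₀ O b : ℝ} (hρ : 1 ≤ ρ) (hρ₀ : 0 ≤ ρ₀) (hs : s ≤ n)
    (h1 : ρ ^ g * ρ ^ n ≤ 3 ^ n * ρ₀ ^ g * O)
    (h2 : O ≤ (2 * ρ) ^ (2 * n) * ((2 / (2 * ρ)) ^ s + b)) (h3 : b ≤ (1 / ρ) ^ n) :
    ρ ^ g * ρ ^ s ≤ 2 * 12 ^ n * ρ₀ ^ g * ρ ^ n := by
  have h0 : 0 < ρ := by linarith
  have e1 : 2 / (2 * ρ) = 1 / ρ := by field_simp
  have h4 : (1 / ρ) ^ n ≤ (1 / ρ) ^ s :=
    pow_le_pow_of_le_one (by positivity) ((div_le_one h0).2 hρ) hs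
  have h5 : O ≤ (2 * ρ) ^ (2 * n) * (2 * (1 / ρ) ^ s) := by
    rw [e1] at h2
    exact h2.trans (mul_le_mul_of_nonneg_left (by linarith) (by positivity))
  have h6 := h1.trans (mul_le_mul_of_nonneg_left h5 (by positivity))
  have e2 : 3 ^ n * ρ₀ ^ g * ((2 * ρ) ^ (2 * n) * (2 * (1 / ρ) ^ s)) =
      2 * 12 ^ n * ρ₀ ^ g * ρ ^ n / ρ ^ s * ρ ^ n := by
    rw [show (12 : ℝ) = 3 * 2 ^ 2 by norm_num, mul_pow, mul_pow, ← pow_mul, one_div, inv_pow,
      two_mul n, pow_add ρ]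
    field_simp
  rw [e2] at h6
  exact (le_div_iff₀ (by positivity)).1 (le_of_mul_le_mul_right h6 (by positivity))

theorem core {ε : ℝ} (hε : 0 < ε) : ∃ (N : ℕ) (μ : ℝ), 1 ≤ N ∧ 0 < μ ∧ ∀ η > (0 : ℝ), ∀ ζ > (0 : ℝ),
    ∀ᶠ n : ℕ in atTop, ∃ F : Finset (Sub n), (F.card : ℝ) ≤ (2 : ℝ) ^ (η * (n : ℝ) ^ 2) ∧
      (∀ C ∈ F, hg C.2 ≠ 0 ∧ hg C.2 ≤ (n : ℤ) ^ (2 * n) ∧ (C.1 : ℝ) + μ * n ≤ n) ∧
      ∀ (B : ZM n) (T : Matrix (Fin n) (Fin n) ℝ) (X : Finset (Fin n → ℤ)), Rich ε B T X →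
        ∃ C ∈ F, ∃ (v : ℕ) (U : Matrix (Fin n) (Fin v) ℤ) (j : ℕ), hg U ≠ 0 ∧
          (∃ Z : Matrix (Fin n) (Fin v) ℤ, U = B * Z) ∧
          (gr T U).det ≤ 4 * (8 * (N : ℝ) ^ 2) ^ n ∧ (j : ℝ) ≤ ζ * n ∧ Near C.2 U j := by
  classical
  obtain ⟨N, e, hN, he, hf⟩ := fibre hε
  refine ⟨N, e / 2, hN, half_pos he, fun η hη ζ hζ => ?_⟩
  filter_upwards [hf, core_params hN he hη hζ] with n hf hp
  obtain ⟨ρ₀, ρ, k₀, u, hρ₀, hρn, hρ, hu, p1, p2, p3, p4, p5⟩ := hp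
  choose clo c1 c2 c3 c4 using fun W : Fin (2 * k₀) → Fin n → ℤ => exists_clo hρ₀ W
  refine ⟨((Fintype.piFinset fun _ : Fin (2 * k₀) => Fintype.piFinset fun _ : Fin n =>
    Finset.Icc (-(2 * N : ℤ)) (2 * N)).image clo).filter fun C => (C.1 : ℝ) + e / 2 * n ≤ n,
    ?_, fun C hC => ?_, fun B T X hR => ?_⟩
  · refine le_trans ?_ p3
    have h1 : (Finset.Icc (-(2 * N : ℤ)) (2 * N)).card = 4 * N + 1 := by
      rw [Int.card_Icc]
      omega
    have h2 := (card_filter_le _ fun C : Sub n => (C.1 : ℝ) + e / 2 * n ≤ n).trans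
      (card_image_le (f := clo) (s := Fintype.piFinset fun _ : Fin (2 * k₀) =>
        Fintype.piFinset fun _ : Fin n => Finset.Icc (-(2 * N : ℤ)) (2 * N)))
    simp only [Fintype.card_piFinset, h1, prod_const, card_univ, Fintype.card_fin] at h2
    rw [← pow_mul, mul_comm n] at h2
    exact_mod_cast h2
  · obtain ⟨h1, h2⟩ := mem_filter.1 hC
    obtain ⟨W, -, rfl⟩ := mem_image.1 h1
    have h3 : (clo W).1 ≤ n := by simpa using card_le_of_hg (c1 W)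
    refine ⟨c1 W, (c2 W).trans ?_, h2⟩
    calc (ρ₀ : ℤ) ^ (2 * (clo W).1) ≤ (n : ℤ) ^ (2 * (clo W).1) :=
          pow_le_pow_left₀ (Int.natCast_nonneg _) (by exact_mod_cast hρn) _
      _ ≤ _ := pow_le_pow_right₀ (by exact_mod_cast hρ₀.trans hρn) (by omega)
  · obtain ⟨v, U, S, a, b, y, y₀, hU, hZ, hdet, hS, hC⟩ := hf B T X hR
    obtain ⟨τ, hτ, ho⟩ := short (k₀ := k₀) (ρ := 2 * ρ) hC (by omega) hu p1
    have hSn : S.card ≤ n := by simpa using card_le_univ S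
    obtain ⟨j, hj, hnear⟩ := c4 (fun j => y (τ j) - y₀) v U hU fun j => hC.cong _ (hτ j)
    refine ⟨clo fun j => y (τ j) - y₀, mem_filter.2 ⟨mem_image_of_mem _ ?_, ?_⟩, v, U, j, hU, hZ,
      hdet, p4 j ?_, hnear⟩
    · refine Fintype.mem_piFinset.2 fun j => Fintype.mem_piFinset.2 fun i => ?_
      have h1 := abs_le.1 (hC.bdd _ (hτ j) i)
      have h2 := abs_le.1 (hC.bdd₀ i)
      rw [Finset.mem_Icc, Pi.sub_apply]
      constructor <;> linarith [h1.1, h1.2, h2.1, h2.2]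
    · refine p5 _ S.card hS hSn (core_arith (by exact_mod_cast hρ) (Nat.cast_nonneg _) hSn
        (c3 _ ρ hρ) ?_ p2)
      rw [Nat.cast_mul 2 ρ, Nat.cast_ofNat] at ho ⊢
      exact ho
    · refine le_trans ?_ hdet
      have h1 : (gr 1 U).det ≤ (gr T U).det :=
        det_mono (gr_posSemidef PosSemidef.one U) (gr_posSemidef hR.pd.posSemidef U) fun x => by
          rw [qf_gr, qf_gr]
          exact hR.ge _
      rw [det_gr_one] at h1
      refine le_trans ?_ h1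
      exact_mod_cast hj

end Vale.Agent.P160
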