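import Vale.Agent.P160.Basic

/-!
P160 task Odl. Keep the statements unchanged; add lemmas freely (start them with `odl_`).

Counting sign vectors. All three first statements use the involution `flip i` (change the sign of coordinate `i`) on `Sg ι`.
`half`: of `σ` and `flip i₀ σ` at most one satisfies the equation. `odlyzko`: enlarge `H` by the unit vectors outside `J`, induct on the
codimension: if `e_i ∉ H` put `H' = H ⊔ span e_i`; at most one of a flip pair lies in `H`, and then both lie in `H'`.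
(Alternatively choose pivot coordinates.) `robust`: work in `EuclideanSpace ℝ ι` with `K = H ⊔ span {e_i | i ∉ J}`, `finrank Kᗮ ≥ h + s`;
prove by induction on `s`, for all `K` containing the unit vectors outside `J` and all `e`, the bound for
`‖proj Kᗮ σ‖² |J| < e h`. Step: `∑ i ∈ J, ‖proj Kᗮ e_i‖² = finrank Kᗮ ≥ h` gives `i` with `d² |J| ≥ h`, `d = ‖proj Kᗮ e_i‖`;
`f = proj e_i / d`, `K' = K ⊔ span e_i`, `‖proj Kᗮ x‖² = ‖proj K'ᗮ x‖² + ⟪x,f⟫²`; in a flip pair `⟪·,f⟫` differ by `2d`, so one of them has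
`⟪·,f⟫² ≥ d²`; hence `2 N(K,e) ≤ N(K',e) + N(K',e-1)`; Pascal.
`lo`: fix the signs outside the support; the sets `{i | σ i * v i > 0}` of solutions form an antichain (`IsAntichain.sperner`), and
`C(m, m/2) √m ≤ 2^m` (from `centralBinom k ^ 2 * (2k+1) ≤ 16^k`, induction with `Nat.succ_mul_centralBinom_succ`).
-/

set_option linter.unusedSectionVars false
set_option linter.unusedVariables false

namespace Vale.Agent.P160

open Finset Matrix Filter

variable {ι κ : Type} [Fintype ι] [DecidableEq ι] [Fintype κ] [DecidableEq κ]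

/-- Change the sign of one coordinate. -/
def odl_flip (i : ι) (σ : ι → ℤ) : ι → ℤ := Function.update σ i (-σ i)

theorem odl_flip_self (i : ι) (σ : ι → ℤ) : odl_flip i σ i = -σ i := by simp [odl_flip]

theorem odl_flip_ne {i j : ι} (h : j ≠ i) (σ : ι → ℤ) : odl_flip i σ j = σ j := by
  simp [odl_flip, h]

theorem odl_flip_flip (i : ι) (σ : ι → ℤ) : odl_flip i (odl_flip i σ) = σ := by
  simp [odl_flip]

theorem odl_flip_mem (i : ι) {σ : ι → ℤ} (h : σ ∈ Sg ι) : odl_flip i σ ∈ Sg ι := by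
  rw [mem_Sg] at h ⊢
  intro j
  by_cases hj : j = i
  · subst hj
    rw [odl_flip_self]
    rcases h j with h | h <;> simp [h]
  · rw [odl_flip_ne hj]
    exact h j

theorem odl_step (i : ι) (P Q R : (ι → ℤ) → Prop) [DecidablePred P] [DecidablePred Q]
    [DecidablePred R] (h1 : ∀ σ ∈ Sg ι, P σ → Q σ ∧ Q (odl_flip i σ))
    (h2 : ∀ σ ∈ Sg ι, P σ → P (odl_flip i σ) → R σ) :
    2 * ((Sg ι).filter P).card ≤ ((Sg ι).filter Q).card + ((Sg ι).filter R).card := by
  have e : ((Sg ι).filter fun σ => P (odl_flip i σ)).card = ((Sg ι).filter P).card :=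
    card_bij' (fun σ _ => odl_flip i σ) (fun σ _ => odl_flip i σ)
      (fun σ h => mem_filter.2 ⟨odl_flip_mem i (mem_filter.1 h).1, (mem_filter.1 h).2⟩)
      (fun σ h => mem_filter.2 ⟨odl_flip_mem i (mem_filter.1 h).1, by
        rw [odl_flip_flip]; exact (mem_filter.1 h).2⟩)
      (fun σ _ => odl_flip_flip i σ) (fun σ _ => odl_flip_flip i σ)
  rw [two_mul]
  nth_rewrite 2 [← e]
  rw [← card_union_add_card_inter]
  refine add_le_add (card_le_card fun σ h => ?_) (card_le_card fun σ h => ?_)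
  · rcases mem_union.1 h with h | h
    · exact mem_filter.2 ⟨(mem_filter.1 h).1, (h1 σ (mem_filter.1 h).1 (mem_filter.1 h).2).1⟩
    · have h3 := (h1 _ (odl_flip_mem i (mem_filter.1 h).1) (mem_filter.1 h).2).2
      rw [odl_flip_flip] at h3
      exact mem_filter.2 ⟨(mem_filter.1 h).1, h3⟩
  · obtain ⟨h3, h4⟩ := mem_inter.1 h
    exact mem_filter.2 ⟨(mem_filter.1 h3).1,
      h2 σ (mem_filter.1 h3).1 (mem_filter.1 h3).2 (mem_filter.1 h4).2⟩

open Classical in
theorem half {R : Type} [AddCommGroup R] (v : ι → R) (J : Finset ι) {i₀ : ι} (hi : i₀ ∈ J)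
    (h2 : 2 • v i₀ ≠ 0) (c : R) :
    2 * ((Sg ι).filter fun σ => ∑ i ∈ J, σ i • v i = c).card ≤ 2 ^ Fintype.card ι := by
  have h := odl_step i₀ (fun σ => ∑ i ∈ J, σ i • v i = c) (fun _ => True) (fun _ => False)
    (fun _ _ _ => ⟨trivial, trivial⟩) fun σ hσ h3 h4 => by
      rw [← add_sum_erase _ _ hi] at h3 h4
      rw [sum_congr rfl fun j hj => by rw [odl_flip_ne (ne_of_mem_erase hj)], odl_flip_self,
        ← h3, add_left_inj] at h4
      apply h2
      rcases mem_Sg.1 hσ i₀ with h5 | h5 <;> rw [h5] at h4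
      · rw [two_smul, ← eq_neg_iff_add_eq_zero]
        simpa using h4.symm
      · rw [two_smul, ← eq_neg_iff_add_eq_zero]
        simpa using h4
  simpa [card_Sg] using h

theorem odl_ins {F : Type} [Field F] (a b : F) {i : ι} {J : Finset ι} (hi : i ∉ J) (σ : ι → ℤ) :
    (fun j => if j ∈ insert i J then (if σ j = 1 then a else b) else 0) =
      (fun j => if j ∈ J then (if σ j = 1 then a else b) else 0) +
        (if σ i = 1 then a else b) • Pi.single i (1 : F) := by
  funext j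
  by_cases hj : j = i
  · subst hj
    simp [hi, -ite_smul]
  · simp [hj, -ite_smul]

theorem odl_ins' {F : Type} [Field F] (a b : F) {i : ι} {J : Finset ι} (hi : i ∉ J) (σ : ι → ℤ) :
    (fun j => if j ∈ J then (if odl_flip i σ j = 1 then a else b) else 0) =
      fun j => if j ∈ J then (if σ j = 1 then a else b) else 0 := by
  funext j
  by_cases hj : j ∈ J
  · rw [odl_flip_ne (ne_of_mem_of_not_mem hj hi)]
  · rw [if_neg hj, if_neg hj]

open Classical in
theorem odlyzko {F : Type} [Field F] (H : Submodule F (ι → F)) (J : Finset ι) {a b : F}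
    (hab : a ≠ b) :
    ((Sg ι).filter fun σ => (fun i => if i ∈ J then (if σ i = 1 then a else b) else 0) ∈ H).card *
      2 ^ J.card ≤ 2 ^ Fintype.card ι * 2 ^ Module.finrank F H := by
  induction J using Finset.induction_on generalizing H with
  | empty =>
    rw [card_empty, pow_zero, mul_one, ← card_Sg]
    exact (card_filter_le _ _).trans (Nat.le_mul_of_pos_right _ (by positivity))
  | insert i J hi ih =>
    rw [card_insert_of_notMem hi, pow_succ]
    simp only [odl_ins a b hi]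
    by_cases he : Pi.single i (1 : F) ∈ H
    · let H' := H ⊓ LinearMap.ker (LinearMap.proj i : (ι → F) →ₗ[F] F)
      have h1 : Module.finrank F H' < Module.finrank F H :=
        Submodule.finrank_lt_finrank_of_lt (lt_of_le_of_ne inf_le_left fun h => by
          have h2 : Pi.single i (1 : F) ∈ H' := h.symm ▸ he
          simpa using h2.2)
      have h2 := ih H'
      have h3 : 2 ^ Module.finrank F H' * 2 ≤ 2 ^ Module.finrank F H := by
        rw [← pow_succ]
        exact Nat.pow_le_pow_right (by norm_num) h1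
      refine le_trans ?_ (Nat.mul_le_mul_left _ h3)
      rw [← mul_assoc, ← mul_assoc]
      refine Nat.mul_le_mul_right _ (le_trans (Nat.mul_le_mul_right _ (card_le_card ?_)) h2)
      intro σ hσ
      refine mem_filter.2 ⟨(mem_filter.1 hσ).1, ?_, by simp [hi]⟩
      exact (H.add_mem_iff_left (H.smul_mem _ he)).1 (mem_filter.1 hσ).2
    · let π : (ι → F) →ₗ[F] (ι → F) :=
        LinearMap.id - (LinearMap.proj i : (ι → F) →ₗ[F] F).smulRight (Pi.single i 1)
      have h2 := ih (H.map π)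
      have h3 : 2 ^ Module.finrank F (H.map π) ≤ 2 ^ Module.finrank F H :=
        Nat.pow_le_pow_right (by norm_num) (Submodule.finrank_map_le π H)
      have h4 := odl_step i
        (fun σ => (fun j => if j ∈ J then (if σ j = 1 then a else b) else 0) +
          (if σ i = 1 then a else b) • Pi.single i (1 : F) ∈ H)
        (fun σ => (fun j => if j ∈ J then (if σ j = 1 then a else b) else 0) ∈ H.map π)
        (fun _ => False) (fun σ _ h => by
          rw [odl_ins' a b hi, and_self]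
          refine ⟨_, h, ?_⟩
          generalize (if σ i = 1 then a else b) = c
          simp [π, hi]) fun σ hσ h5 h6 => by
          rw [odl_ins' a b hi, odl_flip_self] at h6
          have h7 := H.sub_mem h5 h6
          rw [add_sub_add_left_eq_sub, ← sub_smul] at h7
          refine he ((H.smul_mem_iff ?_).1 h7)
          rcases mem_Sg.1 hσ i with h8 | h8 <;> simp [h8, sub_eq_zero, hab, hab.symm]
      rw [filter_false, card_empty, add_zero] at h4
      refine le_trans ?_ (h2.trans (Nat.mul_le_mul_left _ h3))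
      rw [mul_comm (2 ^ J.card), ← mul_assoc, mul_comm _ 2]
      exact Nat.mul_le_mul_right _ h4

theorem odl_proj (W : Submodule ℝ (ι → ℝ)) : ∃ p : ι → ι → ℝ, (∀ i, p i ∈ W) ∧
    (∀ i, ∀ w ∈ W, p i ⬝ᵥ w = w i) ∧ ∑ i, p i i = Module.finrank ℝ W := by
  let E := (WithLp.linearEquiv 2 ℝ (ι → ℝ)).symm
  let W' : Submodule ℝ (EuclideanSpace ℝ ι) := W.map E.toLinearMap
  let b := stdOrthonormalBasis ℝ W'
  let c : Fin (Module.finrank ℝ W') → ι → ℝ := fun k => (b k : EuclideanSpace ℝ ι).ofLp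
  have hc : ∀ k, c k ∈ W := fun k => by
    obtain ⟨w, hw, h⟩ := (b k).2
    have e : c k = w := congrArg WithLp.ofLp h.symm
    rwa [e]
  refine ⟨fun i => ∑ k, c k i • c k, fun i => W.sum_mem fun k _ => W.smul_mem _ (hc k),
    fun i w hw => ?_, ?_⟩
  · have h := congrArg (fun x : W' => (x : EuclideanSpace ℝ ι).ofLp i)
      (b.sum_repr' ⟨E w, w, hw, rfl⟩)
    simp only [Submodule.coe_sum, Submodule.coe_smul, WithLp.ofLp_sum, WithLp.ofLp_smul,
      Finset.sum_apply, Pi.smul_apply, smul_eq_mul, Submodule.coe_inner,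
      EuclideanSpace.inner_eq_star_dotProduct, star_trivial] at h
    rw [sum_dotProduct]
    refine Eq.trans (sum_congr rfl fun k _ => ?_) h
    rw [smul_dotProduct, smul_eq_mul, mul_comm, dotProduct_comm]
    rfl
  · simp only [Finset.sum_apply, Pi.smul_apply, smul_eq_mul]
    rw [sum_comm, ← LinearEquiv.finrank_map_eq E W]
    have h : ∀ k, ∑ i, c k i * c k i = 1 := fun k => by
      have h1 : ‖(b k : EuclideanSpace ℝ ι)‖ = 1 := b.orthonormal.1 k
      have h2 := EuclideanSpace.real_norm_sq_eq (b k : EuclideanSpace ℝ ι)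
      rw [h1] at h2
      simpa [sq] using h2.symm
    simp only [h, sum_const, card_univ, Fintype.card_fin, nsmul_eq_mul, mul_one]
    rfl

theorem odl_dot (i : ι) (σ : ι → ℤ) (w : ι → ℝ) :
    iv (odl_flip i σ) ⬝ᵥ w = iv σ ⬝ᵥ w - 2 * (σ i * w i) := by
  unfold dotProduct iv
  rw [← add_sum_erase _ _ (mem_univ i), ← add_sum_erase _ _ (mem_univ i),
    sum_congr rfl fun j hj => by rw [odl_flip_ne (ne_of_mem_erase hj)], odl_flip_self]
  push_cast
  ring

open Classical in
theorem odl_rob (J : Finset ι) (h : ℕ) (s : ℕ) : ∀ (W : Submodule ℝ (ι → ℝ)) (e : ℕ),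
    (∀ w ∈ W, ∀ i, i ∉ J → w i = 0) → h + s ≤ Module.finrank ℝ W →
    ((Sg ι).filter fun σ => ∃ t : ℝ, t * J.card < e * h ∧
      ∀ w ∈ W, 2 * (iv σ ⬝ᵥ w) - w ⬝ᵥ w ≤ t).card * 2 ^ s ≤
      2 ^ Fintype.card ι * ∑ j ∈ range e, s.choose j := by
  have h0 : ∀ (W : Submodule ℝ (ι → ℝ)), ((Sg ι).filter fun σ => ∃ t : ℝ,
      t * J.card < (0 : ℕ) * h ∧ ∀ w ∈ W, 2 * (iv σ ⬝ᵥ w) - w ⬝ᵥ w ≤ t).card = 0 := fun W => by
    rw [card_eq_zero, filter_eq_empty_iff]
    rintro σ - ⟨t, h1, h2⟩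
    have h3 := h2 0 W.zero_mem
    rw [dotProduct_zero, dotProduct_zero, mul_zero, sub_zero] at h3
    rw [Nat.cast_zero, zero_mul] at h1
    exact absurd h1 (not_lt.2 (mul_nonneg h3 (Nat.cast_nonneg _)))
  induction s with
  | zero =>
    intro W e _ _
    rcases e with _ | e
    · rw [h0, zero_mul]
      exact Nat.zero_le _
    · rw [pow_zero, mul_one, sum_range_succ', Nat.choose_zero_right, ← card_Sg]
      exact (card_filter_le _ _).trans (Nat.le_mul_of_pos_right _ (by positivity))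
  | succ s ih =>
    intro W e hW hd
    rcases e with _ | e
    · rw [h0, zero_mul]
      exact Nat.zero_le _
    obtain ⟨p, p1, p2, p3⟩ := odl_proj W
    have p4 : ∑ i ∈ J, p i i = Module.finrank ℝ W := by
      rw [← p3]
      exact sum_subset (subset_univ J) fun i _ hi => hW _ (p1 i) i hi
    have hd' : (h : ℝ) + 1 ≤ Module.finrank ℝ W := by exact_mod_cast (by omega)
    have hJ : J.Nonempty := by
      rw [nonempty_iff_ne_empty]
      rintro rfl
      rw [sum_empty] at p4
      linarith [Nat.cast_nonneg (α := ℝ) h]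
    obtain ⟨i, hi, hp⟩ := exists_le_of_sum_le (f := fun _ => (h : ℝ))
      (g := fun i => p i i * J.card) hJ (by
        rw [← sum_mul, p4, sum_const, nsmul_eq_mul, mul_comm]
        exact mul_le_mul_of_nonneg_right (by linarith) (Nat.cast_nonneg _))
    let W' := W ⊓ LinearMap.ker (LinearMap.proj i : (ι → ℝ) →ₗ[ℝ] ℝ)
    have hW' : ∀ w ∈ W', ∀ j, j ∉ J → w j = 0 := fun w hw => hW w hw.1
    have hr : h + s ≤ Module.finrank ℝ W' := by
      have e1 := LinearMap.finrank_range_add_finrank_ker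
        ((LinearMap.proj i : (ι → ℝ) →ₗ[ℝ] ℝ).domRestrict W)
      have e2 := Submodule.finrank_le
        (LinearMap.range ((LinearMap.proj i : (ι → ℝ) →ₗ[ℝ] ℝ).domRestrict W))
      rw [Module.finrank_self] at e2
      rw [LinearMap.ker_domRestrict, ← Submodule.finrank_map_subtype_eq,
        Submodule.map_comap_subtype] at e1
      change _ + Module.finrank ℝ W' = _ at e1
      omega
    have h4 := odl_step i
      (fun σ => ∃ t : ℝ, t * J.card < (e + 1 : ℕ) * h ∧ ∀ w ∈ W, 2 * (iv σ ⬝ᵥ w) - w ⬝ᵥ w ≤ t)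
      (fun σ => ∃ t : ℝ, t * J.card < (e + 1 : ℕ) * h ∧ ∀ w ∈ W', 2 * (iv σ ⬝ᵥ w) - w ⬝ᵥ w ≤ t)
      (fun σ => ∃ t : ℝ, t * J.card < e * h ∧ ∀ w ∈ W', 2 * (iv σ ⬝ᵥ w) - w ⬝ᵥ w ≤ t)
      (fun σ _ ⟨t, h1, h2⟩ => ⟨⟨t, h1, fun w hw => h2 w hw.1⟩, t, h1, fun w hw => by
        have h3 : w i = 0 := hw.2
        rw [odl_dot, h3, mul_zero, mul_zero, sub_zero]
        exact h2 w hw.1⟩)
      fun σ hσ ⟨t, h1, h2⟩ ⟨t', h1', h2'⟩ => ⟨(t + t') / 2 - p i i, by
        push_cast at h1 h1'
        linarith, fun w hw => by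
        have h3 : w i = 0 := hw.2
        have a1 := h2 (w + (σ i : ℝ) • p i) (W.add_mem hw.1 (W.smul_mem _ (p1 i)))
        have a2 := h2' (w - (σ i : ℝ) • p i) (W.sub_mem hw.1 (W.smul_mem _ (p1 i)))
        have a3 : p i ⬝ᵥ w = 0 := (p2 i w hw.1).trans h3
        have a4 : w ⬝ᵥ p i = 0 := (dotProduct_comm _ _).trans a3
        have a5 := p2 i _ (p1 i)
        have a6 : (σ i : ℝ) * σ i = 1 := by
          rcases mem_Sg.1 hσ i with h | h <;> simp [h]
        rw [odl_dot] at a2
        simp only [dotProduct_add, add_dotProduct, dotProduct_sub, sub_dotProduct,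
          dotProduct_smul, smul_dotProduct, smul_eq_mul, a3, a4, a5, Pi.sub_apply, Pi.smul_apply,
          h3, zero_add, mul_zero, ← mul_assoc (σ i : ℝ), a6, zero_sub, mul_neg] at a1 a2
        linarith⟩
    have i1 := ih W' (e + 1) hW' hr
    have i2 := ih W' e hW' hr
    have e3 : ∑ j ∈ range (e + 1), (s + 1).choose j =
        ∑ j ∈ range (e + 1), s.choose j + ∑ j ∈ range e, s.choose j := by
      simp only [sum_range_succ', Nat.choose_succ_succ', sum_add_distrib, Nat.choose_zero_right]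
      omega
    rw [e3, mul_add, pow_succ', ← mul_assoc, mul_comm _ 2]
    exact (Nat.mul_le_mul_right _ h4).trans ((add_mul _ _ _).le.trans (add_le_add i1 i2))

open Classical in
theorem robust (H : Submodule ℝ (ι → ℝ)) (J : Finset ι) {h s : ℕ} (e : ℕ)
    (hd : Module.finrank ℝ H + h + s ≤ J.card) :
    ((Sg ι).filter fun σ => ∃ y ∈ H, (∑ i ∈ J, ((σ i : ℝ) - y i) ^ 2) * J.card < e * h).card * 2 ^ s ≤
      2 ^ Fintype.card ι * ∑ j ∈ range e, s.choose j := by
  let L : (ι → ℝ) →ₗ[ℝ] Module.Dual ℝ H × ({i // i ∉ J} → ℝ) :=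
    (H.subtype.dualMap ∘ₗ (dotProductEquiv ℝ ι).toLinearMap).prod
      (LinearMap.funLeft ℝ ℝ Subtype.val)
  have hL : ∀ w ∈ LinearMap.ker L, (∀ y ∈ H, w ⬝ᵥ y = 0) ∧ ∀ i, i ∉ J → w i = 0 := fun w hw =>
    ⟨fun y hy => congrArg (fun x => x.1 ⟨y, hy⟩) (LinearMap.mem_ker.1 hw),
      fun i hi => congrArg (fun x => x.2 ⟨i, hi⟩) (LinearMap.mem_ker.1 hw)⟩
  have hr : h + s ≤ Module.finrank ℝ (LinearMap.ker L) := by
    have e1 := LinearMap.finrank_range_add_finrank_ker L
    have e2 := Submodule.finrank_le (LinearMap.range L)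
    rw [Module.finrank_prod, Subspace.dual_finrank_eq, Module.finrank_fintype_fun_eq_card,
      Fintype.card_subtype_compl, Fintype.card_coe] at e2
    rw [Module.finrank_fintype_fun_eq_card] at e1
    have e3 := card_le_univ J
    omega
  refine le_trans (Nat.mul_le_mul_right _ (card_le_card fun σ hσ => ?_))
    (odl_rob J h s (LinearMap.ker L) e (fun w hw => (hL w hw).2) hr)
  obtain ⟨h1, y, hy, h2⟩ := mem_filter.1 hσ
  refine mem_filter.2 ⟨h1, _, h2, fun w hw => ?_⟩
  obtain ⟨h3, h4⟩ := hL w hw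
  have e : 2 * (iv σ ⬝ᵥ w) - w ⬝ᵥ w = ∑ i ∈ J, (2 * (((σ i : ℝ) - y i) * w i) - w i * w i) := by
    rw [sum_subset (subset_univ J) fun i _ hi => by rw [h4 i hi]; ring, sum_sub_distrib, ← mul_sum]
    have e1 : ∑ i, ((σ i : ℝ) - y i) * w i = iv σ ⬝ᵥ w - w ⬝ᵥ y := by
      rw [dotProduct_comm w, ← sub_dotProduct]
      rfl
    rw [e1, h3 y hy, sub_zero]
    rfl
  rw [e]
  exact sum_le_sum fun i _ => by nlinarith [sq_nonneg ((σ i : ℝ) - y i - w i)]

theorem odl_cb (k : ℕ) : k.centralBinom ^ 2 * (2 * k + 1) ≤ 16 ^ k := by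
  induction k with
  | zero => simp
  | succ k ih =>
    have h := Nat.succ_mul_centralBinom_succ k
    refine Nat.le_of_mul_le_mul_left ?_ (by positivity : 0 < (k + 1) ^ 2)
    calc (k + 1) ^ 2 * ((k + 1).centralBinom ^ 2 * (2 * (k + 1) + 1))
        = ((k + 1) * (k + 1).centralBinom) ^ 2 * (2 * k + 3) := by ring
      _ = 4 * ((2 * k + 1) * (2 * k + 3)) * (k.centralBinom ^ 2 * (2 * k + 1)) := by
          rw [h]; ring
      _ ≤ 4 * (4 * (k + 1) ^ 2) * 16 ^ k :=
          Nat.mul_le_mul (Nat.mul_le_mul_left _ (by nlinarith)) ih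
      _ = _ := by ring

theorem odl_ch (m : ℕ) : m.choose (m / 2) ^ 2 * m ≤ 4 ^ m := by
  obtain ⟨k, rfl | rfl⟩ := Nat.even_or_odd' m
  · rw [Nat.mul_div_cancel_left _ two_pos, ← Nat.centralBinom_eq_two_mul_choose, pow_mul]
    exact (Nat.mul_le_mul_left _ (Nat.le_succ _)).trans (odl_cb k)
  · have e : (2 * k + 1) / 2 = k := by omega
    have e2 : (k + 1).centralBinom = 2 * (2 * k + 1).choose k := by
      rw [Nat.centralBinom_eq_two_mul_choose, show 2 * (k + 1) = 2 * k + 1 + 1 by ring,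
        Nat.choose_succ_succ', Nat.choose_symm_half, two_mul ((2 * k + 1).choose k)]
    have h := odl_cb (k + 1)
    rw [e2, pow_succ 16] at h
    rw [e, pow_succ 4, pow_mul]
    norm_num
    nlinarith [Nat.zero_le ((2 * k + 1).choose k ^ 2)]

theorem odl_lo (v : ι → ℤ) :
    ((Sg ι).filter fun σ => σ ⬝ᵥ v = 0).card ≤
      (Fintype.card {i // v i ≠ 0}).choose (Fintype.card {i // v i ≠ 0} / 2) *
        2 ^ Fintype.card {i // ¬v i ≠ 0} := by
  let 𝒜 : Finset (Finset {i // v i ≠ 0}) :=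
    univ.filter fun A => 2 * ∑ i ∈ A, |v i.1| = ∑ i : {i // v i ≠ 0}, |v i.1|
  have h1 : IsAntichain (· ⊆ ·) (SetLike.coe 𝒜) := fun A hA B hB hne hAB => by
    have a1 := (mem_filter.1 hA).2
    have a2 := (mem_filter.1 hB).2
    obtain ⟨i, hi, hi'⟩ := exists_of_ssubset (lt_of_le_of_ne hAB hne)
    have a3 := sum_lt_sum_of_subset (f := fun i : {i // v i ≠ 0} => |v i.1|) hAB hi hi'
      (abs_pos.2 i.2) fun _ _ _ => abs_nonneg _
    omega
  refine le_trans ?_ (Nat.mul_le_mul_right _ h1.sperner)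
  rw [← card_Sg, ← card_product]
  refine card_le_card_of_injOn
    (fun σ => (univ.filter fun i : {i // v i ≠ 0} => 0 < σ i.1 * v i.1, fun i => σ i.1))
    (fun σ hσ => ?_) fun σ hσ τ hτ h => ?_
  · obtain ⟨h2, h3⟩ := mem_filter.1 (mem_coe.1 hσ)
    rw [mem_Sg] at h2
    refine mem_coe.2 (mem_product.2 ⟨mem_filter.2 ⟨mem_univ _, ?_⟩, mem_Sg.2 fun i => h2 i.1⟩)
    have e1 : ∑ i : {i // v i ≠ 0}, σ i.1 * v i.1 = 0 := by
      rw [← sum_subtype (univ.filter fun i => v i ≠ 0) (by simp) (fun i => σ i * v i)]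
      refine Eq.trans ?_ h3
      exact sum_subset (subset_univ _) fun i _ hi => by
        rw [not_not.1 fun h => hi (mem_filter.2 ⟨mem_univ i, h⟩), mul_zero]
    refine Eq.trans ?_ ((congrArg (_ + ·) e1).trans (add_zero _))
    rw [sum_filter, mul_sum, ← sum_add_distrib]
    refine sum_congr rfl fun i _ => ?_
    rcases h2 i.1 with h | h <;> rw [h] <;> split_ifs with h4 <;> rcases abs_cases (v i.1) with
      h5 | h5 <;> omega
  · have h2 := mem_Sg.1 (mem_filter.1 (mem_coe.1 hσ)).1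
    have h3 := mem_Sg.1 (mem_filter.1 (mem_coe.1 hτ)).1
    funext i
    by_cases hi : v i ≠ 0
    · have h4 := congrArg (fun x => (⟨i, hi⟩ : {i // v i ≠ 0}) ∈ x.1) h
      simp only [mem_filter, mem_univ, true_and, eq_iff_iff] at h4
      rcases h2 i with a | a <;> rcases h3 i with b | b <;> rw [a, b] at h4 ⊢ <;> omega
    · exact congrArg (fun x => x.2 ⟨i, hi⟩) h

theorem lo (v : ι → ℤ) {s : ℕ} (hs : s ≤ (univ.filter fun i => v i ≠ 0).card) :
    (((Sg ι).filter fun σ => σ ⬝ᵥ v = 0).card : ℝ) * √(s : ℝ) ≤ 2 ^ Fintype.card ι := by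
  have h1 := odl_lo v
  have h2 := odl_ch (Fintype.card {i // v i ≠ 0})
  rw [← Fintype.card_subtype] at hs
  have h3 : Fintype.card ι = Fintype.card {i // v i ≠ 0} + Fintype.card {i // ¬v i ≠ 0} := by
    rw [Fintype.card_subtype_compl fun i => v i ≠ 0,
      Nat.add_sub_cancel' (Fintype.card_subtype_le _)]
  rw [h3, pow_add]
  generalize Fintype.card {i // v i ≠ 0} = m at *
  generalize Fintype.card {i // ¬v i ≠ 0} = r at *
  have h4 : (m.choose (m / 2) : ℝ) * √(s : ℝ) ≤ 2 ^ m := by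
    refine (abs_le_of_sq_le_sq' ?_ (by positivity)).2
    rw [mul_pow, Real.sq_sqrt (Nat.cast_nonneg _), ← pow_mul, mul_comm m, pow_mul]
    norm_num
    exact_mod_cast (Nat.mul_le_mul_left _ hs).trans h2
  have h5 : (((Sg ι).filter fun σ => σ ⬝ᵥ v = 0).card : ℝ) ≤ m.choose (m / 2) * 2 ^ r := by
    exact_mod_cast h1
  calc _ ≤ (m.choose (m / 2) : ℝ) * 2 ^ r * √(s : ℝ) :=
        mul_le_mul_of_nonneg_right h5 (Real.sqrt_nonneg _)
    _ = (m.choose (m / 2) : ℝ) * √(s : ℝ) * 2 ^ r := by ring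
    _ ≤ _ := mul_le_mul_of_nonneg_right h4 (by positivity)

end Vale.Agent.P160
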