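import Vale.Agent.P160.Resample
import Vale.Agent.P160.Odl

/-!
P160 task Cork. Keep the statements unchanged; add lemmas freely (start them with `cork_`).

If `rank + c < n` over `ZMod p`, choose a set `I` of `rank` rows spanning the row space (`exists_linearIndependent`,
`Matrix.rank_eq_finrank_span_row`), and `K ≤ c` further rows `Ks` disjoint from `I`. For fixed `(p, I, Ks)` use `pr_resample_le` with
`O = Ks`, `J = Ksᶜ`, `T = {()}`; `F A _ k σ`: the zero-one vector of `σ` on `J` (values `0` for sign `1`, `1` for sign `-1`) lies in the span `H` of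
the rows `i ∈ I` of `mm A` cut to `J` (these entries are not resampled); `odlyzko` gives the fraction `2^(K + |I| - n) ≤ 2^K / 2^c`.
Union over `p ≤ Q` and the `4^n` pairs `(I, Ks)`. In `cork_whp` take `K = ⌈8/γ⌉`.
-/

set_option linter.unusedSectionVars false
set_option linter.unusedVariables false

namespace Vale.Agent.P160

open Finset Matrix Filter

theorem cork_span {F : Type} [Field F] {n : ℕ} (M : Matrix (Fin n) (Fin n) F) :
    ∃ I : Finset (Fin n), I.card ≤ M.rank ∧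
      ∀ k, M k ∈ Submodule.span F (Set.range fun i : {i // i ∈ I} => M i) := by
  classical
  obtain ⟨κ, a, ha, hs, hl⟩ := exists_linearIndependent' F (fun i : Fin n => M i)
  have : Finite κ := Finite.of_injective a ha
  have := Fintype.ofFinite κ
  refine ⟨univ.image a, ?_, fun k => ?_⟩
  · have h1 := finrank_span_eq_card hl
    rw [hs] at h1
    have h2 : M.rank = Fintype.card κ := by
      rw [Matrix.rank_eq_finrank_span_row]
      exact h1
    rw [h2]
    exact card_image_le.trans (by simp)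
  · have h1 : M k ∈ Submodule.span F (Set.range ((fun i : Fin n => M i) ∘ a)) := by
      rw [hs]
      exact Submodule.subset_span ⟨k, rfl⟩
    refine Submodule.span_mono ?_ h1
    rintro _ ⟨x, rfl⟩
    exact ⟨⟨a x, mem_image_of_mem a (mem_univ x)⟩, rfl⟩

/-- Keep the coordinates in `J`. -/
def cork_cut (F : Type) [CommRing F] {n : ℕ} (J : Finset (Fin n)) : (Fin n → F) →ₗ[F] (Fin n → F) where
  toFun x := fun i => if i ∈ J then x i else 0
  map_add' x y := by
    funext i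
    by_cases h : i ∈ J <;> simp [h]
  map_smul' r x := by
    funext i
    by_cases h : i ∈ J <;> simp [h]

theorem cork_cut_apply (F : Type) [CommRing F] {n : ℕ} (J : Finset (Fin n)) (x : Fin n → F) (i : Fin n) :
    cork_cut F J x i = if i ∈ J then x i else 0 := rfl

/-- The rows in `Ks` lie in the span of the rows in `I`. -/
def cork_ev (F : Type) [CommRing F] {n : ℕ} (I Ks : Finset (Fin n)) (A : ZM n) : Prop :=
  ∀ k ∈ Ks, ((mm A).map (Int.cast : ℤ → F)) k ∈
    Submodule.span F (Set.range fun i : {i // i ∈ I} => ((mm A).map (Int.cast : ℤ → F)) i)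

theorem cork_fix (F : Type) [Field F] {n c K : ℕ} (I Ks : Finset (Fin n)) (hd : Disjoint I Ks)
    (hK : Ks.card = K) (hI : I.card + c ≤ n) :
    pr n (cork_ev F I Ks) ≤ ((2 : ℝ) ^ K / 2 ^ c) ^ K := by
  classical
  have hOJ : Disjoint Ks Ksᶜ := disjoint_compl_right
  have h := pr_resample_le (τ := Unit) hOJ (cork_ev F I Ks) (fun _ => {()})
    (fun A _ k σ => (fun i => if i ∈ Ksᶜ then (if σ i = 1 then (0 : F) else 1) else 0) ∈
      Submodule.span F (Set.range fun i : {i // i ∈ I} =>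
        cork_cut F Ksᶜ (((mm A).map (Int.cast : ℤ → F)) i)))
    (p := (2 : ℝ) ^ K / 2 ^ c) (m := 1) (by positivity) (fun A hA => by simp) ?_ ?_
  · rw [hK] at h
    simpa using h
  · intro A hA t ht k hk
    have h1 := odlyzko (Submodule.span F (Set.range fun i : {i // i ∈ I} =>
        cork_cut F Ksᶜ (((mm A).map (Int.cast : ℤ → F)) i))) Ksᶜ (a := (0 : F)) (b := 1) zero_ne_one
    have h2 := finrank_range_le_card (R := F) (fun i : {i // i ∈ I} =>
        cork_cut F Ksᶜ (((mm A).map (Int.cast : ℤ → F)) i))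
    rw [Fintype.card_coe] at h2
    have h3 : (2 : ℕ) ^ Module.finrank F (Submodule.span F (Set.range fun i : {i // i ∈ I} =>
        cork_cut F Ksᶜ (((mm A).map (Int.cast : ℤ → F)) i))) ≤ 2 ^ I.card :=
      Nat.pow_le_pow_right (by norm_num) h2
    have h4 := h1.trans (Nat.mul_le_mul_left _ h3)
    rw [Fintype.card_fin, card_compl, Fintype.card_fin, hK] at h4
    have hKn : K ≤ n := by
      rw [← hK]
      simpa using card_le_univ Ks
    generalize hN : (Finset.card _ : ℕ) = N at h4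
    have h5 : N * 2 ^ c ≤ 2 ^ K * 2 ^ n := by
      have h6 : N * 2 ^ c * 2 ^ (n - K) ≤ 2 ^ K * 2 ^ n * 2 ^ (n - K) := by
        calc N * 2 ^ c * 2 ^ (n - K) = N * 2 ^ (n - K) * 2 ^ c := by ring
          _ ≤ 2 ^ n * 2 ^ I.card * 2 ^ c := Nat.mul_le_mul_right _ h4
          _ = 2 ^ n * 2 ^ (I.card + c) := by ring
          _ ≤ 2 ^ n * 2 ^ (K + (n - K)) :=
            Nat.mul_le_mul_left _ (Nat.pow_le_pow_right (by norm_num) (by omega))
          _ = 2 ^ K * 2 ^ n * 2 ^ (n - K) := by ring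
      exact Nat.le_of_mul_le_mul_right h6 (by positivity)
    have h7 : (N : ℝ) ≤ (2 : ℝ) ^ K / 2 ^ c * 2 ^ n := by
      rw [div_mul_eq_mul_div, le_div_iff₀ (by positivity)]
      exact_mod_cast h5
    refine le_trans ?_ h7
    rw [← hN]
  · intro A hA Z hZ hE
    refine ⟨(), mem_singleton_self _, fun k hk => ?_⟩
    have h1 := Submodule.mem_map_of_mem (f := cork_cut F Ksᶜ) (hE k hk)
    rw [Submodule.map_span, ← Set.range_comp] at h1
    have h2 : (cork_cut F Ksᶜ ∘ fun i : {i // i ∈ I} => ((mm (rs Ks Ksᶜ A Z)).map (Int.cast : ℤ → F)) i) =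
        fun i : {i // i ∈ I} => cork_cut F Ksᶜ (((mm A).map (Int.cast : ℤ → F)) i) := by
      funext i j
      have hi : (i : Fin n) ∉ Ks := Finset.disjoint_left.1 hd i.2
      simp only [Function.comp, cork_cut_apply]
      by_cases hj : j ∈ Ksᶜ
      · have hj' : j ∉ Ks := mem_compl.1 hj
        simp [hj, hj', hi, mm, rs]
      · simp [hj]
    have h3 : cork_cut F Ksᶜ (((mm (rs Ks Ksᶜ A Z)).map (Int.cast : ℤ → F)) k) =
        fun i => if i ∈ Ksᶜ then (if Z k i = 1 then (0 : F) else 1) else 0 := by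
      funext j
      simp only [cork_cut_apply]
      by_cases hj : j ∈ Ksᶜ
      · have hj' : j ∉ Ks := mem_compl.1 hj
        rcases mem_ZS.1 hZ k j with h | h
        · simp [hj, hj', hk, mm, rs, h]
        · simp [hj, hj', hk, mm, rs, h]
      · simp [hj]
    rw [h2, h3] at h1
    exact h1

theorem cork_le {n Q c K : ℕ} (hK : K ≤ c) :
    pr n (fun A => ¬ Cork A Q c) ≤ Q * 4 ^ n * ((2 : ℝ) ^ K / 2 ^ c) ^ K := by
  classical
  let T : Finset (ℕ × Finset (Fin n) × Finset (Fin n)) :=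
    ((Icc 1 Q) ×ˢ (univ : Finset (Finset (Fin n) × Finset (Fin n)))).filter
      fun t => t.1.Prime ∧ Disjoint t.2.1 t.2.2 ∧ t.2.2.card = K ∧ t.2.1.card + c ≤ n
  have h1 : pr n (fun A => ¬ Cork A Q c) ≤
      pr n (fun A => ∃ t ∈ T, cork_ev (ZMod t.1) t.2.1 t.2.2 A) := by
    refine pr_mono fun A hA hC => ?_
    unfold Cork at hC
    push Not at hC
    obtain ⟨p, hp, hpQ, hlt⟩ := hC
    have : Fact p.Prime := ⟨hp⟩
    obtain ⟨I, hI, hs⟩ := cork_span ((mm A).map (Int.cast : ℤ → ZMod p))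
    have hI' : I.card ≤ ((mm A).map (Int.cast : ℤ → ZMod p)).rank := hI
    have hc : K ≤ Iᶜ.card := by
      rw [card_compl, Fintype.card_fin]
      omega
    obtain ⟨Ks, hKs, hKc⟩ := exists_subset_card_eq hc
    refine ⟨(p, I, Ks), ?_, fun k hk => hs k⟩
    refine mem_filter.2 ⟨mem_product.2 ⟨mem_Icc.2 ⟨hp.one_le, hpQ⟩, mem_univ _⟩, hp, ?_, hKc, ?_⟩
    · exact Finset.disjoint_left.2 fun i hi hk => mem_compl.1 (hKs hk) hi
    · show I.card + c ≤ n
      omega
  have h2 := pr_exists T (fun t A => cork_ev (ZMod t.1) t.2.1 t.2.2 A)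
  have h3 : ∑ t ∈ T, pr n (fun A => cork_ev (ZMod t.1) t.2.1 t.2.2 A) ≤
      T.card • ((2 : ℝ) ^ K / 2 ^ c) ^ K := by
    refine sum_le_card_nsmul _ _ _ fun t ht => ?_
    obtain ⟨-, hp, hd, hk, hI⟩ := mem_filter.1 ht
    have : Fact t.1.Prime := ⟨hp⟩
    exact cork_fix (ZMod t.1) t.2.1 t.2.2 hd hk hI
  have h4 : T.card ≤ Q * 4 ^ n := by
    refine (card_filter_le _ _).trans ?_
    rw [card_product, card_univ, Fintype.card_prod, Fintype.card_finset, Fintype.card_fin, Nat.card_Icc,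
      ← mul_pow]
    simp
  rw [nsmul_eq_mul] at h3
  refine h1.trans (h2.trans (h3.trans ?_))
  refine mul_le_mul_of_nonneg_right ?_ (by positivity)
  exact_mod_cast h4

theorem cork_whp {γ : ℝ} (hγ : 0 < γ) (a : ℕ) :
    ∀ᶠ n : ℕ in atTop, pr n (fun A => ¬ Cork A (n ^ a) ⌊γ * n⌋₊) ≤ (1 / 2 : ℝ) ^ n := by
  obtain ⟨K, hK⟩ : ∃ K : ℕ, 8 / γ ≤ K := ⟨⌈8 / γ⌉₊, Nat.le_ceil _⟩
  have e1 : ∀ᶠ n : ℕ in atTop, (n : ℝ) ^ a / 2 ^ n < 1 :=
    (tendsto_pow_const_div_const_pow_of_one_lt a (r := 2) (by norm_num)).eventually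
      (gt_mem_nhds (by norm_num))
  have e2 : ∀ᶠ n : ℕ in atTop, (K : ℝ) ≤ γ * n :=
    (tendsto_natCast_atTop_atTop.const_mul_atTop hγ).eventually (eventually_ge_atTop _)
  filter_upwards [e1, e2, eventually_ge_atTop (K * K + K)] with n h1 h2 h3
  have hc : K ≤ ⌊γ * n⌋₊ := Nat.le_floor h2
  refine (cork_le hc).trans ?_
  have h4 : γ * n < (⌊γ * n⌋₊ : ℝ) + 1 := Nat.lt_floor_add_one _
  generalize ⌊γ * n⌋₊ = c at hc h4 ⊢
  have h5 : 8 * n ≤ c * K + K := by
    have h6 : 8 ≤ K * γ := by rwa [div_le_iff₀ hγ] at hK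
    have h7 : (8 : ℝ) * n ≤ c * K + K := by
      have h8 : (0 : ℝ) ≤ n := Nat.cast_nonneg _
      have h9 : (0 : ℝ) ≤ K := Nat.cast_nonneg _
      calc (8 : ℝ) * n ≤ K * γ * n := mul_le_mul_of_nonneg_right h6 h8
        _ = K * (γ * n) := by ring
        _ ≤ K * (c + 1) := mul_le_mul_of_nonneg_left h4.le h9
        _ = c * K + K := by ring
    exact_mod_cast h7
  have h6 : n ^ a ≤ 2 ^ n := by
    rw [div_lt_one (by positivity)] at h1
    exact_mod_cast h1.le
  have h7 : n ^ a * 4 ^ n * 2 ^ (K * K) * 2 ^ n ≤ 2 ^ (c * K) := by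
    have h8 : (4 : ℕ) ^ n = 2 ^ (2 * n) := by rw [pow_mul]; norm_num
    calc n ^ a * 4 ^ n * 2 ^ (K * K) * 2 ^ n ≤ 2 ^ n * 4 ^ n * 2 ^ (K * K) * 2 ^ n := by gcongr
      _ = 2 ^ (n + 2 * n + K * K + n) := by rw [h8, ← pow_add, ← pow_add, ← pow_add]
      _ ≤ 2 ^ (c * K) := Nat.pow_le_pow_right (by norm_num) (by omega)
  rw [div_pow, ← pow_mul, ← pow_mul, one_div, inv_pow, ← mul_div_assoc, div_le_iff₀ (by positivity),
    inv_mul_eq_div, le_div_iff₀ (by positivity)]
  exact_mod_cast h7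

end Vale.Agent.P160
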