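import Mathlib

/-! Statement-level definitions: the symmetric random sign matrix and its singularity probability. -/

namespace Vale.Agent.P160

/-- A choice of one sign (`true` is `1`, `false` is `-1`) for every position on or above the
diagonal of an `n × n` matrix. -/
abbrev Upper (n : ℕ) : Type := {p : Fin n × Fin n // p.1 ≤ p.2} → Bool

/-- The real number `1` or `-1` attached to a Boolean. -/
def sgn (b : Bool) : ℝ := if b then 1 else -1

/-- The real symmetric matrix whose entries on and above the diagonal are the given signs. -/
def symMat {n : ℕ} (s : Upper n) : Matrix (Fin n) (Fin n) ℝ :=
  Matrix.of fun i j =>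
    if h : i ≤ j then sgn (s ⟨(i, j), h⟩) else sgn (s ⟨(j, i), (le_total i j).resolve_left h⟩)

/-- `q n`: the probability that the matrix is singular when the signs on and above the diagonal
are independent and uniform, that is, the proportion of sign choices with determinant zero. -/
noncomputable def q (n : ℕ) : ℝ :=
  (Nat.card {s : Upper n // (symMat s).det = 0} : ℝ) / (Nat.card (Upper n) : ℝ)

end Vale.Agent.P160
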