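import Vale.Agent.P160.DenZ

/-!
P160 task DenA. Keep the statements unchanged; add lemmas freely (start them with `dena_`).

First moment. `R = 2ρ`, `λ = (2R)^k`, `M` from `Z_twist`, `ω A s = ∏ l, Fej ..`, `Z A = ∑ s, ω A s`. For `Ξ ∈ piFinset (Bx (Fin g) M)` let
`D₂ Ξ = ∑ θ ≠ 0, ∏ i ∈ J, cs (..)²` and call `Ξ` generic if `λ D₂ Ξ ≤ 1`; then the hypothesis of `Z_upper` holds since
`|c| ≤ (λ c² + 1/λ)/2` and there are at most `λ` vectors `θ` (`card_Bs_le`). For `A` in the event and `θ ≠ 0`, by `prod_cs_sq`,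
`4^n ∑ Ξ, (∏ j, ω A (Ξ j)) ∏ cs² = ∑ (x,x'), ∏ j, Z A (θ j • res J (x - x'))` where `Z A y = ∑ s, ω A s ch (y ⬝ᵥ P s)` has norm `≤ Z A` and
vanishes (`Z_twist`) unless `Repr`; pick `j₀` with `θ j₀ ≠ 0`, `q = |θ j₀|` (swap the pair if negative). So the weight of the non-generic `Ξ` is
at most `λ * λ * (Z A)^k / (2 λ²)` (Markov), and `(Z A)^k / 2 ≤ ∑ generic Ξ, ∏ j, ω A (Ξ j)`. Sum over `A`, use `Z_ge`, `Z_upper`; the
factors `M^(g k)` cancel.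
-/

set_option linter.unusedSectionVars false
set_option linter.unusedVariables false

namespace Vale.Agent.P160

open Finset Matrix Filter

theorem dena_rep {n g : ℕ} {A : ZM n} {P : Matrix (Fin n) (Fin g) ℤ} {R : ℕ} {θ : ℤ}
    {y : Fin n → ℤ} (h : Repr A P R 1 (θ • y)) : Repr A P R θ.natAbs y := by
  obtain ⟨u, hu, h⟩ := h
  rw [Nat.cast_one, one_smul] at h
  rcases le_total 0 θ with h0 | h0
  · exact ⟨u, hu, by rwa [Int.natAbs_of_nonneg h0]⟩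
  · refine ⟨-u, fun l => by simpa using hu l, ?_⟩
    rw [Int.ofNat_natAbs_of_nonpos h0, mulVec_neg, neg_smul, neg_sub_neg, ← neg_sub, mulVec_neg, h,
      neg_zero]

theorem dena_dot {n g k : ℕ} (P : Matrix (Fin n) (Fin g) ℤ) (θ : Fin k → ℤ)
    (Ξ : Fin k → Fin g → ℤ) (y : Fin n → ℤ) :
    (y ⬝ᵥ fun i => ∑ j, θ j * (P *ᵥ Ξ j) i) = ∑ j, (θ j • y) ⬝ᵥ P *ᵥ Ξ j := by
  simp only [dotProduct, Finset.mul_sum, Pi.smul_apply, smul_eq_mul]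
  rw [Finset.sum_comm]
  exact Finset.sum_congr rfl fun j _ => Finset.sum_congr rfl fun i _ => by ring

theorem dena_res {n : ℕ} (J : Finset (Fin n)) {x x' : Fin n → ℤ} (hx : x ∈ Sg (Fin n))
    (hx' : x' ∈ Sg (Fin n)) (i : Fin n) : |res J (x - x') i| ≤ 2 := by
  unfold res
  split_ifs
  · rw [Pi.sub_apply]
    rcases mem_Sg.1 hx i with h | h <;> rcases mem_Sg.1 hx' i with h' | h' <;> simp [h, h']
  · simp

theorem dena_twist {n g k : ℕ} {A : ZM n} {P : Matrix (Fin n) (Fin g) ℤ} {M R : ℕ}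
    (ω : (Fin g → ℤ) → ℝ) (hω : ∀ s, 0 ≤ ω s)
    (hT : ∀ y : Fin n → ℤ, (∀ i, |y i| ≤ 2 * R) → ¬ Repr A P R 1 y →
      ∑ s ∈ Bx (Fin g) M, (ω s : ℂ) * ch M (y ⬝ᵥ P *ᵥ s) = 0)
    (J : Finset (Fin n)) (θ : Fin k → ℤ) (j₀ : Fin k) (hθ : |θ j₀| < R) :
    4 ^ n * ∑ Ξ ∈ Fintype.piFinset (fun _ : Fin k => Bx (Fin g) M),
      (∏ j, ω (Ξ j)) * ∏ i ∈ J, cs M (∑ j, θ j * (P *ᵥ Ξ j) i) ^ 2 ≤
      reprPairs A P J R (θ j₀).natAbs * (∑ s ∈ Bx (Fin g) M, ω s) ^ k := by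
  classical
  have h1 : ((4 ^ n * ∑ Ξ ∈ Fintype.piFinset (fun _ : Fin k => Bx (Fin g) M),
      (∏ j, ω (Ξ j)) * ∏ i ∈ J, cs M (∑ j, θ j * (P *ᵥ Ξ j) i) ^ 2 : ℝ) : ℂ) =
      ∑ p ∈ Sg (Fin n) ×ˢ Sg (Fin n), ∏ j, ∑ s ∈ Bx (Fin g) M,
        (ω s : ℂ) * ch M ((θ j • res J (p.1 - p.2)) ⬝ᵥ P *ᵥ s) := by
    simp only [Finset.prod_univ_sum]
    rw [Finset.sum_comm, Complex.ofReal_mul, Complex.ofReal_sum, Finset.mul_sum]
    refine Finset.sum_congr rfl fun Ξ _ => ?_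
    have h := prod_cs_sq M J fun i => ∑ j, θ j * (P *ᵥ Ξ j) i
    rw [Fintype.card_fin] at h
    rw [Complex.ofReal_mul, mul_left_comm, Complex.ofReal_pow, Complex.ofReal_ofNat, h,
      Finset.mul_sum]
    refine Finset.sum_congr rfl fun p _ => ?_
    rw [dena_dot, ch_sum, Complex.ofReal_prod, ← Finset.prod_mul_distrib]
  have h2 : ∀ y : Fin n → ℤ, ‖∑ s ∈ Bx (Fin g) M, (ω s : ℂ) * ch M (y ⬝ᵥ P *ᵥ s)‖ ≤
      ∑ s ∈ Bx (Fin g) M, ω s := fun y =>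
    norm_sum_le_of_le _ fun s _ => by
      rw [norm_mul, norm_ch, mul_one, Complex.norm_real, Real.norm_of_nonneg (hω s)]
  refine (Real.le_norm_self _).trans ?_
  rw [← Complex.norm_real, h1, reprPairs, Finset.card_filter, Nat.cast_sum, Finset.sum_mul]
  refine norm_sum_le_of_le _ fun p hp => ?_
  rw [norm_prod]
  split_ifs with h
  · rw [Nat.cast_one, one_mul, ← Fin.prod_const]
    exact Finset.prod_le_prod (fun _ _ => norm_nonneg _) fun j _ => h2 _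
  · rw [Nat.cast_zero, zero_mul]
    refine (Finset.prod_eq_zero (Finset.mem_univ j₀) ?_).le
    rw [hT _ (fun i => ?_) fun h' => h (dena_rep h'), norm_zero]
    have h3 := dena_res J (Finset.mem_product.1 hp).1 (Finset.mem_product.1 hp).2 i
    rw [Pi.smul_apply, smul_eq_mul, abs_mul]
    nlinarith [abs_nonneg (θ j₀), abs_nonneg (res J (p.1 - p.2) i)]

theorem dena_markov {α β : Type} (T : Finset α) (Θ : Finset β) (W : α → ℝ) (c : β → α → ℝ)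
    {l Z : ℝ} (hl : 0 < l) (hW : ∀ a, 0 ≤ W a) (hc : ∀ b a, 0 ≤ c b a) (hΘ : (Θ.card : ℝ) ≤ l)
    (hZ : ∑ a ∈ T, W a = Z) (h : ∀ b ∈ Θ, (∑ a ∈ T, W a * c b a) * (2 * l ^ 2) ≤ Z) :
    Z ≤ 2 * ∑ a ∈ T.filter fun a => l * ∑ b ∈ Θ, c b a ≤ 1, W a := by
  classical
  have h0 : 0 ≤ Z := hZ ▸ Finset.sum_nonneg fun a _ => hW a
  have h1 := Finset.sum_filter_add_sum_filter_not T (fun a => l * ∑ b ∈ Θ, c b a ≤ 1) W
  have h2 : ∑ a ∈ T.filter fun a => ¬ l * ∑ b ∈ Θ, c b a ≤ 1, W a ≤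
      ∑ a ∈ T, W a * (l * ∑ b ∈ Θ, c b a) := by
    refine (Finset.sum_le_sum fun a ha => ?_).trans (Finset.sum_le_sum_of_subset_of_nonneg
      (Finset.filter_subset _ _) fun a _ _ => mul_nonneg (hW a)
        (mul_nonneg hl.le (Finset.sum_nonneg fun b _ => hc b a)))
    exact le_mul_of_one_le_right (hW a) (not_le.1 (Finset.mem_filter.1 ha).2).le
  have h3 : ∑ a ∈ T, W a * (l * ∑ b ∈ Θ, c b a) = l * ∑ b ∈ Θ, ∑ a ∈ T, W a * c b a := by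
    rw [Finset.sum_comm, Finset.mul_sum]
    exact Finset.sum_congr rfl fun a _ => by rw [mul_left_comm, Finset.mul_sum]
  have h4 : (∑ b ∈ Θ, ∑ a ∈ T, W a * c b a) * (2 * l ^ 2) ≤ l * Z := by
    rw [Finset.sum_mul]
    refine (Finset.sum_le_card_nsmul _ _ _ h).trans ?_
    rw [nsmul_eq_mul]
    exact mul_le_mul_of_nonneg_right hΘ h0
  have h5 : 2 * (l * ∑ b ∈ Θ, ∑ a ∈ T, W a * c b a) ≤ Z :=
    le_of_mul_le_mul_left (by linarith) hl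
  linarith

theorem dena_gen {β : Type} (Θ : Finset β) (c : β → ℝ) {l : ℝ} (hl : 0 < l)
    (hΘ : (Θ.card : ℝ) ≤ l) (h : l * ∑ b ∈ Θ, c b ^ 2 ≤ 1) : ∑ b ∈ Θ, c b ≤ 1 := by
  have h1 : ∑ b ∈ Θ, 2 * l * c b ≤ ∑ b ∈ Θ, (l * (l * c b ^ 2) + 1) :=
    Finset.sum_le_sum fun b _ => by nlinarith [sq_nonneg (l * c b - 1)]
  rw [Finset.sum_add_distrib, ← Finset.mul_sum, ← Finset.mul_sum, ← Finset.mul_sum,
    Finset.sum_const, nsmul_eq_mul, mul_one] at h1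
  have h2 := mul_le_mul_of_nonneg_left h hl.le
  exact le_of_mul_le_mul_left (by linarith) (by positivity : 0 < 2 * l)

theorem den_block {n g : ℕ} {P : Matrix (Fin n) (Fin g) ℤ} (hP : hg P ≠ 0) (J : Finset (Fin n))
    {ρ : ℕ} (hρ : 1 ≤ ρ) (k : ℕ) :
    pr n (fun A => A.det ≠ 0 ∧ ∀ q : ℕ, 1 ≤ q → q < 2 * ρ →
        (reprPairs A P J (2 * ρ) q : ℝ) * (2 * (4 * (ρ : ℝ)) ^ (2 * k)) ≤ 4 ^ n) *
      ((ρ : ℝ) ^ (n + (n - g))) ^ k ≤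
      2 ^ (n + 1) * (2 * (ρ : ℝ)) ^ (k * (n + J.card)) * (3 ^ n * (n : ℝ) ^ n * √(hg P : ℝ)) ^ k := by
  classical
  obtain ⟨M, hM, hT⟩ := Z_twist P (2 * ρ)
  have hρ0 : (0 : ℝ) < ρ := by exact_mod_cast hρ
  set l : ℝ := (4 * (ρ : ℝ)) ^ k with hl
  have hl0 : 0 < l := by positivity
  set Θ := (Bs (Fin k) (2 * ρ)).erase 0 with hΘ
  have hΘc : (Θ.card : ℝ) ≤ l := by
    have h := (Finset.card_erase_le (a := 0)).trans (card_Bs_le (ι := Fin k) (2 * ρ))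
    rw [Fintype.card_fin, ← mul_assoc] at h
    rw [hl]
    exact_mod_cast h
  set T := Fintype.piFinset fun _ : Fin k => Bx (Fin g) M with hTd
  set G := T.filter fun Ξ => l * ∑ θ ∈ Θ, ∏ i ∈ J, cs M (∑ j, θ j * (P *ᵥ Ξ j) i) ^ 2 ≤ 1 with hG
  set K : ℝ := 3 ^ n * (n : ℝ) ^ n * √(hg P : ℝ) with hK
  have hK0 : 0 ≤ K := by positivity
  have hω : ∀ (A : ZM n) s, 0 ≤ ∏ l, Fej M (2 * ρ) (((A * P) *ᵥ s) l) := fun A s =>
    Finset.prod_nonneg fun _ _ => Fej_nonneg _ _ _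
  have h1 : ∀ A ∈ SS n, (A.det ≠ 0 ∧ ∀ q : ℕ, 1 ≤ q → q < 2 * ρ →
      (reprPairs A P J (2 * ρ) q : ℝ) * (2 * (4 * (ρ : ℝ)) ^ (2 * k)) ≤ 4 ^ n) →
      ((ρ : ℝ) ^ (n + (n - g)) * (M : ℝ) ^ g) ^ k ≤
        K ^ k * (2 * ∑ Ξ ∈ G, ∏ j, ∏ l, Fej M (2 * ρ) (((A * P) *ᵥ Ξ j) l)) := by
    rintro A hA ⟨hd, hq⟩
    refine (pow_le_pow_left₀ (by positivity) (Z_ge hA hd hP hM hρ) k).trans ?_
    rw [mul_pow]
    refine mul_le_mul_of_nonneg_left ?_ (by positivity)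
    refine dena_markov T Θ (fun Ξ => ∏ j, ∏ l, Fej M (2 * ρ) (((A * P) *ᵥ Ξ j) l))
      (fun θ Ξ => ∏ i ∈ J, cs M (∑ j, θ j * (P *ᵥ Ξ j) i) ^ 2) hl0
      (fun Ξ => Finset.prod_nonneg fun j _ => hω A _)
      (fun θ Ξ => Finset.prod_nonneg fun i _ => sq_nonneg _) hΘc ?_ fun θ hθ => ?_
    · rw [← Fin.prod_const, Finset.prod_univ_sum]
    · obtain ⟨h0, hb⟩ := Finset.mem_erase.1 hθ
      obtain ⟨j₀, hj⟩ := Function.ne_iff.1 h0
      have h2 := mem_Bs.1 hb j₀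
      have h3 := dena_twist (fun s => ∏ l, Fej M (2 * ρ) (((A * P) *ᵥ s) l)) (hω A) (hT A hA) J θ
        j₀ h2
      have h4 := hq (θ j₀).natAbs (Int.natAbs_pos.2 hj) (by
        rw [Int.abs_eq_natAbs] at h2
        exact_mod_cast h2)
      rw [pow_mul', ← hl] at h4
      have h5 := mul_le_mul_of_nonneg_right h3 (by positivity : 0 ≤ 2 * l ^ 2)
      have h6 := mul_le_mul_of_nonneg_right h4
        (pow_nonneg (Finset.sum_nonneg fun s (_ : s ∈ Bx (Fin g) M) => hω A s) k)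
      exact le_of_mul_le_mul_left (by linarith) (by positivity : (0 : ℝ) < 4 ^ n)
  have h2 : ∑ A ∈ SS n, ∑ Ξ ∈ G, ∏ j, ∏ l, Fej M (2 * ρ) (((A * P) *ᵥ Ξ j) l) ≤
      ((M : ℝ) ^ g) ^ k * (2 ^ n * (2 * (ρ : ℝ)) ^ (k * (n + J.card)) * (SS n).card) := by
    rw [Finset.sum_comm]
    refine (Finset.sum_le_card_nsmul _ _ (2 ^ n * (2 * (ρ : ℝ)) ^ (k * (n + J.card)) *
      (SS n).card) fun Ξ hΞ => ?_).trans ?_
    · have h3 := Z_upper P M (2 * ρ) J Ξ (dena_gen _ _ hl0 hΘc (by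
        simpa only [← Finset.prod_pow, sq_abs] using (Finset.mem_filter.1 hΞ).2))
      rwa [Nat.cast_mul, Nat.cast_ofNat] at h3
    · rw [nsmul_eq_mul]
      refine mul_le_mul_of_nonneg_right ?_ (by positivity)
      have h3 : G.card ≤ (M ^ g) ^ k := (Finset.card_filter_le _ _).trans (by
        rw [hTd, Fintype.card_piFinset, Fin.prod_const, card_Bx, Fintype.card_fin])
      exact_mod_cast h3
  have h3 : ∀ S : Finset (ZM n), S ⊆ SS n → (∀ A ∈ S, A.det ≠ 0 ∧ ∀ q : ℕ, 1 ≤ q → q < 2 * ρ →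
      (reprPairs A P J (2 * ρ) q : ℝ) * (2 * (4 * (ρ : ℝ)) ^ (2 * k)) ≤ 4 ^ n) →
      (S.card : ℝ) * ((ρ : ℝ) ^ (n + (n - g))) ^ k ≤
        2 ^ (n + 1) * (2 * (ρ : ℝ)) ^ (k * (n + J.card)) * K ^ k * (SS n).card := by
    intro S hS hE
    have h4 := (Finset.card_nsmul_le_sum S _ _ fun A hA => h1 A (hS hA) (hE A hA)).trans
      (Finset.sum_le_sum_of_subset_of_nonneg hS
        fun A _ _ => mul_nonneg (pow_nonneg hK0 k) (mul_nonneg zero_le_two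
          (Finset.sum_nonneg fun Ξ _ => Finset.prod_nonneg fun j _ => hω A _)))
    rw [← Finset.mul_sum, ← Finset.mul_sum, nsmul_eq_mul, mul_pow] at h4
    have h5 := h4.trans (mul_le_mul_of_nonneg_left (mul_le_mul_of_nonneg_left h2 zero_le_two)
      (pow_nonneg hK0 k))
    refine le_of_mul_le_mul_left ?_ (by positivity : 0 < ((M : ℝ) ^ g) ^ k)
    rw [pow_succ]
    linarith
  rw [pr, div_mul_eq_mul_div]
  exact div_le_of_le_mul₀ (Nat.cast_nonneg _) (by positivity)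
    (h3 _ (@Finset.filter_subset _ _ (_) _) fun A hA => ((@Finset.mem_filter _ _ (_) _ _).1 hA).2)

end Vale.Agent.P160
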