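import Vale.Agent.P160.DenA
import Vale.Agent.P160.Comb

/-!
P160 task DenB. Keep the statements unchanged; add lemmas freely (start them with `denb_`).

`rep_of_blocks`: for a block `J` with its `q_b`, average over `x'` to find `x'` such that `X = {x | Repr (res J (x - x'))}` has
`2^n ≤ 2^h |X|`; `edge` gives `U_b`; for `i ∈ J \ U_b`, `w i = res J (x - x'')`, `u i = (q / q_b) • (u₁ - u₂)` with `q = ∏ b, q_b`
(use `∏ b' ∈ univ.erase b, q_b'`). `U = ⋃ U_b`.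
`den`: `b = ⌊μ n / 2⌋`, `B = ⌈4/μ⌉ + 1`, `blk i = i / b`, `ρ = n^a₀` with `a₀ μ ≥ 12`, `a = (a₀ + 1) B + 1`, `h₁ = ⌊h₀ n⌋ / B`,
`k = Nat.findGreatest` or `(h₁ - 1) / (2 * clog 2 (4ρ))`, so that `2 (4ρ)^(2k) ≤ 2^h₁` and `ρ^k ≥ 2^(h₁/8)` for large `n`. If `Rep` fails some
block satisfies the event of `den_block`, whose probability is at most `2^(n+1) (12^n n^(2n) ρ^(-μ n/2))^k ≤ 2^(n+1) ρ^(-k μ n/4)`.
(If `μ > 1` the hypothesis on `g` is impossible for `n ≥ 1`.)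
-/

set_option linter.unusedSectionVars false
set_option linter.unusedVariables false

namespace Vale.Agent.P160

open Finset Matrix Filter

theorem Rep.mono {n g : ℕ} {A : ZM n} {P : Matrix (Fin n) (Fin g) ℤ} {Q Q' h h' : ℕ}
    (H : Rep A P Q h) (hQ : Q ≤ Q') (hh : h ≤ h') : Rep A P Q' h' := by
  obtain ⟨U, q, w, u, h1, h2, h3, h4⟩ := H
  refine ⟨U, q, w, u, h1.trans hh, h2, h3.trans hQ, fun i hi => ?_⟩
  obtain ⟨a1, a2, a3, a4⟩ := h4 i hi
  exact ⟨a1, a2, fun l => (a3 l).trans (by exact_mod_cast hQ), a4⟩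

theorem denb_block {n g R h q : ℕ} {A : ZM n} {P : Matrix (Fin n) (Fin g) ℤ} {J : Finset (Fin n)}
    (H : 4 ^ n ≤ 2 ^ h * reprPairs A P J R q) : ∃ U : Finset (Fin n), U.card ≤ h ∧
      ∀ i ∈ J, i ∉ U → ∃ w u : Fin n → ℤ, (∀ l, l ∉ U → w l = if l = i then 2 else 0) ∧
        (∀ l, |w l| ≤ 2) ∧ (∀ l, |u l| ≤ 2 * R) ∧ Pᵀ *ᵥ ((q : ℤ) • w - A *ᵥ u) = 0 := by
  classical
  have hS : (Sg (Fin n)).card = 2 ^ n := by rw [card_Sg, Fintype.card_fin]
  have e : reprPairs A P J R q = ∑ y ∈ Sg (Fin n),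
      ((Sg (Fin n)).filter fun x => Repr A P R q (res J (x - y))).card := by
    simp only [reprPairs, card_filter]
    rw [sum_product_right]
  obtain ⟨y, -, hy⟩ := exists_le_of_sum_le (s := Sg (Fin n)) (f := fun _ => 2 ^ n)
    (g := fun y => 2 ^ h * ((Sg (Fin n)).filter fun x => Repr A P R q (res J (x - y))).card)
    (card_pos.1 (by rw [hS]; positivity)) (by
      rw [← mul_sum, ← e, sum_const, hS, smul_eq_mul, ← mul_pow]
      exact H)
  obtain ⟨U, -, h1, h2⟩ := edge J (filter_subset _ _) (h := h) (by rwa [Fintype.card_fin])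
  refine ⟨U, h1, fun i hi hU => ?_⟩
  obtain ⟨x, hx, x', hx', a1, a2, a3⟩ := h2 i hi hU
  obtain ⟨b1, u, b2, b3⟩ := mem_filter.1 hx
  obtain ⟨c1, u', c2, c3⟩ := mem_filter.1 hx'
  refine ⟨res J (x - x'), u - u', fun l hl => ?_, fun l => ?_, fun l => ?_, ?_⟩
  · simp only [res, Pi.sub_apply]
    by_cases e1 : l = i
    · rw [e1, if_pos hi, if_pos rfl, a1, a2]
      norm_num
    · rw [if_neg e1]
      split_ifs with e2
      · rw [a3 l e2 hl e1, sub_self]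
      · rfl
  · simp only [res, Pi.sub_apply]
    split_ifs
    · rcases mem_Sg.1 b1 l with d | d <;> rcases mem_Sg.1 c1 l with d' | d' <;> rw [d, d'] <;>
        norm_num
    · norm_num
  · have := abs_sub (u l) (u' l)
    rw [Pi.sub_apply]
    linarith [b2 l, c2 l]
  · have e1 : res J (x - x') = res J (x - y) - res J (x' - y) := by
      funext l
      simp only [res, Pi.sub_apply]
      split_ifs <;> ring
    have e2 : (q : ℤ) • res J (x - x') - A *ᵥ (u - u') =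
        ((q : ℤ) • res J (x - y) - A *ᵥ u) - ((q : ℤ) • res J (x' - y) - A *ᵥ u') := by
      rw [e1, smul_sub, mulVec_sub]
      abel
    rw [e2, mulVec_sub, b3, c3, sub_zero]

theorem rep_of_blocks {n g B R h : ℕ} {A : ZM n} {P : Matrix (Fin n) (Fin g) ℤ} (blk : Fin n → Fin B)
    (H : ∀ b : Fin B, ∃ q : ℕ, 1 ≤ q ∧ q < R ∧
      4 ^ n ≤ 2 ^ h * reprPairs A P (univ.filter fun i => blk i = b) R q) :
    Rep A P (2 * R ^ B) (B * h) := by
  classical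
  choose q q1 q2 q3 using H
  choose U h1 h2 using fun b => denb_block (q3 b)
  have h3 : ∀ i, i ∉ univ.biUnion U → ∀ b, i ∉ U b := fun i hi b hb =>
    hi (mem_biUnion.2 ⟨b, mem_univ b, hb⟩)
  choose! w u h4 using fun i (hi : i ∉ univ.biUnion U) =>
    h2 (blk i) i (mem_filter.2 ⟨mem_univ i, rfl⟩) (h3 i hi _)
  have h5 : ∀ s : Finset (Fin B), ∏ b ∈ s, q b ≤ R ^ s.card := fun s =>
    prod_le_pow_card s q R fun b _ => (q2 b).le
  refine ⟨univ.biUnion U, ∏ b, q b, w, fun i => ((∏ b ∈ univ.erase (blk i), q b : ℕ) : ℤ) • u i,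
    ?_, one_le_prod' fun b _ => q1 b, ?_, fun i hi => ?_⟩
  · refine card_biUnion_le.trans ((sum_le_card_nsmul _ _ _ fun b _ => h1 b).trans_eq ?_)
    rw [card_univ, Fintype.card_fin, smul_eq_mul]
  · have := h5 univ
    rw [card_univ, Fintype.card_fin] at this
    omega
  · obtain ⟨a1, a2, a3, a4⟩ := h4 i hi
    refine ⟨fun l hl => a1 l (h3 l hl _), a2, fun l => ?_, ?_⟩
    · have b1 := h5 (univ.erase (blk i))
      rw [card_erase_of_mem (mem_univ _), card_univ, Fintype.card_fin] at b1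
      have b2 : R ^ B = R ^ (B - 1) * R := by
        rw [← pow_succ, Nat.sub_add_cancel (blk i).pos]
      have b3 : ((∏ b ∈ univ.erase (blk i), q b : ℕ) : ℤ) ≤ (R ^ (B - 1) : ℕ) := by exact_mod_cast b1
      beta_reduce
      rw [Pi.smul_apply, smul_eq_mul, abs_mul, Nat.abs_cast, b2]
      refine (mul_le_mul b3 (a3 l) (abs_nonneg _) (by positivity)).trans_eq ?_
      push_cast
      ring
    · rw [← prod_erase_mul _ _ (mem_univ (blk i)), Nat.cast_mul, mul_smul, mulVec_smul, ← smul_sub,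
        mulVec_smul, a4, smul_zero]

theorem denb_card (n B : ℕ) (hB : 0 < B) (b : Fin B) :
    (univ.filter fun i : Fin n => (⟨i % B, Nat.mod_lt _ hB⟩ : Fin B) = b).card ≤ n / B + 1 := by
  refine (card_le_card_of_injOn (t := range (n / B + 1)) (fun i : Fin n => (i : ℕ) / B) (fun i _ => ?_)
    fun i hi j hj e => ?_).trans_eq (card_range _)
  · exact mem_coe.2 (mem_range.2 (Nat.lt_succ_of_le (Nat.div_le_div_right i.2.le)))
  · have h1 := congrArg Fin.val ((mem_filter.1 hi).2.trans (mem_filter.1 hj).2.symm)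
    simp only at h1 e
    exact Fin.ext (by rw [← Nat.div_add_mod i B, e, h1, Nat.div_add_mod])

theorem denb_ev {γ : ℝ} (hγ : 0 < γ) (B : ℕ) :
    ∀ᶠ n : ℕ in atTop, (B : ℝ) + 4 + Nat.log 2 n ≤ γ * n := by
  have h1 := tendsto_natCast_atTop_atTop.eventually
    (Real.isLittleO_log_id_atTop.bound (show 0 < γ / 4 by positivity))
  have h2 := (tendsto_natCast_atTop_atTop.const_mul_atTop (half_pos hγ)).eventually_ge_atTop
    ((B : ℝ) + 4)
  filter_upwards [h1, h2, eventually_ge_atTop 1] with n a1 a2 a3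
  have a4 : (2 : ℝ) ^ Nat.log 2 n ≤ n := by exact_mod_cast Nat.pow_log_le_self 2 (by omega)
  have a5 := Real.log_le_log (by positivity) a4
  rw [Real.log_pow] at a5
  rw [id, Real.norm_natCast] at a1
  have a6 := (le_abs_self _).trans a1
  nlinarith [Real.log_two_gt_d9, Nat.cast_nonneg (α := ℝ) (Nat.log 2 n)]

theorem denb_num {n j D a k : ℕ} {p s : ℝ} (hn : 12 ≤ n) (hj : j ≤ n) (hD : 4 * n ≤ a * D)
    (hp : 0 ≤ p) (hs0 : 0 ≤ s) (hs : s ≤ (n : ℝ) ^ n)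
    (h : p * (((n ^ a : ℕ) : ℝ) ^ (n + (j + D))) ^ k ≤
      2 ^ (n + 1) * (2 * ((n ^ a : ℕ) : ℝ)) ^ (k * (n + j)) * (3 ^ n * (n : ℝ) ^ n * s) ^ k) :
    p * ((n : ℝ) ^ n) ^ k ≤ 2 ^ (n + 1) := by
  have n1 : (12 : ℝ) ≤ n := by exact_mod_cast hn
  have n0 : (0 : ℝ) < n := by linarith
  rw [Nat.cast_pow] at h
  obtain ⟨ρ, hρ⟩ : ∃ ρ : ℝ, ρ = (n : ℝ) ^ a := ⟨_, rfl⟩
  have r0 : 0 < ρ := hρ ▸ by positivity
  have h1 : (n : ℝ) ^ (4 * n) ≤ ρ ^ D := by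
    rw [hρ, ← pow_mul]
    exact pow_le_pow_right₀ (by linarith) hD
  rw [← hρ] at h
  have h2 : ρ ^ (n + j) * ((n : ℝ) ^ n) ^ 3 * (n : ℝ) ^ n ≤ ρ ^ (n + (j + D)) := by
    rw [← add_assoc, pow_add ρ (n + j), mul_assoc]
    refine mul_le_mul_of_nonneg_left (le_of_eq_of_le ?_ h1) (by positivity)
    ring
  have h3 : (2 * ρ) ^ (n + j) * (3 ^ n * (n : ℝ) ^ n * s) ≤ ρ ^ (n + j) * ((n : ℝ) ^ n) ^ 3 := by
    have a1 : (2 : ℝ) ^ (n + j) ≤ 4 ^ n := by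
      rw [show (4 : ℝ) = 2 ^ 2 by norm_num, ← pow_mul]
      exact pow_le_pow_right₀ one_le_two (by omega)
    have a2 : (4 : ℝ) ^ n * 3 ^ n ≤ (n : ℝ) ^ n := by
      rw [← mul_pow]
      exact pow_le_pow_left₀ (by norm_num) (by linarith) n
    calc _ = ρ ^ (n + j) * ((2 ^ (n + j) * 3 ^ n) * (n : ℝ) ^ n * s) := by ring
      _ ≤ ρ ^ (n + j) * ((n : ℝ) ^ n * (n : ℝ) ^ n * (n : ℝ) ^ n) := by
          have a3 := (mul_le_mul_of_nonneg_right a1 (show (0 : ℝ) ≤ 3 ^ n by positivity)).trans a2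
          gcongr
      _ = _ := by ring
  have h4 : (0 : ℝ) < (ρ ^ (n + j) * ((n : ℝ) ^ n) ^ 3) ^ k := by positivity
  refine le_of_mul_le_mul_right ?_ h4
  calc _ = p * (ρ ^ (n + j) * ((n : ℝ) ^ n) ^ 3 * (n : ℝ) ^ n) ^ k := by
        rw [mul_pow _ ((n : ℝ) ^ n) k]
        ring
    _ ≤ p * (ρ ^ (n + (j + D))) ^ k := by gcongr
    _ ≤ _ := h
    _ = 2 ^ (n + 1) * ((2 * ρ) ^ (n + j) * (3 ^ n * (n : ℝ) ^ n * s)) ^ k := by
        rw [mul_comm k, pow_mul, mul_pow ((2 * ρ) ^ (n + j)), mul_assoc]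
    _ ≤ _ := by gcongr

theorem den {μ : ℝ} (hμ : 0 < μ) : ∃ a : ℕ, ∀ h₀ > (0 : ℝ), ∃ c > (0 : ℝ), ∀ᶠ n : ℕ in atTop,
    ∀ (g : ℕ) (P : Matrix (Fin n) (Fin g) ℤ), hg P ≠ 0 → hg P ≤ (n : ℤ) ^ (2 * n) →
      (g : ℝ) + μ * n ≤ n →
      pr n (fun A => A.det ≠ 0 ∧ ¬ Rep A P (n ^ a) ⌊h₀ * n⌋₊) ≤ (2 : ℝ) ^ (-c * (n : ℝ) ^ 2) := by
  obtain ⟨a₀, ha⟩ := exists_nat_ge (8 / μ)
  obtain ⟨B, hB⟩ := exists_nat_ge (4 / μ)
  rw [div_le_iff₀ hμ] at ha hB
  have B0 : 0 < B := Nat.pos_of_ne_zero (by rintro rfl; norm_num at hB)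
  have B1 : (1 : ℝ) ≤ B := by exact_mod_cast B0
  refine ⟨(a₀ + 1) * B + 1, fun h₀ h0 => ?_⟩
  obtain ⟨m, hm⟩ : ∃ m : ℕ, m = 2 + 2 * a₀ := ⟨_, rfl⟩
  have m1 : (2 : ℝ) ≤ m := by exact_mod_cast (by omega : 2 ≤ m)
  obtain ⟨γ, hγ⟩ : ∃ γ : ℝ, γ = h₀ / (4 * m * B) := ⟨_, rfl⟩
  have γ0 : 0 < γ := hγ ▸ by positivity
  have γ1 : h₀ = γ * (4 * m * B) := by rw [hγ]; field_simp
  refine ⟨γ, γ0, ?_⟩
  filter_upwards [denb_ev γ0 B, eventually_ge_atTop 12,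
    (tendsto_natCast_atTop_atTop.const_mul_atTop hμ).eventually_ge_atTop 4] with n e1 e2 e3
    g P hP1 hP2 hg'
  obtain ⟨l, hl⟩ : ∃ l, l = Nat.log 2 n := ⟨_, rfl⟩
  rw [← hl] at e1
  have l1 : 2 ^ l ≤ n := hl ▸ Nat.pow_log_le_self 2 (by omega)
  have l2 : n < 2 ^ (l + 1) := hl ▸ Nat.lt_pow_succ_log_self one_lt_two n
  have l3 : 1 ≤ l := Nat.pos_of_ne_zero (by rintro rfl; omega)
  have l4 : (1 : ℝ) ≤ l := by exact_mod_cast l3
  have n0 : (12 : ℝ) ≤ n := by exact_mod_cast e2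
  obtain ⟨h₁, hh⟩ : ∃ h₁, h₁ = ⌊h₀ * n⌋₊ / B := ⟨_, rfl⟩
  have p1 : B * h₁ ≤ ⌊h₀ * n⌋₊ := hh ▸ Nat.mul_div_le _ _
  have p2 : 4 * m * (γ * n) ≤ h₁ + 2 := by
    have a1 : ((⌊h₀ * n⌋₊ : ℕ) : ℝ) < B * (h₁ + 1) := by
      exact_mod_cast hh ▸ Nat.lt_mul_div_succ _ B0
    have a2 := Nat.lt_floor_add_one (h₀ * n)
    refine le_of_mul_le_mul_left ?_ (show (0 : ℝ) < B by linarith)
    have a3 : B * (4 * m * (γ * n)) = h₀ * n := by rw [γ1]; ring
    linarith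
  have p3 : 1 ≤ h₁ := by
    have : (1 : ℝ) ≤ h₁ := by nlinarith
    exact_mod_cast this
  obtain ⟨k, hk⟩ : ∃ k, k = (h₁ - 1) / (2 * (m * l)) := ⟨_, rfl⟩
  have ml : 0 < 2 * (m * l) := by
    have : 0 < m := by omega
    positivity
  have k1 : 2 * (m * l) * k ≤ h₁ - 1 := hk ▸ Nat.mul_div_le _ _
  have k2 : 2 * (γ * n) ≤ l * k + l + 1 := by
    have a1 : h₁ - 1 < 2 * (m * l) * (k + 1) := hk ▸ Nat.lt_mul_div_succ _ ml
    have a2 : (h₁ : ℝ) ≤ 2 * (m * l) * (k + 1) := by exact_mod_cast (by omega : h₁ ≤ _)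
    refine le_of_mul_le_mul_left ?_ (show (0 : ℝ) < 2 * m by linarith)
    nlinarith
  have r1 : 4 * n ^ a₀ ≤ 2 ^ (m * l) := by
    have a1 : n ≤ 2 ^ (2 * l) := l2.le.trans (Nat.pow_le_pow_right two_pos (by omega))
    have a2 : 4 ≤ 2 ^ (2 * l) := (Nat.pow_le_pow_right two_pos (by omega : 2 ≤ 2 * l))
    refine (Nat.mul_le_mul a2 (Nat.pow_le_pow_left a1 a₀)).trans_eq ?_
    rw [← pow_mul, ← pow_add, hm]
    congr 1
    ring
  have r2 : 2 * (4 * ((n ^ a₀ : ℕ) : ℝ)) ^ (2 * k) ≤ 2 ^ h₁ := by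
    have a1 : 2 * (4 * n ^ a₀) ^ (2 * k) ≤ 2 ^ h₁ := by
      refine (Nat.mul_le_mul_left 2 (Nat.pow_le_pow_left r1 _)).trans ?_
      rw [← pow_mul, ← pow_succ']
      refine Nat.pow_le_pow_right two_pos ?_
      have : m * l * (2 * k) = 2 * (m * l) * k := by ring
      omega
    exact_mod_cast a1
  have r3 : 2 * (2 * n ^ a₀) ^ B ≤ n ^ ((a₀ + 1) * B + 1) := by
    rw [pow_succ', pow_mul, pow_succ']
    exact Nat.mul_le_mul (by omega) (Nat.pow_le_pow_left (Nat.mul_le_mul_right _ (by omega)) _)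
  have r4 : 1 ≤ n ^ a₀ := Nat.one_le_pow _ _ (by omega)
  have r5 : √(hg P : ℝ) ≤ (n : ℝ) ^ n := by
    rw [Real.sqrt_le_left (by positivity), ← pow_mul, mul_comm n 2]
    exact_mod_cast hP2
  let blk : Fin n → Fin B := fun i => ⟨i % B, Nat.mod_lt _ B0⟩
  have key : ∀ b : Fin B, pr n (fun A => A.det ≠ 0 ∧ ∀ q : ℕ, 1 ≤ q → q < 2 * n ^ a₀ →
      (reprPairs A P (univ.filter fun i => blk i = b) (2 * n ^ a₀) q : ℝ) *
        (2 * (4 * ((n ^ a₀ : ℕ) : ℝ)) ^ (2 * k)) ≤ 4 ^ n) ≤ 2 ^ (n + 1) / 2 ^ (l * n * k) := by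
    intro b
    have a1 := den_block hP1 (univ.filter fun i => blk i = b) r4 k
    have a2 : (univ.filter fun i => blk i = b).card ≤ n / B + 1 := denb_card n B B0 b
    have a3 : (univ.filter fun i => blk i = b).card ≤ n := by
      simpa using card_le_univ (univ.filter fun i => blk i = b)
    generalize (univ.filter fun i => blk i = b).card = j at a1 a2 a3
    have a4 : (j : ℝ) ≤ μ * n / 2 := by
      have c1 : (j : ℝ) ≤ (n / B : ℕ) + 1 := by exact_mod_cast a2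
      have c2 : (B : ℝ) * (n / B : ℕ) ≤ n := by exact_mod_cast Nat.mul_div_le n B
      have c3 : (0 : ℝ) ≤ (n / B : ℕ) := Nat.cast_nonneg _
      nlinarith
    have a5 : g + j ≤ n := by
      have : (g : ℝ) + j ≤ n := by linarith
      exact_mod_cast this
    obtain ⟨D, hD⟩ := Nat.exists_eq_add_of_le a5
    have a6 : 4 * n ≤ a₀ * D := by
      have c1 : (n : ℝ) = g + j + D := by exact_mod_cast hD
      have c2 : μ * n / 2 ≤ D := by linarith
      have c3 : (4 : ℝ) * n ≤ a₀ * D := by nlinarith [Nat.cast_nonneg (α := ℝ) a₀]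
      exact_mod_cast c3
    rw [show n - g = j + D by omega] at a1
    have a7 := denb_num e2 a3 a6 (pr_nonneg _) (Real.sqrt_nonneg _) r5 a1
    rw [le_div_iff₀ (by positivity)]
    refine le_trans (mul_le_mul_of_nonneg_left ?_ (pr_nonneg _)) a7
    rw [pow_mul, pow_mul]
    have c1 : (2 : ℝ) ^ l ≤ n := by exact_mod_cast l1
    gcongr
  refine (pr_mono fun A _ hA => ?_).trans ((pr_exists univ _).trans
    ((sum_le_card_nsmul _ _ _ fun b _ => key b).trans ?_))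
  · by_contra hn
    push Not at hn
    refine hA.2 ((rep_of_blocks blk fun b => ?_).mono r3 p1)
    obtain ⟨q, q1, q2, q3⟩ := hn b (mem_univ b) hA.1
    refine ⟨q, q1, q2, ?_⟩
    have := q3.le.trans (mul_le_mul_of_nonneg_left r2 (Nat.cast_nonneg _))
    rw [mul_comm] at this
    exact_mod_cast this
  · have a1 : (B : ℝ) ≤ 2 ^ B := by exact_mod_cast Nat.lt_two_pow_self.le
    rw [card_univ, Fintype.card_fin, nsmul_eq_mul]
    refine (mul_le_mul_of_nonneg_right a1 (by positivity)).trans ?_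
    rw [← mul_div_assoc, ← pow_add, ← Real.rpow_natCast, ← Real.rpow_natCast,
      ← Real.rpow_sub two_pos]
    refine Real.rpow_le_rpow_of_exponent_le one_le_two ?_
    push_cast
    nlinarith [mul_le_mul_of_nonneg_left k2 (show (0 : ℝ) ≤ n by linarith),
      mul_le_mul_of_nonneg_left e1 (show (0 : ℝ) ≤ n by linarith)]

end Vale.Agent.P160
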