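import Vale.Agent.P160.Basic

/-!
P160 task Resample. Keep the statements unchanged; add lemmas freely (start them with `resample_`).

Finite probability. `sum_rs`: the map `(A, Z) ↦ (rs O J A Z, Z')` with `Z' i j = if i ∈ O ∧ j ∈ J then A i j else Z i j` is an involution of
`SS n ×ˢ ZS n` (`Finset.sum_nbij'` or `sum_involution`-style bijection; use disjointness and symmetry). `resample_le`: for fixed `A, t`,
`∑ Z ∈ ZS n, ∏ k ∈ O, g k (Z k) = ∏ k, ∑ σ, (if k ∈ O then g k σ else 1)` (`Finset.prod_univ_sum`, `Finset.prod_ite_mem`).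
`sum_dec`: bijection between `SS (n+1)` and `SS n × Sg × {1,-1}`; the inverse is built with `Fin.insertNth` (or `Fin.succAboveCases`).
-/

set_option linter.unusedSectionVars false
set_option linter.unusedVariables false

namespace Vale.Agent.P160

open Finset Matrix Filter

theorem card_SS_pos (n : ℕ) : 0 < (SS n).card :=
  Finset.card_pos.2 ⟨Matrix.of fun _ _ => 1, mem_SS.2 ⟨fun _ _ => Or.inl rfl, fun _ _ => rfl⟩⟩

theorem resample_pos (n : ℕ) : (0 : ℝ) < (SS n).card := Nat.cast_pos.2 (card_SS_pos n)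

open Classical in
theorem pr_eq_sum {n : ℕ} (E : ZM n → Prop) :
    pr n E * (SS n).card = ∑ A ∈ SS n, if E A then (1 : ℝ) else 0 := by
  rw [pr, div_mul_cancel₀ _ (resample_pos n).ne', Finset.natCast_card_filter]

theorem pr_nonneg {n : ℕ} (E : ZM n → Prop) : 0 ≤ pr n E :=
  div_nonneg (Nat.cast_nonneg _) (Nat.cast_nonneg _)

theorem pr_le_one {n : ℕ} (E : ZM n → Prop) : pr n E ≤ 1 := by
  classical
  exact (div_le_one (resample_pos n)).2 (Nat.cast_le.2 (card_filter_le _ _))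

theorem pr_mono {n : ℕ} {E F : ZM n → Prop} (h : ∀ A ∈ SS n, E A → F A) : pr n E ≤ pr n F := by
  refine le_of_mul_le_mul_right ?_ (resample_pos n)
  rw [pr_eq_sum, pr_eq_sum]
  refine sum_le_sum fun A hA => ?_
  split_ifs with h1 h2
  · exact le_rfl
  · exact absurd (h A hA h1) h2
  · exact zero_le_one
  · exact le_rfl

theorem pr_or {n : ℕ} (E F : ZM n → Prop) : pr n (fun A => E A ∨ F A) ≤ pr n E + pr n F := by
  refine le_of_mul_le_mul_right ?_ (resample_pos n)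
  rw [add_mul, pr_eq_sum, pr_eq_sum, pr_eq_sum, ← sum_add_distrib]
  refine sum_le_sum fun A hA => ?_
  by_cases h1 : E A <;> by_cases h2 : F A <;> simp [h1, h2]

theorem pr_exists {n : ℕ} {τ : Type} (T : Finset τ) (E : τ → ZM n → Prop) :
    pr n (fun A => ∃ t ∈ T, E t A) ≤ ∑ t ∈ T, pr n (E t) := by
  refine le_of_mul_le_mul_right ?_ (resample_pos n)
  rw [sum_mul]
  simp only [pr_eq_sum]
  rw [sum_comm]
  refine sum_le_sum fun A hA => ?_
  have h0 : ∀ t ∈ T, (0 : ℝ) ≤ @ite _ (E t A) (Classical.propDecidable _) 1 0 := fun t _ => by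
    split_ifs
    exacts [zero_le_one, le_rfl]
  split_ifs with h
  · obtain ⟨t, ht, hE⟩ := h
    refine le_trans ?_ (single_le_sum h0 ht)
    rw [if_pos hE]
  · exact sum_nonneg h0

open Classical in
/-- First moment: if `E` forces at least `m` of the events `F i`. -/
theorem pr_many {n : ℕ} {τ : Type} [Fintype τ] {E : ZM n → Prop} {F : τ → ZM n → Prop} {m : ℕ}
    (h : ∀ A ∈ SS n, E A → m ≤ (univ.filter fun i => F i A).card) :
    m * pr n E ≤ ∑ i, pr n (F i) := by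
  refine le_of_mul_le_mul_right ?_ (resample_pos n)
  rw [sum_mul, mul_assoc]
  simp only [pr_eq_sum]
  rw [sum_comm, mul_sum]
  refine sum_le_sum fun A hA => ?_
  rw [← Finset.natCast_card_filter]
  split_ifs with h1
  · rw [mul_one]
    exact Nat.cast_le.2 (h A hA h1)
  · rw [mul_zero]
    exact Nat.cast_nonneg _

theorem rs_mem {n : ℕ} {O J : Finset (Fin n)} (hOJ : Disjoint O J) {A : ZM n} (hA : A ∈ SS n)
    {Z : Fin n → Fin n → ℤ} (hZ : Z ∈ ZS n) : rs O J A Z ∈ SS n := by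
  rw [mem_SS] at hA ⊢
  rw [mem_ZS] at hZ
  refine ⟨fun i j => ?_, fun i j => ?_⟩
  · simp only [rs, Matrix.of_apply]
    split_ifs
    exacts [hZ _ _, hZ _ _, hA.1 _ _]
  · simp only [rs, Matrix.of_apply]
    split_ifs with h1 h2
    · exact absurd h1.2 (disjoint_left.1 hOJ h2.1)
    · rfl
    · rfl
    · exact hA.2 _ _

theorem resample_card (n : ℕ) : ((ZS n).card : ℝ) = (2 ^ n) ^ n := by
  rw [ZS, Fintype.card_piFinset, prod_const, card_Sg, card_univ, Fintype.card_fin]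
  push_cast
  rfl

theorem sum_rs {n : ℕ} {O J : Finset (Fin n)} (hOJ : Disjoint O J) (f : ZM n → ℝ) :
    (2 : ℝ) ^ (n * n) * ∑ A ∈ SS n, f A = ∑ A ∈ SS n, ∑ Z ∈ ZS n, f (rs O J A Z) := by
  let φ : ZM n × (Fin n → Fin n → ℤ) → ZM n × (Fin n → Fin n → ℤ) := fun p =>
    (rs O J p.1 p.2, fun i j => if i ∈ O ∧ j ∈ J then p.1 i j else p.2 i j)
  have h1 : ∀ p ∈ SS n ×ˢ ZS n, φ p ∈ SS n ×ˢ ZS n := fun p hp => by
    rw [mem_product] at hp ⊢
    refine ⟨rs_mem hOJ hp.1 hp.2, mem_ZS.2 fun i j => ?_⟩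
    show (if _ then _ else _) = _ ∨ (if _ then _ else _) = _
    split_ifs
    exacts [(mem_SS.1 hp.1).1 _ _, mem_ZS.1 hp.2 _ _]
  have h2 : ∀ p ∈ SS n ×ˢ ZS n, φ (φ p) = p := fun p hp => by
    refine Prod.ext (Matrix.ext fun i j => ?_) (funext fun i => funext fun j => ?_)
    · simp only [φ, rs, Matrix.of_apply]
      split_ifs
      · rfl
      · exact (mem_SS.1 (mem_product.1 hp).1).2 _ _
      · rfl
    · simp only [φ, rs, Matrix.of_apply]
      split_ifs <;> rfl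
  have h3 : ∑ p ∈ SS n ×ˢ ZS n, f (φ p).1 = ∑ p ∈ SS n ×ˢ ZS n, f p.1 :=
    sum_nbij' φ φ h1 h1 h2 h2 fun _ _ => rfl
  rw [sum_product, sum_product] at h3
  refine Eq.trans ?_ h3.symm
  simp only [sum_const, nsmul_eq_mul, resample_card, pow_mul, mul_sum]

theorem resample_prod {n : ℕ} (O : Finset (Fin n)) (g : Fin n → (Fin n → ℤ) → ℝ) {p : ℝ}
    (hg0 : ∀ k σ, 0 ≤ g k σ) (hp : ∀ k ∈ O, ∑ σ ∈ Sg (Fin n), g k σ ≤ p * 2 ^ n) :
    ∑ Z ∈ ZS n, ∏ k ∈ O, g k (Z k) ≤ p ^ O.card * 2 ^ (n * n) := by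
  have h1 : ∑ Z ∈ ZS n, ∏ k ∈ O, g k (Z k) =
      ∏ k, ∑ σ ∈ Sg (Fin n), if k ∈ O then g k σ else 1 := by
    rw [prod_univ_sum]
    exact sum_congr rfl fun Z _ => by rw [prod_ite_mem, univ_inter]
  have h2 : p ^ O.card * 2 ^ (n * n) = ∏ k : Fin n, (if k ∈ O then p else 1) * 2 ^ n := by
    rw [prod_mul_distrib, prod_ite_mem, univ_inter, prod_const, prod_const, card_univ,
      Fintype.card_fin, pow_mul]
  rw [h1, h2]
  refine prod_le_prod (fun k _ => sum_nonneg fun σ _ => ?_) fun k _ => ?_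
  · split_ifs
    exacts [hg0 _ _, zero_le_one]
  · split_ifs with h
    · exact hp k h
    · rw [sum_const, card_Sg, Fintype.card_fin, nsmul_eq_mul, mul_comm]
      push_cast
      exact le_rfl

theorem resample_le {n : ℕ} {τ : Type} {O J : Finset (Fin n)} (hOJ : Disjoint O J) (f : ZM n → ℝ)
    (T : ZM n → Finset τ) (g : ZM n → τ → Fin n → (Fin n → ℤ) → ℝ) {c p : ℝ} {m : ℕ} (hc : 0 ≤ c)
    (hp0 : 0 ≤ p) (hT : ∀ A ∈ SS n, (T A).card ≤ m) (hg0 : ∀ A t k σ, 0 ≤ g A t k σ)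
    (hp : ∀ A ∈ SS n, ∀ t ∈ T A, ∀ k ∈ O, ∑ σ ∈ Sg (Fin n), g A t k σ ≤ p * 2 ^ n)
    (hf : ∀ A ∈ SS n, ∀ Z ∈ ZS n, f (rs O J A Z) ≤ c * ∑ t ∈ T A, ∏ k ∈ O, g A t k (Z k)) :
    ∑ A ∈ SS n, f A ≤ c * m * p ^ O.card * (SS n).card := by
  have h2 : (0 : ℝ) < 2 ^ (n * n) := by positivity
  refine le_of_mul_le_mul_left ?_ h2
  rw [sum_rs hOJ]
  refine (sum_le_card_nsmul _ _ (c * (m * (p ^ O.card * 2 ^ (n * n)))) fun A hA => ?_).trans_eq
    (by rw [nsmul_eq_mul]; ring)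
  refine (sum_le_sum (hf A hA)).trans ?_
  rw [← mul_sum, sum_comm]
  refine mul_le_mul_of_nonneg_left ((sum_le_card_nsmul _ _ _ fun t ht =>
    resample_prod O (g A t) (hg0 A t) (hp A hA t ht)).trans ?_) hc
  rw [nsmul_eq_mul]
  exact mul_le_mul_of_nonneg_right (Nat.cast_le.2 (hT A hA)) (by positivity)

open Classical in
theorem pr_resample_le {n : ℕ} {τ : Type} {O J : Finset (Fin n)} (hOJ : Disjoint O J)
    (E : ZM n → Prop) (T : ZM n → Finset τ) (F : ZM n → τ → Fin n → (Fin n → ℤ) → Prop) {p : ℝ}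
    {m : ℕ} (hp0 : 0 ≤ p) (hT : ∀ A ∈ SS n, (T A).card ≤ m)
    (hp : ∀ A ∈ SS n, ∀ t ∈ T A, ∀ k ∈ O, (((Sg (Fin n)).filter (F A t k)).card : ℝ) ≤ p * 2 ^ n)
    (hE : ∀ A ∈ SS n, ∀ Z ∈ ZS n, E (rs O J A Z) → ∃ t ∈ T A, ∀ k ∈ O, F A t k (Z k)) :
    pr n E ≤ m * p ^ O.card := by
  refine le_of_mul_le_mul_right ?_ (resample_pos n)
  have h0 : ∀ A t k σ, (0 : ℝ) ≤ if F A t k σ then 1 else 0 := fun A t k σ => by
    split_ifs
    exacts [zero_le_one, le_rfl]
  have h := resample_le hOJ (fun A => if E A then (1 : ℝ) else 0) T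
    (fun A t k σ => if F A t k σ then (1 : ℝ) else 0) zero_le_one hp0 hT h0
    (fun A hA t ht k hk => by
      rw [← Finset.natCast_card_filter]
      exact hp A hA t ht k hk) (fun A hA Z hZ => by
      have h1 : ∀ t ∈ T A, (0 : ℝ) ≤ ∏ k ∈ O, if F A t k (Z k) then 1 else 0 :=
        fun t _ => prod_nonneg fun k _ => h0 _ _ _ _
      rw [one_mul]
      split_ifs with h2
      · obtain ⟨t, ht, h3⟩ := hE A hA Z hZ h2
        refine le_trans ?_ (single_le_sum h1 ht)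
        rw [prod_eq_one fun k hk => if_pos (h3 k hk)]
      · exact sum_nonneg h1)
  rw [one_mul] at h
  rw [pr_eq_sum]
  exact h

theorem mn_mem {n : ℕ} {A : ZM (n + 1)} (hA : A ∈ SS (n + 1)) (i : Fin (n + 1)) : mn A i ∈ SS n :=
  mem_SS.2 ⟨fun _ _ => (mem_SS.1 hA).1 _ _, fun _ _ => (mem_SS.1 hA).2 _ _⟩

theorem cl_mem {n : ℕ} {A : ZM (n + 1)} (hA : A ∈ SS (n + 1)) (i : Fin (n + 1)) :
    cl A i ∈ Sg (Fin n) :=
  mem_Sg.2 fun _ => (mem_SS.1 hA).1 _ _

/-- Insert a row and a column. -/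
def resampleIns {n : ℕ} (i : Fin (n + 1)) (B : ZM n) (x : Fin n → ℤ) (s : ℤ) : ZM (n + 1) :=
  Matrix.of (Fin.insertNth (α := fun _ => Fin (n + 1) → ℤ) i (Fin.insertNth (α := fun _ => ℤ) i s x)
    fun a => Fin.insertNth (α := fun _ => ℤ) i (x a) (B a))

theorem sum_dec {n : ℕ} (i : Fin (n + 1)) (f : ZM n → (Fin n → ℤ) → ℝ) :
    ∑ A ∈ SS (n + 1), f (mn A i) (cl A i) = 2 * ∑ A ∈ SS n, ∑ x ∈ Sg (Fin n), f A x := by
  have h1 : ∑ A ∈ SS (n + 1), f (mn A i) (cl A i) =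
      ∑ p ∈ ({1, -1} : Finset ℤ) ×ˢ SS n ×ˢ Sg (Fin n), f p.2.1 p.2.2 := by
    refine sum_nbij' (fun A => (A i i, mn A i, cl A i)) (fun p => resampleIns i p.2.1 p.2.2 p.1)
      (fun A hA => ?_) (fun p hp => ?_) (fun A hA => ?_) (fun p hp => ?_) fun _ _ => rfl
    · simp only [mem_product, mem_insert, mem_singleton]
      exact ⟨(mem_SS.1 hA).1 _ _, mn_mem hA i, cl_mem hA i⟩
    · simp only [mem_product, mem_insert, mem_singleton, mem_SS, mem_Sg] at hp
      obtain ⟨h1, ⟨h2, h3⟩, h4⟩ := hp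
      refine mem_SS.2 ⟨fun a b => ?_, fun a b => ?_⟩ <;>
        induction a using Fin.succAboveCases i <;> induction b using Fin.succAboveCases i <;>
        simp only [resampleIns, Matrix.of_apply, Fin.insertNth_apply_same,
          Fin.insertNth_apply_succAbove]
      exacts [h1, h4 _, h4 _, h2 _ _, h3 _ _]
    · refine Matrix.ext fun a b => ?_
      induction a using Fin.succAboveCases i <;> induction b using Fin.succAboveCases i <;>
        simp only [resampleIns, Matrix.of_apply, Fin.insertNth_apply_same,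
          Fin.insertNth_apply_succAbove, mn, cl, submatrix_apply]
      exact (mem_SS.1 hA).2 _ _
    · refine Prod.ext ?_ (Prod.ext (Matrix.ext fun a b => ?_) (funext fun a => ?_)) <;>
        simp only [resampleIns, Matrix.of_apply, Fin.insertNth_apply_same,
          Fin.insertNth_apply_succAbove, mn, cl, submatrix_apply]
  rw [h1, sum_product, sum_pair (by norm_num), sum_product, two_mul]

theorem card_SS_succ (n : ℕ) : (SS (n + 1)).card = 2 ^ (n + 1) * (SS n).card := by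
  have h := sum_dec (n := n) 0 fun _ _ => 1
  simp only [sum_const, card_Sg, Fintype.card_fin, nsmul_eq_mul, mul_one] at h
  have h2 : ((SS (n + 1)).card : ℝ) = ((2 ^ (n + 1) * (SS n).card : ℕ) : ℝ) := by
    rw [h]
    push_cast
    ring
  exact_mod_cast h2

open Classical in
theorem pr_dec_le {n : ℕ} (i : Fin (n + 1)) {E : ZM n → (Fin n → ℤ) → Prop} {F Bad : ZM n → Prop}
    {p : ℝ} (hp0 : 0 ≤ p) (hF : ∀ A x, E A x → F A)
    (hp : ∀ A ∈ SS n, F A → ¬ Bad A → (((Sg (Fin n)).filter (E A)).card : ℝ) ≤ p * 2 ^ n) :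
    pr (n + 1) (fun A => E (mn A i) (cl A i)) ≤ p * pr n F + pr n Bad := by
  refine le_of_mul_le_mul_right ?_ (resample_pos (n + 1))
  rw [pr_eq_sum, sum_dec i fun A x => if E A x then (1 : ℝ) else 0, card_SS_succ]
  have h1 : (p * pr n F + pr n Bad) * ((2 ^ (n + 1) * (SS n).card : ℕ) : ℝ) =
      2 * (2 ^ n * (p * (pr n F * (SS n).card) + pr n Bad * (SS n).card)) := by
    push_cast
    ring
  rw [h1, pr_eq_sum, pr_eq_sum, mul_sum (SS n) _ p, ← sum_add_distrib, mul_sum (SS n) _ (2 ^ n)]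
  refine mul_le_mul_of_nonneg_left (sum_le_sum fun A hA => ?_) zero_le_two
  rw [← Finset.natCast_card_filter]
  have h2 : (((Sg (Fin n)).filter (E A)).card : ℝ) ≤ 2 ^ n := by
    have h3 := card_filter_le (Sg (Fin n)) (E A)
    rw [card_Sg, Fintype.card_fin] at h3
    exact_mod_cast h3
  have h3 : (0 : ℝ) < 2 ^ n := by positivity
  by_cases hB : Bad A
  · refine h2.trans (le_mul_of_one_le_right h3.le ?_)
    rw [if_pos hB]
    refine le_add_of_nonneg_left (mul_nonneg hp0 ?_)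
    split_ifs
    exacts [zero_le_one, le_rfl]
  · rw [if_neg hB, add_zero]
    split_ifs with hFA
    · rw [mul_one, mul_comm]
      exact hp A hA hFA hB
    · rw [filter_eq_empty_iff.2 fun x _ hx => hFA (hF A x hx)]
      simp

theorem natAbs_det_le {n : ℕ} {A : ZM n} (hA : A ∈ SS n) : A.det.natAbs ≤ n ^ n := by
  have h := Matrix.det_le (A := A) (abv := AbsoluteValue.abs) (x := 1) fun i j => by
    rcases (mem_SS.1 hA).1 i j with h | h <;> simp [h]
  rw [AbsoluteValue.abs_apply, one_pow, Fintype.card_fin, nsmul_eq_mul, mul_one,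
    ← Int.natCast_natAbs] at h
  exact (Nat.cast_le.1 h).trans (Nat.factorial_le_pow n)

end Vale.Agent.P160
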