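import Vale.Agent.P160.Fej
import Vale.Agent.P160.Box
import Vale.Agent.P160.UC
import Vale.Agent.P160.Resample

/-!
P160 task DenZ. Keep the statements unchanged; add lemmas freely (start them with `denz_`).

`Z_ge`: by `prod_Fej` and `sum_ch_pi` (note `(a - a') ⬝ᵥ (A P) s = ((A P)ᵀ (a - a')) ⬝ᵥ s`) the sum is `M^g` times the number of pairs with
`M ∣ (A P)ᵀ (a-a')`, at least the number of pairs with `(A P)ᵀ (a - a') = 0`. `hg (A P) ≠ 0`, `hg (A P) ≤ (n²)^g hg P` (`det_mono`,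
`|A x|² ≤ n² |x|²`); `dual` gives a basis `P₁` with `n - g` columns, `box` counts its short vectors, `pairs_ge`.
`Z_twist`: take `M` larger than every entry of `Pᵀ (y - A u)` for `|y| ≤ 2R`, `|u| < R`; expand as above, `(A P)ᵀ = Pᵀ A`.
`Z_upper`: `resample_le` with `O = Jᶜ`, one index, `c = (R²)^(k |J|)` (rows in `J`, `Fej_le`), and for a row `l ∉ J`,
`g A _ l σ = ∏ j, Fej (∑ i ∉ J, A l i ζ j i + ∑ i ∈ J, σ i ζ j i)` with `ζ j = P *ᵥ Ξ j`; `row_le`.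
-/

set_option linter.unusedSectionVars false
set_option linter.unusedVariables false

namespace Vale.Agent.P160

open Finset Matrix Filter

theorem denz_exp {n g M : ℕ} (hM : 0 < M) (R : ℕ) (U : Matrix (Fin n) (Fin g) ℤ) (c : Fin g → ℤ) :
    ∑ s ∈ Bx (Fin g) M, ((∏ l, Fej M R ((U *ᵥ s) l) : ℝ) : ℂ) * ch M (c ⬝ᵥ s) =
      ∑ p ∈ Bx (Fin n) R ×ˢ Bx (Fin n) R,
        if ∀ i, (M : ℤ) ∣ (Uᵀ *ᵥ (p.1 - p.2) + c) i then (M : ℂ) ^ g else 0 := by
  simp only [prod_Fej, Finset.sum_mul, ← ch_add]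
  rw [Finset.sum_comm]
  refine Finset.sum_congr rfl fun p _ => ?_
  have h := sum_ch_pi hM (Uᵀ *ᵥ (p.1 - p.2) + c)
  rw [Fintype.card_fin] at h
  refine (Finset.sum_congr rfl fun s _ => ?_).trans (h.trans (ite_congr rfl (fun _ => rfl) fun _ => rfl))
  rw [add_dotProduct, mulVec_transpose, dotProduct_mulVec]

theorem denz_qf {n : ℕ} {A : ZM n} (hA : A ∈ SS n) (x : Fin n → ℝ) :
    qf 1 (rm A *ᵥ x) ≤ (n : ℝ) ^ 2 * qf 1 x := by
  rw [qf_one, qf_one]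
  have h : ∀ i, (rm A *ᵥ x) i ^ 2 ≤ n * ∑ j, x j ^ 2 := fun i => by
    have h1 := Finset.sum_mul_sq_le_sq_mul_sq univ (fun j => rm A i j) x
    have h2 : ∑ j, rm A i j ^ 2 = (n : ℝ) := by
      rw [Finset.sum_congr rfl (g := fun _ => (1 : ℝ)) fun j _ => by
        rcases (mem_SS.1 hA).1 i j with h | h <;> simp [rm, h]]
      simp
    rw [h2] at h1
    exact h1
  refine (Finset.sum_le_sum fun i _ => h i).trans_eq ?_
  rw [Finset.sum_const, card_univ, Fintype.card_fin, nsmul_eq_mul]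
  ring

theorem denz_hg {n g : ℕ} {A : ZM n} (hA : A ∈ SS n) (P : Matrix (Fin n) (Fin g) ℤ) :
    (hg (A * P) : ℝ) ≤ ((n : ℝ) ^ g) ^ 2 * hg P := by
  have h := det_mono (gr_posSemidef Matrix.PosSemidef.one (A * P))
    ((gr_posSemidef Matrix.PosSemidef.one P).smul (sq_nonneg (n : ℝ))) fun x => by
      have h1 := denz_qf hA (rm P *ᵥ x)
      rw [qf_gr, rm_mul, ← mulVec_mulVec]
      refine h1.trans_eq ?_
      rw [← qf_gr, qf, qf, smul_mulVec, dotProduct_smul, smul_eq_mul]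
  rwa [det_smul, det_gr_one, det_gr_one, Fintype.card_fin, ← pow_mul, mul_comm 2, pow_mul] at h

theorem Z_ge {n g : ℕ} {A : ZM n} (hA : A ∈ SS n) (hd : A.det ≠ 0) {P : Matrix (Fin n) (Fin g) ℤ}
    (hP : hg P ≠ 0) {M ρ : ℕ} (hM : 0 < M) (hρ : 1 ≤ ρ) :
    (ρ : ℝ) ^ (n + (n - g)) * (M : ℝ) ^ g ≤ 3 ^ n * (n : ℝ) ^ n * √(hg P : ℝ) *
      ∑ s ∈ Bx (Fin g) M, ∏ l, Fej M (2 * ρ) (((A * P) *ᵥ s) l) := by
  classical
  have hU : hg (A * P) ≠ 0 := hg_ne_zero_iff.2 fun z hz => by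
    rw [← mulVec_mulVec] at hz
    exact hg_ne_zero_iff.1 hP z (Matrix.eq_zero_of_mulVec_eq_zero hd hz)
  obtain ⟨g₁, P₁, h1, h2, h3, -, h4⟩ := dual hU
  simp only [Fintype.card_fin] at h2
  have h5 := box h1 hρ
  simp only [Fintype.card_fin] at h5
  obtain ⟨W, hW⟩ : ∃ W, W = (Bs (Fin n) ρ).filter fun w => ∃ c, w = P₁ *ᵥ c := ⟨_, rfl⟩
  rw [← hW] at h5
  obtain ⟨D, hD⟩ : ∃ D, D = (Bx (Fin n) (2 * ρ) ×ˢ Bx (Fin n) (2 * ρ)).filter
    fun p => ∀ i, (M : ℤ) ∣ ((A * P)ᵀ *ᵥ (p.1 - p.2) + 0 : Fin g → ℤ) i := ⟨_, rfl⟩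
  have e1 : ∑ s ∈ Bx (Fin g) M, ∏ l, Fej M (2 * ρ) (((A * P) *ᵥ s) l) =
      (D.card : ℝ) * (M : ℝ) ^ g := by
    have h := denz_exp hM (2 * ρ) (A * P) 0
    rw [← Finset.sum_filter, ← hD, Finset.sum_const, nsmul_eq_mul] at h
    simp only [zero_dotProduct, ch_zero, mul_one] at h
    exact_mod_cast h
  have e2 : W.card * ρ ^ n ≤ D.card := by
    have h6 := Finset.mul_card_image_le_card_of_maps_to
      (s := (Bx (Fin n) (2 * ρ) ×ˢ Bx (Fin n) (2 * ρ)).filter fun p => p.1 - p.2 ∈ W) (t := W)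
      (f := fun p => p.1 - p.2) (fun p hp => (Finset.mem_filter.1 hp).2) (ρ ^ n) fun w hw => by
        have h7 := pairs_ge (Finset.mem_filter.1 (hW ▸ hw)).1
        rw [Fintype.card_fin] at h7
        refine h7.trans (Finset.card_le_card fun p hp => ?_)
        rw [Finset.mem_filter] at hp
        exact Finset.mem_filter.2 ⟨Finset.mem_filter.2 ⟨hp.1, hp.2 ▸ hw⟩, hp.2⟩
    rw [mul_comm]
    refine h6.trans (Finset.card_le_card fun p hp => ?_)
    rw [Finset.mem_filter, hW, Finset.mem_filter] at hp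
    obtain ⟨hp, -, c, hc⟩ := hp
    rw [hD, Finset.mem_filter]
    refine ⟨hp, fun i => ?_⟩
    have h8 : (A * P)ᵀ * P₁ = 0 := by
      rw [← transpose_transpose P₁, ← transpose_mul, h3, transpose_zero]
    rw [hc, mulVec_mulVec, h8, zero_mulVec, add_zero]
    exact dvd_zero _
  have e3 : √(hg P₁ : ℝ) ≤ (n : ℝ) ^ n * √(hg P : ℝ) := by
    have h6 : (hg P₁ : ℝ) ≤ hg (A * P) := by exact_mod_cast h4
    refine (Real.sqrt_le_sqrt (h6.trans (denz_hg hA P))).trans ?_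
    rw [Real.sqrt_mul (sq_nonneg _), Real.sqrt_sq (by positivity)]
    refine mul_le_mul_of_nonneg_right ?_ (Real.sqrt_nonneg _)
    rcases Nat.eq_zero_or_pos n with h | h
    · obtain rfl : g = n := by omega
      exact le_rfl
    · exact pow_le_pow_right₀ (by exact_mod_cast h) (by omega)
  have e4 : (W.card : ℝ) * (ρ : ℝ) ^ n ≤ D.card := by exact_mod_cast e2
  rw [e1, show n - g = g₁ by omega, pow_add]
  calc (ρ : ℝ) ^ n * (ρ : ℝ) ^ g₁ * (M : ℝ) ^ g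
      ≤ (ρ : ℝ) ^ n * (3 ^ n * ((n : ℝ) ^ n * √(hg P : ℝ)) * W.card) * (M : ℝ) ^ g := by
        gcongr
        exact h5.trans (by gcongr)
    _ = 3 ^ n * (n : ℝ) ^ n * √(hg P : ℝ) * ((W.card : ℝ) * (ρ : ℝ) ^ n * (M : ℝ) ^ g) := by ring
    _ ≤ _ := by gcongr

theorem Z_twist {n g : ℕ} (P : Matrix (Fin n) (Fin g) ℤ) (R : ℕ) : ∃ M : ℕ, 0 < M ∧ ∀ A ∈ SS n,
    ∀ y : Fin n → ℤ, (∀ i, |y i| ≤ 2 * R) → ¬ Repr A P R 1 y →
      ∑ s ∈ Bx (Fin g) M, ((∏ l, Fej M R (((A * P) *ᵥ s) l) : ℝ) : ℂ) * ch M (y ⬝ᵥ P *ᵥ s) = 0 := by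
  classical
  obtain ⟨M, hM⟩ := ((SS n ×ˢ Bs (Fin n) (2 * R + 1) ×ˢ Bs (Fin n) R ×ˢ (univ : Finset (Fin g))).image
    fun t => ((Pᵀ *ᵥ (t.2.1 - t.1 *ᵥ t.2.2.1)) t.2.2.2).natAbs).exists_le
  refine ⟨M + 1, M.succ_pos, fun A hA y hy hr => ?_⟩
  have h := denz_exp M.succ_pos R (A * P) (Pᵀ *ᵥ y)
  simp only [mulVec_transpose P y, ← dotProduct_mulVec] at h
  refine h.trans (Finset.sum_eq_zero fun p hp => if_neg fun hd => hr ?_)
  rw [Finset.mem_product, mem_Bx, mem_Bx] at hp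
  have hu : ∀ l, |(p.2 - p.1) l| < R := fun l => by
    have h1 := hp.1 l
    have h2 := hp.2 l
    rw [Pi.sub_apply, abs_lt]
    omega
  have hs : Aᵀ = A := Matrix.ext fun i j => (mem_SS.1 hA).2 j i
  have e : (A * P)ᵀ *ᵥ (p.1 - p.2) + y ᵥ* P = Pᵀ *ᵥ (y - A *ᵥ (p.2 - p.1)) := by
    rw [transpose_mul, hs, ← mulVec_mulVec, ← mulVec_transpose, ← mulVec_add, mulVec_sub A,
      mulVec_sub A]
    congr 1
    abel
  refine ⟨p.2 - p.1, hu, funext fun i => ?_⟩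
  rw [Nat.cast_one, one_smul]
  have h1 := hd i
  rw [e] at h1
  have h2 := hM _ (Finset.mem_image_of_mem _ (a := (A, y, p.2 - p.1, i)) (by
    simp only [Finset.mem_product, mem_Bs]
    refine ⟨hA, fun l => ?_, hu, mem_univ _⟩
    have := hy l
    push_cast
    omega))
  refine Int.eq_zero_of_abs_lt_dvd h1 ?_
  rw [Int.abs_eq_natAbs]
  exact_mod_cast Nat.lt_succ_of_le h2

theorem Z_upper {n g k : ℕ} (P : Matrix (Fin n) (Fin g) ℤ) (M R : ℕ) (J : Finset (Fin n))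
    (Ξ : Fin k → Fin g → ℤ)
    (hΞ : ∑ θ ∈ (Bs (Fin k) R).erase 0, ∏ i ∈ J, |cs M (∑ j, θ j * (P *ᵥ Ξ j) i)| ≤ 1) :
    ∑ A ∈ SS n, ∏ j, ∏ l, Fej M R (((A * P) *ᵥ Ξ j) l) ≤
      2 ^ n * (R : ℝ) ^ (k * (n + J.card)) * (SS n).card := by
  have h := resample_le (O := Jᶜ) (J := J) disjoint_compl_left
    (fun A => ∏ j, ∏ l, Fej M R (((A * P) *ᵥ Ξ j) l)) (fun _ => ({()} : Finset Unit))
    (fun A _ l σ => ∏ j, Fej M R (∑ i ∈ Jᶜ, A l i * (P *ᵥ Ξ j) i + ∑ i ∈ J, σ i * (P *ᵥ Ξ j) i))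
    (c := (((R : ℝ) ^ 2) ^ k) ^ J.card) (p := 2 * (R : ℝ) ^ k) (m := 1) (by positivity)
    (by positivity) (fun _ _ => by simp)
    (fun _ _ _ _ => Finset.prod_nonneg fun _ _ => Fej_nonneg _ _ _)
    (fun A _ _ _ l _ => by
      refine (row_le M R J (fun j => P *ᵥ Ξ j) _).trans ?_
      simp only [Fintype.card_fin]
      have h0 : (0 : ℝ) ≤ 2 ^ n * (R : ℝ) ^ k := by positivity
      nlinarith)
    (fun A _ Z _ => by
      rw [Finset.sum_singleton, Finset.prod_comm, ← Finset.prod_mul_prod_compl J]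
      refine mul_le_mul ?_ (le_of_eq (Finset.prod_congr rfl fun l hl => Finset.prod_congr rfl
        fun j _ => ?_)) (Finset.prod_nonneg fun _ _ => Finset.prod_nonneg fun _ _ =>
          Fej_nonneg _ _ _) (by positivity)
      · rw [← Finset.prod_const]
        refine Finset.prod_le_prod (fun _ _ => Finset.prod_nonneg fun _ _ => Fej_nonneg _ _ _)
          fun l _ => ?_
        refine (Finset.prod_le_prod (fun _ _ => Fej_nonneg _ _ _)
          fun j _ => Fej_le M R _).trans_eq ?_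
        rw [Finset.prod_const, card_univ, Fintype.card_fin]
      · have hl' := Finset.mem_compl.1 hl
        congr 1
        rw [← mulVec_mulVec, add_comm]
        refine (Finset.sum_add_sum_compl J _).symm.trans ?_
        congr 1
        · exact Finset.sum_congr rfl fun i hi => by simp [rs, hl', hi]
        · exact Finset.sum_congr rfl fun i hi => by simp [rs, hl', Finset.mem_compl.1 hi])
  refine h.trans (mul_le_mul_of_nonneg_right ?_ (Nat.cast_nonneg _))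
  have e : Jᶜ.card + J.card = n := by simp [Finset.card_compl_add_card]
  have e2 : k * (n + J.card) = 2 * k * J.card + k * Jᶜ.card := by
    generalize Jᶜ.card = a at e
    generalize J.card = b at e
    rw [← e]
    ring
  rw [e2, pow_add, Nat.cast_one, mul_one, mul_pow, ← pow_mul, ← pow_mul, ← pow_mul, mul_left_comm,
    mul_assoc 2]
  gcongr
  · norm_num
  · omega

end Vale.Agent.P160
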