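import Vale.Agent.P160.Gram

/-!
P160 task Elim. Keep the statements unchanged; add lemmas freely (start them with `elim_`).

For a column `l ∉ U₀` (junk set `U₀`): `Ψ (inl a) l = (if a = l then 2 else 0) - w l a`, `Ψ (inr a) l = q w l a - (A u l) a`, `W a l = u l a`;
for `l ∈ U₀`: `Ψ (inl a) l = if a = l then 2 else 0`, the rest zero. Work over `ℚ` (or `ℝ`): choose `r` maximal such that some
`f : Fin r → Fin n` keeps `[(0;U), (Ψ A) f]` independent (`r ≤ 2n`); maximality puts a nonzero multiple of each column of `Ψ A` in the column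
span, and `det A • z = A (adj A z)` handles every `z`. Dimension: all columns lie in the kernel of the integer matrix with the
`(n - |U₀|) + g₀` independent rows `y a = 0 (a ∉ U₀)`, `B₀ᵀ z = 0`; putting these as extra columns gives an independent family in
dimension `2n` (orthogonal blocks), so `v + r + (n - |U₀|) + g₀ ≤ 2n` by `card_le_of_hg`.
-/

set_option linter.unusedSectionVars false
set_option linter.unusedVariables false

namespace Vale.Agent.P160

open Finset Matrix Filter

section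
variable {ι κ μ : Type} [Fintype ι] [DecidableEq ι] [Fintype κ] [DecidableEq κ] [Fintype μ]
  [DecidableEq μ]

theorem elim_orth {M : Matrix ι κ ℤ} {N : Matrix ι μ ℤ} (hM : hg M ≠ 0) (hN : hg N ≠ 0)
    (h : Nᵀ * M = 0) : Fintype.card κ + Fintype.card μ ≤ Fintype.card ι := by
  rw [← Fintype.card_sum]
  refine card_le_of_hg (U := fromCols M N) (hg_ne_zero_iff.2 fun z hz => ?_)
  rw [fromCols_mulVec] at hz
  have h1 := congrArg (Nᵀ *ᵥ ·) hz
  simp only [mulVec_add, mulVec_mulVec, h, zero_mulVec, zero_add, mulVec_zero] at h1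
  have h2 := eq_zero_of_mulVec_eq_zero hN h1
  rw [h2, mulVec_zero, add_zero] at hz
  have h3 := hg_ne_zero_iff.1 hM _ hz
  funext a
  cases a with
  | inl a => exact congrFun h3 a
  | inr a => exact congrFun h2 a

/-- Vectors with a nonzero multiple in the column span. -/
def elim_sat (M : Matrix ι κ ℤ) : Submodule ℤ (ι → ℤ) where
  carrier := {x | ∃ c : ℤ, c ≠ 0 ∧ ∃ e, c • x = M *ᵥ e}
  zero_mem' := ⟨1, one_ne_zero, 0, by simp⟩
  add_mem' := by
    rintro a b ⟨c, hc, e, he⟩ ⟨d, hd, f, hf⟩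
    refine ⟨c * d, mul_ne_zero hc hd, d • e + c • f, ?_⟩
    rw [mulVec_add, mulVec_smul, mulVec_smul, ← he, ← hf, smul_add, smul_smul, smul_smul,
      mul_comm d c]
  smul_mem' := by
    rintro a x ⟨c, hc, e, he⟩
    exact ⟨c, hc, a • e, by rw [mulVec_smul, ← he, smul_comm]⟩

theorem elim_max {M : Matrix ι κ ℤ} (hM : hg M ≠ 0) (B : Matrix ι μ ℤ) :
    ∃ (r : ℕ) (f : Fin r → μ), hg (fromCols M (B.submatrix id f)) ≠ 0 ∧
      ∀ y, B *ᵥ y ∈ elim_sat (fromCols M (B.submatrix id f)) := by
  obtain ⟨r, ⟨f, hf⟩, hr⟩ : ∃ r, (∃ f : Fin r → μ, hg (fromCols M (B.submatrix id f)) ≠ 0) ∧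
      ¬∃ f : Fin (r + 1) → μ, hg (fromCols M (B.submatrix id f)) ≠ 0 := by
    by_contra h
    have h1 : ∀ r, ∃ f : Fin r → μ, hg (fromCols M (B.submatrix id f)) ≠ 0 := fun r => by
      induction r with
      | zero =>
        refine ⟨Fin.elim0, hg_ne_zero_iff.2 fun z hz => ?_⟩
        rw [fromCols_mulVec, Subsingleton.elim (z ∘ Sum.inr) 0, mulVec_zero, add_zero] at hz
        funext a
        cases a with
        | inl a => exact congrFun (hg_ne_zero_iff.1 hM _ hz) a
        | inr a => exact a.elim0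
      | succ r ih => exact by_contra fun h2 => h ⟨r, ih, h2⟩
    obtain ⟨f, hf⟩ := h1 (Fintype.card ι + 1)
    have := card_le_of_hg hf
    simp only [Fintype.card_sum, Fintype.card_fin] at this
    omega
  refine ⟨r, f, hf, fun y => ?_⟩
  rw [mulVec_eq_sum]
  refine Submodule.sum_mem _ fun k _ => ?_
  rw [op_smul_eq_smul]
  refine Submodule.smul_mem _ _ ?_
  by_contra hk
  refine hr ⟨Fin.cons k f, hg_ne_zero_iff.2 fun z hz => ?_⟩
  have h1 : fromCols M (B.submatrix id (Fin.cons k f : Fin (r + 1) → μ)) *ᵥ z =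
      z (.inr 0) • Bᵀ k + fromCols M (B.submatrix id f) *ᵥ
        Sum.elim (z ∘ .inl) fun i => z (.inr i.succ) := by
    funext a
    simp [mulVec, dotProduct, Fin.sum_univ_succ]
    ring
  rw [h1] at hz
  have h2 : z (.inr 0) = 0 := by_contra fun h =>
    hk ⟨_, h, _, (eq_neg_of_add_eq_zero_left hz).trans (mulVec_neg _ _).symm⟩
  rw [h2, zero_smul, zero_add] at hz
  have h3 := hg_ne_zero_iff.1 hf _ hz
  funext a
  cases a with
  | inl a => exact congrFun h3 (.inl a)
  | inr a => exact Fin.cases h2 (fun i => congrFun h3 (.inr i)) a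

end

theorem elim {n g v j Q h : ℕ} {A : ZM n} (hA : A ∈ SS n) (hd : A.det ≠ 0)
    {P : Matrix (Fin n) (Fin g) ℤ} (hR : Rep A P Q h) {U : Matrix (Fin n) (Fin v) ℤ} (hU : hg U ≠ 0)
    (hN : Near P U j) :
    ∃ (q r : ℕ) (Ψ : Matrix (Fin n ⊕ Fin n) (Fin n) ℤ) (W : ZM n) (f : Fin r → Fin n),
      r ≤ h + j ∧ Elim A U Q q Ψ W f := by
  obtain ⟨U₀, q, w, u, hU₀, hq1, hqQ, H⟩ := hR
  obtain ⟨g₀, B₀, hB, hBU, hBP, hn⟩ := hN
  obtain ⟨Ψ, hΨ1, hΨ2⟩ : ∃ Ψ : Matrix (Fin n ⊕ Fin n) (Fin n) ℤ,
      (∀ a l, Ψ (.inl a) l = (if a = l then 2 else 0) - if l ∈ U₀ then 0 else w l a) ∧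
      ∀ a l, Ψ (.inr a) l = if l ∈ U₀ then 0 else ((q : ℤ) • w l - A *ᵥ u l) a :=
    ⟨fromRows (of fun a l => (if a = l then 2 else 0) - if l ∈ U₀ then 0 else w l a)
      (of fun a l => if l ∈ U₀ then 0 else ((q : ℤ) • w l - A *ᵥ u l) a), fun _ _ => rfl,
      fun _ _ => rfl⟩
  have hM : hg (fromRows (0 : Matrix (Fin n) (Fin v) ℤ) U) ≠ 0 := hg_ne_zero_iff.2 fun z hz =>
    hg_ne_zero_iff.1 hU z (funext fun a => congrFun hz (.inr a))
  obtain ⟨r, f, hf, hs⟩ := elim_max hM (Ψ * A)
  have hQ : (1 : ℤ) ≤ Q := by exact_mod_cast hq1.trans hqQ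
  have hqQ' : (q : ℤ) ≤ Q := by exact_mod_cast hqQ
  have hn0 : (0 : ℤ) ≤ n * Q := by positivity
  refine ⟨q, r, Ψ, of fun a l => if l ∈ U₀ then 0 else u l a, f, ?_, hq1, hqQ, ?_, ?_, ?_, hf,
    fun z => ?_⟩
  · have hN : hg (fromBlocks ((1 : ZM n).submatrix id (Subtype.val : {a // a ∉ U₀} → Fin n))
        0 0 B₀) ≠ 0 := hg_ne_zero_iff.2 fun z hz => by
      rw [fromBlocks_mulVec, zero_mulVec, zero_mulVec, add_zero, zero_add] at hz
      funext a
      cases a with
      | inl a => simpa [mulVec, dotProduct, one_apply, Subtype.val_inj] using congrFun hz (.inl a)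
      | inr a => exact congrFun (hg_ne_zero_iff.1 hB _ (funext fun b => congrFun hz (.inr b))) a
    have h0 : (fromBlocks ((1 : ZM n).submatrix id (Subtype.val : {a // a ∉ U₀} → Fin n))
        0 0 B₀)ᵀ * Ψ = 0 := by
      ext a l
      cases a with
      | inl a =>
        refine Eq.trans (b := Ψ (.inl a) l) (by simp [mul_apply, one_apply]) ?_
        rw [hΨ1, Matrix.zero_apply]
        by_cases hl : l ∈ U₀
        · rw [if_pos hl, if_neg (fun h => a.2 (by rwa [h])), sub_zero]
        · rw [if_neg hl, (H l hl).1 a a.2, sub_self]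
      | inr a =>
        simp only [mul_apply, Fintype.sum_sum_type, transpose_apply, fromBlocks_apply₁₂,
          fromBlocks_apply₂₂, Matrix.zero_apply, zero_mul, sum_const_zero, zero_add, hΨ2]
        by_cases hl : l ∈ U₀
        · simp [hl]
        · simp only [if_neg hl]
          exact congrFun (hBP _ (H l hl).2.2.2) a
    have h1 := elim_orth hf hN (by
      rw [mul_fromCols, ← fromCols_zero]
      congr 1
      · rw [fromBlocks_transpose, fromBlocks_mul_fromRows, hBU]
        simp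
      · rw [← submatrix_id_id (fromBlocks _ _ _ _)ᵀ, ← submatrix_mul _ _ _ _ _ Function.bijective_id,
          ← Matrix.mul_assoc, h0, Matrix.zero_mul, submatrix_zero]
        rfl)
    have h2 := card_le_univ U₀
    simp only [Fintype.card_sum, Fintype.card_fin, Fintype.card_subtype_compl, Fintype.card_coe]
      at h1 h2
    omega
  · intro a l
    cases a with
    | inl a =>
      refine le_trans (b := 2) ?_ (by linarith)
      rw [hΨ1]
      by_cases hl : l ∈ U₀
      · rw [if_pos hl]; split_ifs <;> simp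
      · rw [if_neg hl]
        split_ifs with h
        · rw [h, (H l hl).1 l hl]; simp
        · simpa using (H l hl).2.1 a
    | inr a =>
      rw [hΨ2]
      split_ifs with hl
      · rw [abs_zero]; positivity
      · obtain ⟨-, h1, h2, -⟩ := H l hl
        have h3 : |(A *ᵥ u l) a| ≤ n * Q := by
          refine (abs_sum_le_sum_abs (fun b => A a b * u l b) univ).trans
            ((sum_le_card_nsmul _ _ (Q : ℤ) fun b _ => ?_).trans (by simp))
          rcases (mem_SS.1 hA).1 a b with h | h <;> simpa [h] using h2 b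
        have h4 : |(q : ℤ) * w l a| ≤ Q * 2 := by
          rw [abs_mul, Nat.abs_cast]
          exact mul_le_mul hqQ' (h1 a) (abs_nonneg _) (by linarith)
        exact (abs_sub _ _).trans (by linarith [show |((q : ℤ) • w l) a| ≤ Q * 2 from h4])
  · intro a l
    rw [of_apply]
    split_ifs with hl
    · simp
    · exact (H l hl).2.2.1 a
  · rw [← fromRows_toRows Ψ, fromCols_mul_fromRows, Matrix.smul_mul, Matrix.one_mul,
      Matrix.one_mul]
    ext a l
    simp only [Matrix.add_apply, Matrix.smul_apply, Matrix.sub_apply, toRows₁_apply, toRows₂_apply,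
      hΨ1, hΨ2, mul_apply, of_apply, one_apply, smul_eq_mul]
    by_cases hl : l ∈ U₀
    · simp [hl, mul_comm]
    · simp only [if_neg hl, Pi.sub_apply, Pi.smul_apply, smul_eq_mul, mulVec, dotProduct]
      split_ifs <;> ring
  · obtain ⟨c, hc, e, he⟩ := hs (adjugate A *ᵥ z)
    refine ⟨c * A.det, mul_ne_zero hc hd, e, ?_⟩
    rw [← he, mulVec_mulVec, Matrix.mul_assoc, mul_adjugate, Matrix.mul_smul, Matrix.mul_one,
      smul_mulVec, smul_smul]

end Vale.Agent.P160
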