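import Vale.Agent.P160.Basic

/-!
P160 task Fej. Keep the statements unchanged; add lemmas freely (start them with `fej_`).

Finite Fourier analysis. `sum_ch`: geometric sum. Products over coordinates: `Finset.prod_univ_sum` on `Fintype.piFinset`.
`‖w‖² = w * conj w`, `conj (ch t) = ch (-t)`. `row_le`: expand with `prod_Fej` (index `κ`), swap sums, `sum_ch_sign`; the diagonal pairs give
`R^card κ`; every `θ = a - a' ≠ 0` lies in `Bs κ R` and arises from at most `R^card κ` pairs.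
`abs_cs_le`: write `t / M = m + x` with `|x| ≤ 1/2` (`round`), `|cos (π (m + x))| = cos (π x) ≤ 1 - 2x²`
(`Real.cos_quadratic_upper_bound` or `Real.cos_le_one_sub_mul_cos_sq`), `|x| ≥ u`.
-/

set_option linter.unusedSectionVars false
set_option linter.unusedVariables false

namespace Vale.Agent.P160

open Finset Matrix Filter

variable {ι κ : Type} [Fintype ι] [DecidableEq ι] [Fintype κ] [DecidableEq κ]

theorem fej_ch_eq (M : ℕ) (t : ℤ) :
    ch M t = Complex.exp (((2 * Real.pi * (t : ℝ) / (M : ℝ) : ℝ) : ℂ) * Complex.I) := by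
  unfold ch
  congr 1
  push_cast
  ring

theorem ch_add (M : ℕ) (s t : ℤ) : ch M (s + t) = ch M s * ch M t := by
  unfold ch
  rw [← Complex.exp_add]
  congr 1
  push_cast
  ring

theorem ch_zero (M : ℕ) : ch M 0 = 1 := by
  simp [ch]

theorem norm_ch (M : ℕ) (t : ℤ) : ‖ch M t‖ = 1 := by
  rw [fej_ch_eq, Complex.norm_exp_ofReal_mul_I]

theorem ch_sum {α : Type} (M : ℕ) (s : Finset α) (t : α → ℤ) :
    ch M (∑ i ∈ s, t i) = ∏ i ∈ s, ch M (t i) := by
  classical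
  induction s using Finset.induction_on with
  | empty => simp [ch_zero]
  | insert a s ha ih => rw [sum_insert ha, prod_insert ha, ch_add, ih]

theorem ch_two_mul (M : ℕ) (t : ℤ) : ch (2 * M) (2 * t) = ch M t := by
  unfold ch
  congr 1
  push_cast
  rw [mul_left_comm _ 2 (t : ℂ), mul_div_mul_left _ _ two_ne_zero]

theorem Fej_two_mul (M R : ℕ) (t : ℤ) : Fej (2 * M) R (2 * t) = Fej M R t := by
  simp only [Fej, mul_left_comm _ 2 t, ch_two_mul]

theorem fej_pow (M : ℕ) (c : ℤ) (a : ℕ) : ch M (c * a) = ch M c ^ a := by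
  induction a with
  | zero => simp [ch_zero]
  | succ a ih => rw [Nat.cast_succ, mul_add, ch_add, ih, mul_one, pow_succ]

theorem fej_eq_one {M : ℕ} (hM : 0 < M) (c : ℤ) : ch M c = 1 ↔ (M : ℤ) ∣ c := by
  have h1 : (M : ℂ) ≠ 0 := by exact_mod_cast hM.ne'
  have h2 := Complex.two_pi_I_ne_zero
  rw [ch, Complex.exp_eq_one_iff]
  refine exists_congr fun n => ?_
  rw [div_eq_iff h1, mul_comm (n : ℂ), mul_assoc _ (n : ℂ), mul_right_inj' h2, mul_comm]
  norm_cast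

theorem fej_Ico {α : Type} [AddCommMonoid α] (M : ℕ) (f : ℤ → α) :
    ∑ s ∈ Finset.Ico (0 : ℤ) M, f s = ∑ a ∈ range M, f a := by
  induction M with
  | zero => simp
  | succ M ih =>
    rw [sum_range_succ, ← ih, Nat.cast_succ, ← insert_Ico_right_eq_Ico_add_one (by omega),
      sum_insert (by simp), add_comm]

theorem fej_conj (M : ℕ) (t : ℤ) : (starRingEnd ℂ) (ch M t) = ch M (-t) := by
  rw [fej_ch_eq, fej_ch_eq, ← Complex.exp_conj, map_mul, Complex.conj_ofReal, Complex.conj_I]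
  congr 1
  push_cast
  ring

theorem fej_normsq {α : Type} (M : ℕ) (S : Finset α) (f : α → ℤ) :
    ((‖∑ p ∈ S, ch M (f p)‖ ^ 2 : ℝ) : ℂ) = ∑ p ∈ S ×ˢ S, ch M (f p.1 - f p.2) := by
  rw [Complex.ofReal_pow, ← Complex.mul_conj', map_sum, sum_mul_sum, sum_product]
  simp only [fej_conj, sub_eq_add_neg, ch_add]

theorem fej_cs (M : ℕ) (t : ℤ) : ch M t + ch M (-t) = 2 * (cs M t : ℂ) := by
  rw [← fej_conj, Complex.add_conj, fej_ch_eq, Complex.exp_ofReal_mul_I_re, cs]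
  push_cast
  rfl

theorem sum_ch {M : ℕ} (hM : 0 < M) (c : ℤ) :
    ∑ s ∈ Finset.Ico (0 : ℤ) M, ch M (c * s) = if (M : ℤ) ∣ c then (M : ℂ) else 0 := by
  rw [fej_Ico M fun s => ch M (c * s)]
  simp only [fej_pow]
  split_ifs with h
  · simp [(fej_eq_one hM c).2 h]
  · rw [geom_sum_eq (fun e => h ((fej_eq_one hM c).1 e)), ← fej_pow,
      (fej_eq_one hM _).2 (dvd_mul_left _ _), sub_self, zero_div]

theorem sum_ch_pi {M : ℕ} (hM : 0 < M) (c : ι → ℤ) :
    ∑ s ∈ Bx ι M, ch M (c ⬝ᵥ s) =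
      if ∀ i, (M : ℤ) ∣ c i then (M : ℂ) ^ Fintype.card ι else 0 := by
  simp only [dotProduct, ch_sum]
  rw [Bx, ← prod_univ_sum (fun _ : ι => Finset.Ico (0 : ℤ) M) fun i s => ch M (c i * s)]
  simp only [sum_ch hM, Fintype.prod_ite_zero, prod_const, card_univ]

theorem card_Bx (R : ℕ) : (Bx ι R).card = R ^ Fintype.card ι := by
  simp [Bx]

theorem card_Bs_le (R : ℕ) : (Bs ι R).card ≤ (2 * R) ^ Fintype.card ι := by
  rw [Bs, Fintype.card_piFinset, prod_const, card_univ, Int.card_Ioo]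
  exact Nat.pow_le_pow_left (by omega) _

theorem Fej_nonneg (M R : ℕ) (t : ℤ) : 0 ≤ Fej M R t := by
  exact sq_nonneg _

theorem Fej_le (M R : ℕ) (t : ℤ) : Fej M R t ≤ (R : ℝ) ^ 2 := by
  refine pow_le_pow_left₀ (norm_nonneg _) ((norm_sum_le _ _).trans ?_) 2
  simp [norm_ch]

theorem prod_Fej (M R : ℕ) (t : ι → ℤ) :
    ((∏ i, Fej M R (t i) : ℝ) : ℂ) = ∑ p ∈ Bx ι R ×ˢ Bx ι R, ch M ((p.1 - p.2) ⬝ᵥ t) := by
  have h := fej_normsq M (Bx ι R) fun s => s ⬝ᵥ t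
  simp only [← sub_dotProduct] at h
  rw [← h]
  congr 1
  simp only [dotProduct, ch_sum]
  rw [Bx, ← prod_univ_sum (fun _ : ι => Finset.Ico (0 : ℤ) R) fun i s => ch M (s * t i),
    norm_prod, ← prod_pow]
  exact prod_congr rfl fun i _ => by rw [fej_Ico R fun s => ch M (s * t i), Fej]

theorem sum_ch_sign (M : ℕ) (J : Finset ι) (t : ι → ℤ) :
    ∑ σ ∈ Sg ι, ch M (∑ i ∈ J, σ i * t i) = 2 ^ Fintype.card ι * ∏ i ∈ J, (cs M (t i) : ℂ) := by
  have e : ∀ σ : ι → ℤ, ∑ i ∈ J, σ i * t i = ∑ i, σ i * res J t i := fun σ => by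
    simp [res]
  simp only [e, ch_sum]
  rw [Sg, ← prod_univ_sum (fun _ : ι => ({1, -1} : Finset ℤ)) fun i s => ch M (s * res J t i)]
  have e2 : ∀ i, ∑ s ∈ ({1, -1} : Finset ℤ), ch M (s * res J t i) =
      2 * if i ∈ J then (cs M (t i) : ℂ) else 1 := fun i => by
    rw [sum_pair (by decide), one_mul, neg_one_mul, fej_cs, res]
    split_ifs
    · rfl
    · simp [cs]
  simp only [e2, prod_mul_distrib, prod_const, card_univ, prod_ite_mem, univ_inter]

theorem prod_cs_sq (M : ℕ) (J : Finset ι) (t : ι → ℤ) :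
    (4 : ℂ) ^ Fintype.card ι * ((∏ i ∈ J, cs M (t i) ^ 2 : ℝ) : ℂ) =
      ∑ p ∈ Sg ι ×ˢ Sg ι, ch M (res J (p.1 - p.2) ⬝ᵥ t) := by
  have h := fej_normsq M (Sg ι) fun σ => ∑ i ∈ J, σ i * t i
  have e : ∀ p : (ι → ℤ) × (ι → ℤ), res J (p.1 - p.2) ⬝ᵥ t =
      ∑ i ∈ J, p.1 i * t i - ∑ i ∈ J, p.2 i * t i := fun p => by
    simp [res, dotProduct, sub_mul]
  simp only [e]
  rw [← h, sum_ch_sign, norm_mul, mul_pow, norm_prod, ← prod_pow, norm_pow, ← pow_mul,
    mul_comm _ 2, pow_mul]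
  simp only [Complex.norm_real, Real.norm_eq_abs, sq_abs, Complex.norm_ofNat]
  push_cast
  norm_num

theorem fej_pairs (R : ℕ) (F : (κ → ℤ) → ℝ) (hF : ∀ θ, 0 ≤ F θ) :
    ∑ p ∈ Bx κ R ×ˢ Bx κ R, F (p.1 - p.2) ≤
      (R : ℝ) ^ Fintype.card κ * (F 0 + ∑ θ ∈ (Bs κ R).erase 0, F θ) := by
  rw [sum_product_right]
  refine (sum_le_card_nsmul _ _ (F 0 + ∑ θ ∈ (Bs κ R).erase 0, F θ) fun b hb => ?_).trans
    (by rw [card_Bx, nsmul_eq_mul, Nat.cast_pow])
  rw [← sum_insert (notMem_erase _ _),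
    ← sum_image (s := Bx κ R) (g := fun a => a - b) fun _ _ _ _ h => sub_left_injective h]
  refine sum_le_sum_of_subset_of_nonneg (fun θ hθ => ?_) fun θ _ _ => hF θ
  obtain ⟨a, ha, rfl⟩ := mem_image.1 hθ
  refine insert_erase_subset _ _ (mem_Bs.2 fun i => ?_)
  have h1 := mem_Bx.1 ha i
  have h2 := mem_Bx.1 hb i
  rw [Pi.sub_apply, abs_lt]
  omega

theorem row_le (M R : ℕ) (J : Finset ι) (ζ : κ → ι → ℤ) (sh : κ → ℤ) :
    ∑ σ ∈ Sg ι, ∏ j, Fej M R (sh j + ∑ i ∈ J, σ i * ζ j i) ≤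
      2 ^ Fintype.card ι * (R : ℝ) ^ Fintype.card κ *
        (1 + ∑ θ ∈ (Bs κ R).erase 0, ∏ i ∈ J, |cs M (∑ j, θ j * ζ j i)|) := by
  have e : ((∑ σ ∈ Sg ι, ∏ j, Fej M R (sh j + ∑ i ∈ J, σ i * ζ j i) : ℝ) : ℂ) =
      ∑ p ∈ Bx κ R ×ˢ Bx κ R, ch M ((p.1 - p.2) ⬝ᵥ sh) * (2 ^ Fintype.card ι *
        ∏ i ∈ J, (cs M (∑ j, (p.1 - p.2) j * ζ j i) : ℂ)) := by
    rw [Complex.ofReal_sum]
    simp only [prod_Fej M R fun j => sh j + ∑ i ∈ J, _ * ζ j i]
    rw [sum_comm]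
    refine sum_congr rfl fun p _ => ?_
    rw [← sum_ch_sign, mul_sum]
    refine sum_congr rfl fun σ _ => ?_
    rw [← ch_add]
    congr 1
    simp only [dotProduct, mul_add, sum_add_distrib, mul_sum]
    rw [sum_comm]
    simp only [mul_left_comm]
  refine (le_abs_self _).trans ?_
  rw [← Real.norm_eq_abs, ← Complex.norm_real, e]
  refine (norm_sum_le _ _).trans ?_
  simp only [norm_mul, norm_ch, one_mul, norm_prod, norm_pow, Complex.norm_ofNat,
    Complex.norm_real, Real.norm_eq_abs]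
  rw [← mul_sum, mul_assoc]
  refine mul_le_mul_of_nonneg_left ?_ (by positivity)
  refine (fej_pairs R (fun θ => ∏ i ∈ J, |cs M (∑ j, θ j * ζ j i)|)
    fun θ => prod_nonneg fun _ _ => abs_nonneg _).trans (le_of_eq ?_)
  simp [cs]

theorem abs_cs_le {M : ℕ} (hM : 0 < M) {t : ℤ} {u : ℝ} (hu : 0 ≤ u)
    (h : ∀ m : ℤ, u * M ≤ |(t : ℝ) - m * M|) : |cs (2 * M) t| ≤ Real.exp (-2 * u ^ 2) := by
  have hM' : (0 : ℝ) < M := by exact_mod_cast hM
  obtain ⟨x, hx⟩ : ∃ x, x = (t : ℝ) / M - round ((t : ℝ) / M) := ⟨_, rfl⟩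
  have h1 : |x| ≤ 1 / 2 := hx ▸ abs_sub_round _
  have h2 : u ≤ |x| := by
    have h3 := h (round ((t : ℝ) / M))
    have e : (t : ℝ) - round ((t : ℝ) / M) * M = x * M := by rw [hx]; field_simp
    rw [e, abs_mul, abs_of_pos hM'] at h3
    exact le_of_mul_le_mul_right h3 hM'
  have e : cs (2 * M) t = Real.cos (Real.pi * x + round ((t : ℝ) / M) * Real.pi) := by
    rw [cs, hx]
    congr 1
    push_cast
    field_simp
    ring
  have hpi := Real.pi_pos
  have h3 : |Real.pi * x| ≤ Real.pi / 2 := by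
    rw [abs_mul, abs_of_pos hpi]
    nlinarith
  have h4 := Real.cos_le_one_sub_mul_cos_sq (x := Real.pi * x) (by linarith)
  have e2 : 2 / Real.pi ^ 2 * (Real.pi * x) ^ 2 = 2 * x ^ 2 := by field_simp
  rw [e, Real.cos_add_int_mul_pi, abs_mul, abs_neg_one_zpow, one_mul,
    abs_of_nonneg (Real.cos_nonneg_of_mem_Icc (abs_le.1 h3))]
  have h5 := Real.add_one_le_exp (-2 * u ^ 2)
  have h6 : u ^ 2 ≤ x ^ 2 := by
    rw [← sq_abs x]
    exact pow_le_pow_left₀ hu h2 2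
  linarith

open Classical in
/-- Number of pairs in a box with prescribed short difference. -/
theorem pairs_ge {ρ : ℕ} {w : ι → ℤ} (hw : w ∈ Bs ι ρ) :
    ρ ^ Fintype.card ι ≤ ((Bx ι (2 * ρ) ×ˢ Bx ι (2 * ρ)).filter fun p => p.1 - p.2 = w).card := by
  rw [← card_Bx]
  refine card_le_card_of_injOn
    (fun a => (fun i => a i + max (w i) 0, fun i => a i + max (-w i) 0)) (fun a ha => ?_)
    fun a _ b _ h => funext fun i => add_right_cancel (congrFun (congrArg Prod.fst h) i)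
  have h1 := mem_Bx.1 ha
  have h2 := mem_Bs.1 hw
  simp only [abs_lt] at h2
  refine mem_filter.2 ⟨mem_product.2 ⟨mem_Bx.2 fun i => ?_, mem_Bx.2 fun i => ?_⟩,
    funext fun i => ?_⟩
  all_goals
    have h3 := h1 i
    have h4 := h2 i
    simp only [Pi.sub_apply]
    omega

end Vale.Agent.P160
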