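import Vale.Agent.P160.WMain
import Vale.Agent.P160.Comb

/-!
P160 task Fibre. Keep the statements unchanged; add lemmas freely (start them with `fibre_`).

`sums`: for `c : S₀ → Fin (N+1)` and `a : Fin N` take `σ a i = -1` if `i ∈ S₀` and `a < c i`, else `1`, and `x a ∈ X` agreeing with `σ a` on `S₀`;
the sum has `i`-th entry `N - 2 c i`, so `c ↦ sum` is injective.
`coset`: `G = gr T B` is `Stab` (`stab_of_ge`, `Stab.gr`), `hn` with `τ = 8N²`, `U = B P`; write `c = [P Y] e`, the second block `b` of `e`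
has `qf ((4/τ) • sch) (iv b) ≤ n` (`qf_sch_le`, `qf_gr`); `wrm` bounds the number of values of `b` by `exp (8n)`; pigeonhole
(`Finset.exists_le_card_fiber_of_mul_le_card_of_maps_to` or `card_le_mul_card_image`). If `Y` is empty take `Y' = ∅`.
`fibre`: `α` from `bin (ε/2) 4`, `natarajan` with `A = {1,-1}`, `d = ⌊α n⌋ + 1` (the pair is `{1,-1}` in some order, so `X` realises all sign
patterns on `S₀`); `N ≥ exp (9/α)`; `√qf T` is subadditive (`qf_add_le`); `|Y'| ≥ exp n > 2^n`; `natarajan` again with `A = Icc (-N) N` and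
`e` from `bin 1 ((2N+1)²)`; `y₀` any member of `Y'`.
-/

set_option linter.unusedSectionVars false
set_option linter.unusedVariables false

namespace Vale.Agent.P160

open Finset Matrix Filter

theorem fibre_sum {N k : ℕ} (h : k ≤ N) :
    ∑ a : Fin N, (if (a : ℕ) < k then (-1 : ℤ) else 1) = N - 2 * k := by
  have h1 : ∀ a : Fin N, (if (a : ℕ) < k then (-1 : ℤ) else 1) =
      1 - 2 * if (a : ℕ) < k then 1 else 0 := fun a => by split_ifs <;> norm_num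
  simp only [h1, sum_sub_distrib, ← mul_sum, sum_boole, Fin.card_filter_val_lt, min_eq_right h]
  simp

theorem fibre_qf_smul {ι : Type} [Fintype ι] [DecidableEq ι] (c : ℝ) (G : Matrix ι ι ℝ)
    (x : ι → ℝ) : qf (c • G) x = c * qf G x := by
  simp only [qf, smul_mulVec, dotProduct_smul, smul_eq_mul]

theorem fibre_sqrt {ι κ : Type} [Fintype ι] [DecidableEq ι] {G : Matrix ι ι ℝ}
    (hG : G.PosSemidef) (s : Finset κ) (x : κ → ι → ℤ) :
    √(qf G (iv (∑ a ∈ s, x a))) ≤ ∑ a ∈ s, √(qf G (iv (x a))) := by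
  classical
  induction s using Finset.induction_on with
  | empty =>
    have h : iv (0 : ι → ℤ) = 0 := by funext i; simp [iv]
    simp [h, qf]
  | insert a s ha ih =>
    have h : iv (x a + ∑ a ∈ s, x a) = iv (x a) + iv (∑ a ∈ s, x a) := by funext i; simp [iv]
    rw [sum_insert ha, sum_insert ha, h]
    exact (qf_add_le hG _ _).trans (add_le_add le_rfl ih)

theorem fibre_nat {n : ℕ} {A : Finset ℤ} {Y : Finset (Fin n → ℤ)} (hY : ∀ y ∈ Y, ∀ i, y i ∈ A)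
    {K : ℕ} (hK : A.card ^ 2 = K) {α t : ℝ} (hα : 0 < α)
    (h : ∀ m d : ℕ, (d : ℝ) ≤ α * m →
      ∑ j ∈ range (d + 1), (m.choose j : ℝ) * (K : ℝ) ^ j ≤ (2 : ℝ) ^ (t * m))
    (hc : (2 : ℝ) ^ (t * n) < Y.card) :
    ∃ (S : Finset (Fin n)) (a b : Fin n → ℤ), α * n ≤ S.card ∧
      (∀ i ∈ S, a i ≠ b i ∧ a i ∈ A ∧ b i ∈ A) ∧
      ∀ σ ∈ Sg (Fin n), ∃ y ∈ Y, ∀ i ∈ S, y i = if σ i = 1 then a i else b i := by
  have h1 := (h n ⌊α * n⌋₊ (Nat.floor_le (by positivity))).trans_lt hc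
  obtain ⟨S, a, b, h2, h3, h4⟩ := natarajan Y hY (d := ⌊α * n⌋₊ + 1) (by
    rw [hK, Fintype.card_fin]
    exact_mod_cast h1)
  refine ⟨S, a, b, ?_, h3, h4⟩
  rw [h2]
  push_cast
  exact (Nat.lt_floor_add_one _).le

theorem sums {n : ℕ} {X : Finset (Fin n → ℤ)} {S₀ : Finset (Fin n)}
    (h : ∀ σ ∈ Sg (Fin n), ∃ x ∈ X, ∀ i ∈ S₀, x i = σ i) (N : ℕ) :
    ∃ Y : Finset (Fin n → ℤ), Y.card = (N + 1) ^ S₀.card ∧
      ∀ y ∈ Y, ∃ x : Fin N → Fin n → ℤ, (∀ a, x a ∈ X) ∧ y = ∑ a, x a := by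
  classical
  choose! f hf hf' using h
  let σ : (S₀ → Fin (N + 1)) → Fin N → Fin n → ℤ := fun c a i =>
    if h : i ∈ S₀ then (if (a : ℕ) < c ⟨i, h⟩ then -1 else 1) else 1
  have hσ : ∀ c a, σ c a ∈ Sg (Fin n) := fun c a => mem_Sg.2 fun i => by
    simp only [σ]
    split_ifs <;> simp
  have hv : ∀ c (i : S₀), (∑ a, f (σ c a)) i = N - 2 * ((c i : ℕ) : ℤ) := fun c i => by
    rw [← fibre_sum (Nat.le_of_lt_succ (c i).2), Finset.sum_apply]
    refine sum_congr rfl fun a _ => ?_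
    rw [hf' _ (hσ c a) i i.2]
    exact dif_pos i.2
  refine ⟨univ.image fun c => ∑ a, f (σ c a), ?_, fun y hy => ?_⟩
  · rw [card_image_of_injective _ fun c c' e => funext fun i => Fin.ext ?_]
    · simp
    · have h1 := hv c i
      rw [show ∑ a, f (σ c a) = ∑ a, f (σ c' a) from e, hv c' i] at h1
      omega
  · obtain ⟨c, -, rfl⟩ := mem_image.1 hy
    exact ⟨_, fun a => hf _ (hσ c a), rfl⟩

theorem coset {n N : ℕ} (hN : 1 ≤ N) {B : ZM n} (hB : B.det ≠ 0) {T : Matrix (Fin n) (Fin n) ℝ}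
    (hT : T.PosDef) (hge : ∀ x, qf 1 x ≤ qf T x) (Y : Finset (Fin n → ℤ))
    (hY : ∀ y ∈ Y, (∃ c, y = B *ᵥ c) ∧ qf T (iv y) ≤ 2 * (N : ℝ) ^ 2 * n) :
    ∃ (v : ℕ) (U : Matrix (Fin n) (Fin v) ℤ) (Y' : Finset (Fin n → ℤ)), hg U ≠ 0 ∧
      (∃ Z : Matrix (Fin n) (Fin v) ℤ, U = B * Z) ∧ (gr T U).det ≤ 4 * (8 * (N : ℝ) ^ 2) ^ n ∧
      Y' ⊆ Y ∧ (Y.card : ℝ) ≤ Real.exp (8 * n) * Y'.card ∧
      ∀ y ∈ Y', ∀ y' ∈ Y', ∃ c, y - y' = U *ᵥ c := by
  classical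
  have hN' : (1 : ℝ) ≤ N := by exact_mod_cast hN
  have hτ : 1 ≤ 8 * (N : ℝ) ^ 2 := by nlinarith
  have hB' : hg B ≠ 0 := by
    rw [hg, det_mul, det_transpose]
    exact mul_ne_zero hB hB
  have hG := gr_posDef hT hB'
  obtain ⟨a, b, P, Y₁, hU, hP, hd, hS⟩ := hn hG ((stab_of_ge hT hge).gr hB') hτ
  have hab := hU.card_eq
  rw [Fintype.card_sum, Fintype.card_fin, Fintype.card_fin, Fintype.card_fin] at hab
  have hH := gr_posDef hG hU.hg_ne
  obtain ⟨Q, hQ, -⟩ := hU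
  choose! c hc using fun y hy => (hY y hy).1
  have he : ∀ y ∈ Y, y = (B * fromCols P Y₁) *ᵥ (Q *ᵥ c y) := fun y hy => by
    rw [mulVec_mulVec, Matrix.mul_assoc, hQ, Matrix.mul_one]
    exact hc y hy
  let β : (Fin n → ℤ) → Fin b → ℤ := fun y => (Q *ᵥ c y) ∘ Sum.inr
  have h1 : ((Y.image β).card : ℝ) ≤ Real.exp (8 * n) := by
    refine (wrm ((sch_posDef hH).smul (by positivity)) hS _ (r := n) fun z hz => ?_).trans
      (Real.exp_le_exp.2 ?_)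
    · obtain ⟨y, hy, rfl⟩ := mem_image.1 hz
      have h2 := qf_sch_le hH.posSemidef (toBlocks₁₁_posDef hH) (iv (Q *ᵥ c y) ∘ Sum.inl) (iv (β y))
      have h3 : Sum.elim (iv (Q *ᵥ c y) ∘ Sum.inl) (iv (β y)) = iv (Q *ᵥ c y) := by
        funext i
        cases i <;> rfl
      rw [h3, gr_gr, qf_gr, ← iv_mulVec, ← he y hy, ← gr_gr] at h2
      rw [fibre_qf_smul, div_mul_eq_mul_div, div_le_iff₀ (by positivity)]
      linarith [(hY y hy).2]
    · have h2 : (b : ℝ) ≤ n := by exact_mod_cast (by omega : b ≤ n)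
      have h3 := mul_le_mul_of_nonneg_right Real.pi_le_four (Nat.cast_nonneg n)
      rw [Fintype.card_fin]
      linarith
  obtain ⟨Y', h2, h3, h4⟩ : ∃ Y' ⊆ Y, Y.card ≤ Y'.card * (Y.image β).card ∧
      ∀ y ∈ Y', ∀ y' ∈ Y', β y = β y' := by
    rcases Y.eq_empty_or_nonempty with rfl | hne
    · exact ⟨∅, Subset.rfl, by simp, by simp⟩
    obtain ⟨z, -, hz⟩ := exists_max_image (Y.image β) (fun z => #{y ∈ Y | β y = z}) (hne.image β)
    exact ⟨_, filter_subset _ _, card_le_mul_card_image Y _ hz, fun y hy y' hy' =>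
      (mem_filter.1 hy).2.trans (mem_filter.1 hy').2.symm⟩
  refine ⟨a, B * P, Y', hg_ne_zero_iff.2 fun z hz => ?_, ⟨P, rfl⟩, ?_, h2, ?_,
    fun y hy y' hy' => ⟨(Q *ᵥ c y) ∘ Sum.inl - (Q *ᵥ c y') ∘ Sum.inl, ?_⟩⟩
  · rw [← mulVec_mulVec] at hz
    exact hg_ne_zero_iff.1 hP z (hg_ne_zero_iff.1 hB' _ hz)
  · rw [← gr_gr]
    exact hd.trans (mul_le_mul_of_nonneg_left (pow_le_pow_right₀ hτ (by omega)) (by norm_num))
  · have h5 : (Y.card : ℝ) ≤ Y'.card * (Y.image β).card := by exact_mod_cast h3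
    rw [mul_comm]
    exact h5.trans (mul_le_mul_of_nonneg_left h1 (Nat.cast_nonneg _))
  · have h5 := he y (h2 hy)
    have h6 := he y' (h2 hy')
    have h7 : (Q *ᵥ c y) ∘ Sum.inr = (Q *ᵥ c y') ∘ Sum.inr := h4 y hy y' hy'
    rw [← mulVec_mulVec, fromCols_mulVec, mulVec_add] at h5 h6
    rw [h7] at h5
    rw [mulVec_sub, ← mulVec_mulVec, ← mulVec_mulVec]
    exact (congrArg₂ (· - ·) h5 h6).trans (add_sub_add_right_eq_sub _ _ _)

theorem fibre {ε : ℝ} (hε : 0 < ε) : ∃ (N : ℕ) (e : ℝ), 1 ≤ N ∧ 0 < e ∧ ∀ᶠ n : ℕ in atTop,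
    ∀ (B : ZM n) (T : Matrix (Fin n) (Fin n) ℝ) (X : Finset (Fin n → ℤ)), Rich ε B T X →
      ∃ (v : ℕ) (U : Matrix (Fin n) (Fin v) ℤ) (S : Finset (Fin n)) (a b : Fin n → ℤ)
        (y : (Fin n → ℤ) → Fin n → ℤ) (y₀ : Fin n → ℤ), hg U ≠ 0 ∧
        (∃ Z : Matrix (Fin n) (Fin v) ℤ, U = B * Z) ∧ (gr T U).det ≤ 4 * (8 * (N : ℝ) ^ 2) ^ n ∧
        e * n ≤ S.card ∧ Cube N U S a b y y₀ := by
  obtain ⟨α, hα, h1⟩ := bin (half_pos hε) 4
  obtain ⟨N, hN⟩ : ∃ N : ℕ, Real.exp (9 / α) ≤ N := exists_nat_ge _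
  have hN1 : 1 ≤ N := by
    exact_mod_cast (Real.one_le_exp (by positivity : 0 ≤ 9 / α)).trans hN
  obtain ⟨e, he, h2⟩ := bin one_pos ((2 * N + 1) ^ 2)
  refine ⟨N, e, hN1, he, ?_⟩
  filter_upwards [eventually_ge_atTop 1] with n hn B T X hR
  have hn' : (0 : ℝ) < n := by exact_mod_cast hn
  obtain ⟨S₀, a₀, b₀, s1, s2, s3⟩ := fibre_nat (A := {1, -1}) (Y := X)
    (fun y hy i => by simpa using mem_Sg.1 (hR.sg hy) i) (K := 4) rfl hα h1
    ((Real.rpow_lt_rpow_of_exponent_lt one_lt_two (by nlinarith)).trans_le hR.card)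
  obtain ⟨Y, y1, y2⟩ := sums (X := X) (S₀ := S₀) (fun σ hσ => by
    obtain ⟨x, hx, hx'⟩ := s3 (fun i => if σ i = a₀ i then 1 else -1)
      (mem_Sg.2 fun i => by split_ifs <;> simp)
    refine ⟨x, hx, fun i hi => ?_⟩
    obtain ⟨t1, t2, t3⟩ := s2 i hi
    have t4 := mem_Sg.1 hσ i
    rw [mem_insert, mem_singleton] at t2 t3
    rw [hx' i hi]
    by_cases t5 : σ i = a₀ i
    · simp only [t5, if_true]
    · rw [if_neg t5, if_neg (by norm_num)]
      omega) N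
  have y3 : ∀ y ∈ Y, ∀ i, |y i| ≤ N := fun y hy i => by
    obtain ⟨x, hx, rfl⟩ := y2 y hy
    rw [Finset.sum_apply]
    refine (abs_sum_le_sum_abs _ _).trans ((sum_le_card_nsmul _ _ 1 fun a _ => ?_).trans (by simp))
    rcases mem_Sg.1 (hR.sg (hx a)) i with h | h <;> simp [h]
  obtain ⟨v, U, Y', u1, u2, u3, u4, u5, u6⟩ := coset hN1 hR.det hR.pd hR.ge Y fun y hy => by
    obtain ⟨x, hx, rfl⟩ := y2 y hy
    choose c hc using fun a => hR.mem _ (hx a)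
    refine ⟨⟨∑ a, c a, by rw [mulVec_sum]; exact sum_congr rfl fun a _ => hc a⟩, ?_⟩
    have t1 := (fibre_sqrt hR.pd.posSemidef univ x).trans
      (sum_le_card_nsmul _ _ _ fun a _ => Real.sqrt_le_sqrt (hR.short _ (hx a)))
    rw [Real.sqrt_le_left (by positivity), card_univ, Fintype.card_fin, nsmul_eq_mul, mul_pow,
      Real.sq_sqrt (by positivity)] at t1
    linarith
  have c1 : Real.exp (9 * n) ≤ Y.card := by
    rw [y1]
    push_cast
    refine le_trans ?_ (pow_le_pow_left₀ (Real.exp_pos _).le (hN.trans (le_add_of_nonneg_right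
      zero_le_one)) _)
    rw [← Real.exp_nat_mul, Real.exp_le_exp, mul_div_assoc', le_div_iff₀ hα]
    linarith
  have c2 : (2 : ℝ) ^ ((1 : ℝ) * n) < Y'.card := by
    have t1 := c1.trans u5
    rw [show (9 : ℝ) * n = 8 * n + n by ring, Real.exp_add,
      mul_le_mul_iff_right₀ (Real.exp_pos _)] at t1
    refine lt_of_lt_of_le ?_ t1
    rw [one_mul, ← Real.exp_one_rpow]
    exact Real.rpow_lt_rpow zero_le_two Real.exp_one_gt_two hn'
  obtain ⟨S, a, b, s4, s5, s6⟩ := fibre_nat (A := Icc (-(N : ℤ)) N) (Y := Y')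
    (fun y hy i => mem_Icc.2 (abs_le.1 (y3 y (u4 hy) i))) (K := (2 * N + 1) ^ 2)
    (by rw [Int.card_Icc]; congr 1; omega) he h2 c2
  choose! y s7 s8 using s6
  obtain ⟨y₀, hy₀⟩ : Y'.Nonempty := card_pos.1 (by
    exact_mod_cast (Real.rpow_pos_of_pos two_pos _).trans c2)
  exact ⟨v, U, S, a, b, y, y₀, u1, u2, u3, s4, fun i hi => (s5 i hi).1,
    fun i hi => abs_le.2 (mem_Icc.1 (s5 i hi).2.1), fun i hi => abs_le.2 (mem_Icc.1 (s5 i hi).2.2),
    s8, fun σ hσ => y3 _ (u4 (s7 σ hσ)), y3 _ (u4 hy₀), fun σ hσ => u6 _ (s7 σ hσ) _ hy₀⟩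

end Vale.Agent.P160
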