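import Vale.Agent.P160.Defs
import Vale.Agent.P160.Resample

/-!
P160 task Lower. Keep the statements unchanged; add lemmas freely (start them with `lower_`).

`q_eq`: `s ↦` the integer matrix with entries `if · then 1 else -1` is a bijection from `Upper n` onto `SS n`, and `symMat s` is its image under
the cast (`Int.cast_det` or `RingHom.map_det`). `lower`: write `n = m + 2`; the map `A ↦ A'`, where `A'` is obtained by replacing index `1` by
index `0` (`A' i j = A (t i) (t j)`, `t 1 = 0`, `t i = i` otherwise), sends `SS n` to singular members of `SS n` (`Matrix.det_zero_of_row_eq`), and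
`A ↦ (A', row 1 of A)` is injective into the product with `Sg (Fin n)`. `limit_of_bounds`: squeeze, `Real.rpow_natCast`, `tendsto_order`.
-/

set_option linter.unusedSectionVars false
set_option linter.unusedVariables false

namespace Vale.Agent.P160

open Finset Matrix Filter

/-- The integer matrix of a sign choice. -/
def lowerZ {n : ℕ} (s : Upper n) : ZM n :=
  Matrix.of fun i j =>
    if h : i ≤ j then (if s ⟨(i, j), h⟩ then 1 else -1)
    else (if s ⟨(j, i), (le_total i j).resolve_left h⟩ then 1 else -1)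

theorem lower_cast {n : ℕ} (s : Upper n) : symMat s = (lowerZ s).map (Int.cast : ℤ → ℝ) := by
  ext i j
  simp only [symMat, lowerZ, sgn, Matrix.of_apply, Matrix.map_apply]
  split_ifs <;> simp

theorem lower_det {n : ℕ} (s : Upper n) : (symMat s).det = 0 ↔ (lowerZ s).det = 0 := by
  rw [lower_cast, ← Int.cast_det, Int.cast_eq_zero]

theorem lower_mem {n : ℕ} (s : Upper n) : lowerZ s ∈ SS n := by
  refine mem_SS.2 ⟨fun i j => ?_, fun i j => ?_⟩
  · simp only [lowerZ, Matrix.of_apply]
    split_ifs <;> simp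
  · simp only [lowerZ, Matrix.of_apply]
    rcases lt_trichotomy i j with h | rfl | h
    · rw [dif_pos h.le, dif_neg (not_le.2 h)]
    · rfl
    · rw [dif_neg (not_le.2 h), dif_pos h.le]

theorem lower_inj {n : ℕ} {s s' : Upper n} (h : lowerZ s = lowerZ s') : s = s' := by
  funext p
  obtain ⟨⟨i, j⟩, hp⟩ := p
  have h1 := congrFun (congrFun h i) j
  have hp' : i ≤ j := hp
  simp only [lowerZ, Matrix.of_apply, dif_pos hp'] at h1
  revert h1
  cases s ⟨(i, j), hp⟩ <;> cases s' ⟨(i, j), hp⟩ <;> simp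

theorem lower_surj {n : ℕ} {A : ZM n} (hA : A ∈ SS n) : ∃ s, lowerZ s = A := by
  obtain ⟨h1, h2⟩ := mem_SS.1 hA
  refine ⟨fun p => decide (A p.1.1 p.1.2 = 1), ?_⟩
  ext i j
  simp only [lowerZ, Matrix.of_apply, decide_eq_true_eq, h2 j i, dite_eq_ite, ite_self]
  rcases h1 i j with h | h <;> simp [h]

open Classical in
theorem lower_card {n : ℕ} (E : ZM n → Prop) :
    Nat.card {s : Upper n // E (lowerZ s)} = ((SS n).filter E).card := by
  rw [Nat.card_eq_fintype_card, Fintype.card_subtype]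
  refine Finset.card_bij (fun s _ => lowerZ s) (fun s hs => ?_) (fun s _ s' _ h => lower_inj h)
    fun A hA => ?_
  · exact mem_filter.2 ⟨lower_mem s, (mem_filter.1 hs).2⟩
  · obtain ⟨s, rfl⟩ := lower_surj (mem_filter.1 hA).1
    exact ⟨s, mem_filter.2 ⟨mem_univ _, (mem_filter.1 hA).2⟩, rfl⟩

theorem q_eq (n : ℕ) : q n = pr n fun A => A.det = 0 := by
  classical
  have h1 : Nat.card (Upper n) = (SS n).card := by
    rw [Nat.card_eq_fintype_card, ← Finset.card_univ]
    refine Finset.card_bij (fun s _ => lowerZ s) (fun s _ => lower_mem s)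
      (fun s _ s' _ h => lower_inj h) fun A hA => ?_
    obtain ⟨s, rfl⟩ := lower_surj hA
    exact ⟨s, mem_univ _, rfl⟩
  unfold q pr
  simp only [lower_det]
  rw [h1, lower_card fun A => A.det = 0]

open Classical in
theorem lower_count {n : ℕ} {a b : Fin n} (hab : a ≠ b) :
    (SS n).card ≤ ((SS n).filter fun A => A.det = 0).card * 2 ^ n := by
  set t : Fin n → Fin n := fun i => if i = b then a else i with ht
  have h1 : (SS n).card ≤ (((SS n).filter fun A => A.det = 0) ×ˢ Sg (Fin n)).card := by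
    refine Finset.card_le_card_of_injOn (fun A : ZM n => (A.submatrix t t, A b)) ?_ ?_
    · intro A hA
      obtain ⟨h1, h2⟩ := mem_SS.1 hA
      refine mem_coe.2 (mem_product.2 ⟨mem_filter.2 ⟨mem_SS.2 ⟨fun i j => h1 _ _,
        fun i j => h2 _ _⟩, ?_⟩, mem_Sg.2 fun i => h1 _ _⟩)
      refine Matrix.det_zero_of_row_eq hab ?_
      funext j
      simp [ht, hab]
    · intro A hA A' hA' h
      have e1 : A.submatrix t t = A'.submatrix t t := congrArg Prod.fst h
      have e2 : A b = A' b := congrArg Prod.snd h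
      ext i j
      by_cases hi : i = b
      · rw [hi, e2]
      · by_cases hj : j = b
        · rw [(mem_SS.1 hA).2 i j, (mem_SS.1 hA').2 i j, hj, e2]
        · have := congrFun (congrFun e1 i) j
          simpa [ht, hi, hj] using this
  rwa [card_product, card_Sg, Fintype.card_fin] at h1

theorem lower {n : ℕ} (hn : 2 ≤ n) : (1 / 2 : ℝ) ^ n ≤ pr n fun A => A.det = 0 := by
  have hab : (⟨0, by omega⟩ : Fin n) ≠ ⟨1, by omega⟩ := by simp
  have h1 := lower_count hab
  have h2 : (0 : ℝ) < (SS n).card := by exact_mod_cast card_SS_pos n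
  unfold pr
  rw [le_div_iff₀ h2, one_div, inv_pow, inv_mul_le_iff₀ (by positivity), mul_comm]
  exact_mod_cast h1

theorem limit_of_bounds {a : ℕ → ℝ} (hl : ∀ᶠ n in atTop, (1 / 2 : ℝ) ^ n ≤ a n)
    (hu : ∀ ε > (0 : ℝ), ∀ᶠ n : ℕ in atTop, a n ≤ (2 : ℝ) ^ (-(1 - ε) * n)) :
    Tendsto (fun n : ℕ => a n ^ ((1 : ℝ) / n)) atTop (nhds (1 / 2)) := by
  refine tendsto_order.2 ⟨fun b hb => ?_, fun b hb => ?_⟩
  · filter_upwards [hl, eventually_gt_atTop 0] with n h1 h2
    refine hb.trans_le ?_
    have h3 := Real.rpow_le_rpow (by positivity) h1 (by positivity : (0 : ℝ) ≤ 1 / n)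
    rwa [one_div (n : ℝ), Real.pow_rpow_inv_natCast (by norm_num) h2.ne', ← one_div (n : ℝ)] at h3
  · have hc : Continuous fun ε : ℝ => (2 : ℝ) ^ (-(1 - ε)) :=
      continuous_const.rpow (by fun_prop) fun _ => Or.inl two_ne_zero
    have h0 : (2 : ℝ) ^ (-(1 - (0 : ℝ))) < b := by
      rw [sub_zero, Real.rpow_neg_one, ← one_div]
      exact hb
    have h1 : ∀ᶠ ε in nhdsWithin (0 : ℝ) (Set.Ioi 0), (2 : ℝ) ^ (-(1 - ε)) < b :=
      ((hc.tendsto 0).eventually (gt_mem_nhds h0)).filter_mono nhdsWithin_le_nhds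
    obtain ⟨ε, h2, h3⟩ := (h1.and self_mem_nhdsWithin).exists
    filter_upwards [hl, hu ε h3, eventually_gt_atTop 0] with n h4 h5 h6
    refine lt_of_le_of_lt ?_ h2
    have h7 := Real.rpow_le_rpow (le_trans (by positivity) h4) h5 (by positivity : (0 : ℝ) ≤ 1 / n)
    have h8 : (n : ℝ) ≠ 0 := by exact_mod_cast h6.ne'
    rwa [← Real.rpow_mul (by norm_num), mul_assoc, mul_one_div_cancel h8, mul_one] at h7

end Vale.Agent.P160
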