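import Vale.Agent.P160.Upper
import Vale.Agent.P160.Lower

/-!
P160 task Final. Keep the statements unchanged; add lemmas freely (start them with `final_`).

Assembly.
-/

set_option linter.unusedSectionVars false
set_option linter.unusedVariables false

namespace Vale.Agent.P160

open Finset Matrix Filter

theorem main : Tendsto (fun n : ℕ => q n ^ ((1 : ℝ) / n)) atTop (nhds (1 / 2)) := by
  refine limit_of_bounds ?_ fun ε hε => ?_
  · filter_upwards [eventually_ge_atTop 2] with n hn
    rw [q_eq]
    exact lower hn
  · filter_upwards [upper hε] with n hn
    rw [q_eq]
    exact hn

end Vale.Agent.P160
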