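import Vale.Agent.P160.Basic

/-!
P160 task Gram. Keep the statements unchanged; add lemmas freely (start them with `gram_`).

Linear algebra of positive forms. `det_mono`: if `G'` is singular take a kernel vector `x`, then `qf G x = 0`
so `G x = 0` and `det G = 0`; otherwise write `G' = Bᵀ B` (or use `Matrix.PosDef` square root), `H = B⁻ᵀ G B⁻¹` is
positive semidefinite with `qf H x ≤ |x|²`, so all eigenvalues lie in `[0,1]` (`IsHermitian.det_eq_prod_eigenvalues`).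
`det_le_pow`: eigenvalues, trace and AM-GM. Schur complement: `Matrix.det_fromBlocks₁₁`, `Matrix.fromBlocks_toBlocks`,
expand `qf` on `Sum.elim a b` (`Matrix.fromBlocks_mulVec`, `sumElim_dotProduct_sumElim`).
`fischer`: if the first block is singular then so is `G` (kernel vector `(a,0)`), else Schur and `det_mono`.
-/

set_option linter.unusedSectionVars false
set_option linter.unusedVariables false

namespace Vale.Agent.P160

open Finset Matrix MeasureTheory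

variable {ι κ : Type} [Fintype ι] [DecidableEq ι] [Fintype κ] [DecidableEq κ]

theorem gram_qf_conj (T : Matrix ι ι ℝ) (A : Matrix ι κ ℝ) (c : κ → ℝ) :
    qf (Aᵀ * T * A) c = qf T (A *ᵥ c) := by
  simp only [qf, ← mulVec_mulVec]
  rw [dotProduct_mulVec, vecMul_transpose]

theorem gram_qf_single (T : Matrix ι ι ℝ) (i : ι) : qf T (Pi.single i 1) = T i i := by
  simp [qf]

theorem gram_card_eq {Z : Matrix ι κ ℤ} (hZ : Uni Z) : Fintype.card κ = Fintype.card ι := by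
  obtain ⟨Q, h1, h2⟩ := hZ
  have h := trace_mul_comm Q Z
  rw [h1, h2, trace_one, trace_one] at h
  exact_mod_cast h

theorem gram_reindex {μ : Type} [Fintype μ] [DecidableEq μ] (T : Matrix ι ι ℝ) (U : Matrix ι κ ℤ)
    (e : μ ≃ κ) : (gr T (U.submatrix id e)).det = (gr T U).det := by
  rw [← det_submatrix_equiv_self e (gr T U)]
  rfl

theorem gram_det_ne {R : Type} [CommRing R] [LinearOrder R] [IsStrictOrderedRing R]
    (U : Matrix ι κ R) : (Uᵀ * U).det ≠ 0 ↔ ∀ z : κ → R, U *ᵥ z = 0 → z = 0 := by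
  rw [Ne, ← exists_mulVec_eq_zero_iff, not_exists]
  refine forall_congr' fun z => ?_
  have h : (Uᵀ * U) *ᵥ z = 0 ↔ U *ᵥ z = 0 := by
    refine ⟨fun h => ?_, fun h => by rw [← mulVec_mulVec, h, mulVec_zero]⟩
    rw [← dotProduct_self_eq_zero, dotProduct_mulVec, ← mulVec_transpose, mulVec_mulVec, h,
      zero_dotProduct]
  rw [h]
  tauto

theorem qf_gr {μ : Type} [Fintype μ] [DecidableEq μ] (T : Matrix ι ι ℝ) (U : Matrix ι μ ℤ) (c : μ → ℝ) :
    qf (gr T U) c = qf T (rm U *ᵥ c) := by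
  exact gram_qf_conj T (rm U) c

theorem iv_mulVec (U : Matrix ι κ ℤ) (c : κ → ℤ) : iv (U *ᵥ c) = rm U *ᵥ iv c := by
  ext i
  simp [iv, rm, mulVec, dotProduct]

theorem rm_mul {μ : Type} [Fintype μ] [DecidableEq μ] (U : Matrix ι κ ℤ) (Z : Matrix κ μ ℤ) :
    rm (U * Z) = rm U * rm Z := by
  ext i j
  simp [rm, mul_apply]

theorem gr_gr {μ : Type} [Fintype μ] [DecidableEq μ] (T : Matrix ι ι ℝ) (U : Matrix ι κ ℤ)
    (Z : Matrix κ μ ℤ) : gr (gr T U) Z = gr T (U * Z) := by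
  simp only [gr, rm_mul, transpose_mul, Matrix.mul_assoc]

theorem gr_smul (c : ℝ) (T : Matrix ι ι ℝ) (U : Matrix ι κ ℤ) : gr (c • T) U = c • gr T U := by
  simp only [gr, Matrix.mul_smul, Matrix.smul_mul]

theorem det_gr_one (U : Matrix ι κ ℤ) : (gr 1 U).det = (hg U : ℝ) := by
  have h : gr 1 U = (Uᵀ * U).map (Int.castRingHom ℝ) := by
    ext i j
    simp [gr, rm, mul_apply]
  rw [h, hg]
  exact ((Int.castRingHom ℝ).map_det _).symm

theorem det_gr_sq (T : Matrix ι ι ℝ) (Z : Matrix ι ι ℤ) :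
    (gr T Z).det = (Z.det : ℝ) ^ 2 * T.det := by
  have h : (rm Z).det = (Z.det : ℝ) := ((Int.castRingHom ℝ).map_det Z).symm
  rw [gr, det_mul, det_mul, det_transpose, h]
  ring

theorem det_gr_uni {T : Matrix ι ι ℝ} {Z : Matrix ι κ ℤ} (hZ : Uni Z) : (gr T Z).det = T.det := by
  obtain ⟨e⟩ := Fintype.card_eq.1 (gram_card_eq hZ).symm
  obtain ⟨Q, h1, -⟩ := hZ
  have h2 : Z.submatrix id e * Q.submatrix e id = 1 := by
    rw [submatrix_mul_equiv, h1, submatrix_id_id]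
  have h3 := congrArg det h2
  rw [det_mul, det_one] at h3
  have h4 : (Z.submatrix id e).det ^ 2 = 1 := by
    rcases Int.eq_one_or_neg_one_of_mul_eq_one h3 with h | h <;> rw [h] <;> norm_num
  rw [← gram_reindex T Z e, det_gr_sq, ← Int.cast_pow, h4, Int.cast_one, one_mul]

theorem qf_one (x : ι → ℝ) : qf 1 x = ∑ i, x i ^ 2 := by
  simp [qf, dotProduct, sq]

theorem posDef_iff {G : Matrix ι ι ℝ} : G.PosDef ↔ Gᵀ = G ∧ ∀ x, x ≠ 0 → 0 < qf G x := by
  rw [posDef_iff_dotProduct_mulVec, IsHermitian, conjTranspose_eq_transpose_of_trivial]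
  simp only [star_trivial, qf]

theorem posSemidef_iff {G : Matrix ι ι ℝ} : G.PosSemidef ↔ Gᵀ = G ∧ ∀ x, 0 ≤ qf G x := by
  rw [posSemidef_iff_dotProduct_mulVec, IsHermitian, conjTranspose_eq_transpose_of_trivial]
  simp only [star_trivial, qf]

theorem gram_psd {T : Matrix ι ι ℝ} (hT : T.PosSemidef) (U : Matrix ι κ ℤ) :
    (gr T U).PosSemidef := by
  have := hT.conjTranspose_mul_mul_same (rm U)
  rwa [conjTranspose_eq_transpose_of_trivial] at this

theorem gram_expand {G : Matrix ι ι ℝ} (hG : Gᵀ = G) (t : ℝ) (x y : ι → ℝ) :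
    qf G (t • x + y) = qf G x * (t * t) + 2 * (x ⬝ᵥ G *ᵥ y) * t + qf G y := by
  have h : y ⬝ᵥ G *ᵥ x = x ⬝ᵥ G *ᵥ y := by
    rw [dotProduct_mulVec, ← mulVec_transpose, hG, dotProduct_comm]
  simp only [qf, mulVec_add, mulVec_smul, add_dotProduct, dotProduct_add, smul_dotProduct,
    dotProduct_smul, smul_eq_mul, h]
  ring

theorem gram_cs {G : Matrix ι ι ℝ} (hG : G.PosSemidef) (x y : ι → ℝ) :
    (x ⬝ᵥ G *ᵥ y) ^ 2 ≤ qf G x * qf G y := by
  have h := discrim_le_zero (a := qf G x) (b := 2 * (x ⬝ᵥ G *ᵥ y)) (c := qf G y) fun t => by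
    rw [← gram_expand (posSemidef_iff.1 hG).1]
    exact (posSemidef_iff.1 hG).2 _
  rw [discrim] at h
  nlinarith

theorem gram_upper (G : Matrix ι ι ℝ) : ∃ C > 0, ∀ x, qf G x ≤ C * qf 1 x := by
  refine ⟨∑ i, ∑ j, |G i j| + 1, by positivity, fun x => ?_⟩
  rw [qf_one]
  have h0 : 0 ≤ ∑ i, x i ^ 2 := by positivity
  have h1 : ∀ i, x i ^ 2 ≤ ∑ i, x i ^ 2 := fun i =>
    single_le_sum (f := fun i => x i ^ 2) (fun j _ => sq_nonneg _) (mem_univ i)
  have h2 : qf G x ≤ (∑ i, ∑ j, |G i j|) * ∑ i, x i ^ 2 := by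
    simp only [qf, dotProduct, mulVec]
    rw [Finset.sum_mul]
    refine sum_le_sum fun i _ => ?_
    rw [Finset.sum_mul, Finset.mul_sum]
    refine sum_le_sum fun j _ => ?_
    have h3 : |x i * x j| ≤ ∑ i, x i ^ 2 := by
      rw [abs_le]
      constructor <;> nlinarith [h1 i, h1 j, sq_nonneg (x i + x j), sq_nonneg (x i - x j)]
    calc x i * (G i j * x j) = G i j * (x i * x j) := by ring
      _ ≤ |G i j| * |x i * x j| := by rw [← abs_mul]; exact le_abs_self _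
      _ ≤ _ := mul_le_mul_of_nonneg_left h3 (abs_nonneg _)
  linarith

/-- A positive definite form is comparable with the Euclidean one. -/
theorem exists_qf_bounds {G : Matrix ι ι ℝ} (hG : G.PosDef) :
    ∃ c > 0, ∃ C > 0, ∀ x, c * qf 1 x ≤ qf G x ∧ qf G x ≤ C * qf 1 x := by
  obtain ⟨C, hC, h1⟩ := gram_upper G
  obtain ⟨D, hD, h2⟩ := gram_upper G⁻¹
  refine ⟨D⁻¹, inv_pos.2 hD, C, hC, fun x => ⟨?_, h1 x⟩⟩
  have hu : IsUnit G.det := (isUnit_iff_isUnit_det G).1 hG.isUnit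
  have h3 := gram_cs hG.posSemidef x (G⁻¹ *ᵥ x)
  have h4 : qf G (G⁻¹ *ᵥ x) = qf G⁻¹ x := by
    rw [qf, qf, mulVec_mulVec, mul_nonsing_inv _ hu, one_mulVec, dotProduct_comm]
  have h5 : x ⬝ᵥ G *ᵥ G⁻¹ *ᵥ x = qf 1 x := by
    rw [qf, mulVec_mulVec, mul_nonsing_inv _ hu]
  rw [h4, h5] at h3
  have h6 : 0 ≤ qf 1 x := by rw [qf_one]; positivity
  have h7 := (posSemidef_iff.1 hG.posSemidef).2 x
  rw [inv_mul_le_iff₀ hD]
  rcases h6.eq_or_lt with h | h
  · rw [← h]; positivity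
  · have := mul_le_mul_of_nonneg_left (h2 x) h7
    nlinarith

theorem qf_add_le {G : Matrix ι ι ℝ} (hG : G.PosSemidef) (x y : ι → ℝ) :
    √(qf G (x + y)) ≤ √(qf G x) + √(qf G y) := by
  have hx := (posSemidef_iff.1 hG).2 x
  have hy := (posSemidef_iff.1 hG).2 y
  have h1 : x ⬝ᵥ G *ᵥ y ≤ √(qf G x) * √(qf G y) := by
    rw [← Real.sqrt_mul hx]
    exact (le_abs_self _).trans (Real.abs_le_sqrt (gram_cs hG x y))
  refine Real.sqrt_le_iff.2 ⟨by positivity, ?_⟩
  rw [add_sq, Real.sq_sqrt hx, Real.sq_sqrt hy]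
  have := gram_expand (posSemidef_iff.1 hG).1 1 x y
  rw [one_smul] at this
  rw [this]
  linarith

theorem hg_nonneg (U : Matrix ι κ ℤ) : 0 ≤ hg U := by
  have h := (gram_psd PosSemidef.one U).det_nonneg
  rw [det_gr_one] at h
  exact_mod_cast h

theorem one_le_hg {U : Matrix ι κ ℤ} (h : hg U ≠ 0) : 1 ≤ hg U := by
  have := hg_nonneg U
  omega

theorem hg_ne_zero_iff {U : Matrix ι κ ℤ} : hg U ≠ 0 ↔ ∀ z : κ → ℤ, U *ᵥ z = 0 → z = 0 := by
  exact gram_det_ne U

theorem hg_ne_zero_iff_real {U : Matrix ι κ ℤ} :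
    hg U ≠ 0 ↔ ∀ z : κ → ℝ, rm U *ᵥ z = 0 → z = 0 := by
  rw [← gram_det_ne (rm U), ← Int.cast_ne_zero (α := ℝ), ← det_gr_one, gr, Matrix.mul_one]

theorem card_le_of_hg {U : Matrix ι κ ℤ} (h : hg U ≠ 0) : Fintype.card κ ≤ Fintype.card ι := by
  have h1 : Function.Injective (rm U).mulVecLin :=
    (injective_iff_map_eq_zero _).2 (hg_ne_zero_iff_real.1 h)
  simpa using LinearMap.finrank_le_finrank_of_injective h1

theorem hg_reindex {μ : Type} [Fintype μ] [DecidableEq μ] (U : Matrix ι κ ℤ) (e : μ ≃ κ) :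
    hg (U.submatrix id e) = hg U := by
  have h := gram_reindex 1 U e
  rw [det_gr_one, det_gr_one] at h
  exact_mod_cast h

theorem det_gr_reindex {μ : Type} [Fintype μ] [DecidableEq μ] (T : Matrix ι ι ℝ) (U : Matrix ι κ ℤ)
    (e : μ ≃ κ) : (gr T (U.submatrix id e)).det = (gr T U).det := by
  exact gram_reindex T U e

theorem gr_posSemidef {T : Matrix ι ι ℝ} (hT : T.PosSemidef) (U : Matrix ι κ ℤ) :
    (gr T U).PosSemidef := by
  exact gram_psd hT U

theorem gr_posDef {T : Matrix ι ι ℝ} (hT : T.PosDef) {U : Matrix ι κ ℤ} (h : hg U ≠ 0) :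
    (gr T U).PosDef := by
  refine posDef_iff.2 ⟨(posSemidef_iff.1 (gram_psd hT.posSemidef U)).1, fun x hx => ?_⟩
  rw [qf_gr]
  exact (posDef_iff.1 hT).2 _ fun h0 => hx (hg_ne_zero_iff_real.1 h x h0)

theorem Uni.hg_ne {Z : Matrix ι κ ℤ} (hZ : Uni Z) : hg Z ≠ 0 := by
  obtain ⟨Q, -, h2⟩ := hZ
  refine hg_ne_zero_iff.2 fun z hz => ?_
  rw [← one_mulVec z, ← h2, ← mulVec_mulVec, hz, mulVec_zero]

theorem Uni.card_eq {Z : Matrix ι κ ℤ} (hZ : Uni Z) : Fintype.card κ = Fintype.card ι := by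
  exact gram_card_eq hZ

open scoped MatrixOrder in
theorem gram_sqrt {G : Matrix ι ι ℝ} (hG : G.PosSemidef) : ∃ B : Matrix ι ι ℝ, G = Bᵀ * B := by
  obtain ⟨B, hB⟩ := CStarAlgebra.nonneg_iff_eq_star_mul_self.mp hG.nonneg
  exact ⟨B, by rw [hB, star_eq_conjTranspose, conjTranspose_eq_transpose_of_trivial]⟩

theorem gram_det_le {G : Matrix ι ι ℝ} (hG : G.PosSemidef) {l : ℝ} (h : ∀ i, G i i ≤ l) :
    G.det ≤ l ^ Fintype.card ι := by
  have h1 : G.det = ∏ i, hG.1.eigenvalues i := hG.1.det_eq_prod_eigenvalues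
  have h2 : ∑ i, G i i = ∑ i, hG.1.eigenvalues i := hG.1.trace_eq_sum_eigenvalues
  have h3 := hG.eigenvalues_nonneg
  have h4 : ∑ i, hG.1.eigenvalues i ≤ Fintype.card ι * l := by
    rw [← h2]
    simpa using sum_le_card_nsmul univ (fun i => G i i) l fun i _ => h i
  rw [h1]
  generalize hG.1.eigenvalues = v at *
  rcases isEmpty_or_nonempty ι with he | ⟨⟨i⟩⟩
  · simp
  rcases (hG.diag_nonneg.trans (h i)).eq_or_lt with rfl | hl
  · have h5 := single_le_sum (f := v) (fun j _ => h3 j) (mem_univ i)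
    rw [prod_eq_zero (mem_univ i) (by linarith [h3 i])]
    positivity
  · have h5 : ∏ i, v i / l ≤ ∏ i, Real.exp (v i / l - 1) :=
      prod_le_prod (fun j _ => div_nonneg (h3 j) hl.le) fun j _ => by
        linarith [Real.add_one_le_exp (v j / l - 1)]
    rw [← Real.exp_sum, prod_div_distrib, sum_sub_distrib, ← sum_div, prod_const, sum_const,
      card_univ, nsmul_eq_mul, mul_one, div_le_iff₀ (by positivity)] at h5
    have h6 : Real.exp ((∑ i, v i) / l - Fintype.card ι) ≤ 1 :=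
      Real.exp_le_one_iff.2 (by rw [sub_nonpos, div_le_iff₀ hl]; exact h4)
    exact h5.trans (mul_le_of_le_one_left (by positivity) h6)

theorem det_mono {G G' : Matrix ι ι ℝ} (hG : G.PosSemidef) (hG' : G'.PosSemidef)
    (h : ∀ x, qf G x ≤ qf G' x) : G.det ≤ G'.det := by
  by_cases h0 : G'.det = 0
  · obtain ⟨x, hx, hx0⟩ := exists_mulVec_eq_zero_iff.2 h0
    have h1 : qf G x = 0 := by
      refine le_antisymm ((h x).trans ?_) ((posSemidef_iff.1 hG).2 x)
      rw [qf, hx0, dotProduct_zero]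
    have h2 := (hG.dotProduct_mulVec_zero_iff x).1 h1
    rw [h0, exists_mulVec_eq_zero_iff.1 ⟨x, hx, h2⟩]
  · obtain ⟨B, hB⟩ := gram_sqrt hG'
    have h1 : G'.det = B.det ^ 2 := by rw [hB, det_mul, det_transpose, sq]
    have h2 : B.det ≠ 0 := fun e => h0 (by rw [h1, e]; norm_num)
    have hu : IsUnit B.det := h2.isUnit
    have h3 : (B⁻¹ᵀ * G * B⁻¹).PosSemidef := by
      have := hG.conjTranspose_mul_mul_same B⁻¹
      rwa [conjTranspose_eq_transpose_of_trivial] at this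
    have h4 : B⁻¹ᵀ * G' * B⁻¹ = 1 := by
      rw [hB, ← Matrix.mul_assoc, ← transpose_mul, Matrix.mul_assoc, mul_nonsing_inv _ hu]
      simp
    have h5 := gram_det_le h3 (l := 1) fun i => by
      have := h (B⁻¹ *ᵥ Pi.single i 1)
      rw [← gram_qf_conj, ← gram_qf_conj, h4, gram_qf_single, gram_qf_single, one_apply_eq] at this
      exact this
    rw [det_mul, det_mul, det_transpose, det_nonsing_inv, Ring.inverse_eq_inv', one_pow] at h5
    have h6 : 0 < B.det ^ 2 := by positivity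
    have h7 : G.det = B.det ^ 2 * (B.det⁻¹ * G.det * B.det⁻¹) := by field_simp
    rw [h7, h1]
    nlinarith

theorem det_le_pow {G : Matrix ι ι ℝ} (hG : G.PosSemidef) {l : ℝ} (h : ∀ i, G i i ≤ l) :
    G.det ≤ l ^ Fintype.card ι := by
  exact gram_det_le hG h

theorem Stab.any {G : Matrix ι ι ℝ} (h : Stab G) {Z : Matrix ι κ ℤ} (hZ : hg Z ≠ 0) :
    1 ≤ (gr G Z).det := by
  have e := (Fintype.equivFin κ).symm
  rw [← det_gr_reindex G Z e]
  exact h _ _ (by rwa [hg_reindex])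

theorem Stab.one_le_det {G : Matrix ι ι ℝ} (h : Stab G) : 1 ≤ G.det := by
  have hu : Uni (1 : Matrix ι ι ℤ) := ⟨1, one_mul _, one_mul _⟩
  rw [← det_gr_uni (T := G) hu]
  exact h.any hu.hg_ne

theorem Stab.one_le_qf {G : Matrix ι ι ℝ} (h : Stab G) {z : ι → ℤ} (hz : z ≠ 0) :
    1 ≤ qf G (iv z) := by
  have e : ∀ c : Fin 1 → ℤ, replicateCol (Fin 1) z *ᵥ c = c 0 • z := fun c => by
    ext i
    simp [mulVec, dotProduct, mul_comm]
  have h1 := h 1 (replicateCol (Fin 1) z) (hg_ne_zero_iff.2 fun c hc => by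
    rw [e, smul_eq_zero] at hc
    ext i
    rw [Subsingleton.elim i 0]
    exact hc.resolve_right hz)
  rw [det_unique, ← gram_qf_single (Vale.Agent.P160.gr G _), qf_gr] at h1
  have h2 : rm (replicateCol (Fin 1) z) *ᵥ Pi.single default 1 = iv z := by
    ext i
    simp [rm, iv]
  rwa [h2] at h1

theorem Stab.gr {G : Matrix ι ι ℝ} (h : Stab G) {Z : Matrix ι κ ℤ} (hZ : hg Z ≠ 0) :
    Stab (gr G Z) := by
  intro j Z' hZ'
  rw [gr_gr]
  refine h j _ (hg_ne_zero_iff.2 fun z hz => ?_)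
  rw [← mulVec_mulVec] at hz
  exact hg_ne_zero_iff.1 hZ' z (hg_ne_zero_iff.1 hZ _ hz)

theorem stab_of_ge {T : Matrix ι ι ℝ} (hT : T.PosDef) (h : ∀ x, qf 1 x ≤ qf T x) : Stab T := by
  intro j Z hZ
  have h1 := det_mono (gr_posSemidef PosSemidef.one Z) (gr_posSemidef hT.posSemidef Z)
    fun x => by rw [qf_gr, qf_gr]; exact h _
  rw [det_gr_one] at h1
  have h2 : (1 : ℝ) ≤ hg Z := by exact_mod_cast one_le_hg hZ
  linarith

end Vale.Agent.P160
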