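import Vale.Agent.P160.UC

/-!
P160 task Index. Keep the statements unchanged; add lemmas freely (start them with `index_`).

Indices of sublattices. `index_range`: Mathlib has `AddSubgroup.index_eq_natAbs_det`, `Submodule.natAbs_det_equiv`,
`Submodule.natAbs_det_basis_change`. `exists_basis`: a submodule of `ι → ℤ` is free (`Submodule.basisOfPid`, or
`Submodule.finBasis`-type API); its rank is `card ι` because it contains the independent columns of `A`.
`card_sq_le`: let `S` be the saturation of the column span of `E`; `exists_uni` gives `P` with `S = P ℤ^a`, `E = P M`, `M` square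
after reindexing (`a = card κ`), `hg E = det M ^ 2 * hg P ≥ det M ^ 2`; the map `c ↦ φ (P c)` factors through
`ℤ^a / M ℤ^a`, which has `|det M|` elements by `index_range`, and its image contains `X`.
`card_ker_le`: `|ker (a b)| ≤ |ker a| |ker b|` (multiplication by `a` maps `ker (ab)` to `ker b` with kernel inside `ker a`),
induction on the prime factorisation (`Nat.recOnMul` or `induction_on_primes`).
-/

set_option linter.unusedSectionVars false
set_option linter.unusedVariables false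

namespace Vale.Agent.P160

open Finset Matrix MeasureTheory

variable {ι κ : Type} [Fintype ι] [DecidableEq ι] [Fintype κ] [DecidableEq κ]

theorem index_inj {A : Matrix ι ι ℤ} (hA : A.det ≠ 0) (z : ι → ℤ) (h : A *ᵥ z = 0) : z = 0 := by
  by_contra h0
  exact hA (exists_mulVec_eq_zero_iff.1 ⟨z, h0, h⟩)

theorem index_range {A : Matrix ι ι ℤ} (hA : A.det ≠ 0) :
    (LinearMap.range A.mulVecLin).toAddSubgroup.index = A.det.natAbs := by
  have hi : Function.Injective A.mulVecLin := (injective_iff_map_eq_zero _).2 (index_inj hA)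
  have h := Submodule.natAbs_det_equiv (LinearMap.range A.mulVecLin) (LinearEquiv.ofInjective _ hi)
  have e : (LinearMap.range A.mulVecLin).subtype ∘ₗ AddMonoidHom.toIntLinearMap
      ((LinearEquiv.ofInjective _ hi : (ι → ℤ) ≃ₗ[ℤ] LinearMap.range A.mulVecLin) :
        (ι → ℤ) →+ LinearMap.range A.mulVecLin) = Matrix.toLin' A := LinearMap.ext fun x => rfl
  rw [e, LinearMap.det_toLin'] at h
  rw [h]
  rfl

theorem exists_basis {A : Matrix ι ι ℤ} (hA : A.det ≠ 0) (L : Submodule ℤ (ι → ℤ))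
    (hL : ∀ u, A *ᵥ u ∈ L) :
    ∃ B : Matrix ι ι ℤ, B.det ≠ 0 ∧ ∀ z, z ∈ L ↔ ∃ c, z = B *ᵥ c := by
  have hi : Function.Injective A.mulVecLin := (injective_iff_map_eq_zero _).2 (index_inj hA)
  have h1 : Module.finrank ℤ L = Fintype.card ι := by
    refine le_antisymm (by simpa using L.finrank_le) ?_
    have := LinearMap.finrank_le_finrank_of_injective
      (f := A.mulVecLin.codRestrict L hL) fun x y h => hi (congrArg Subtype.val h)
    simpa using this
  let b := (Module.finBasisOfFinrankEq ℤ L h1).reindex (Fintype.equivFin ι).symm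
  have hB : ∀ c : ι → ℤ, (Matrix.of fun i j => (b j : ι → ℤ) i) *ᵥ c =
      ((∑ j, c j • b j : L) : ι → ℤ) := fun c => by
    ext i
    simp [mulVec, dotProduct, mul_comm]
  refine ⟨Matrix.of fun i j => (b j : ι → ℤ) i, fun h0 => ?_, fun z => ⟨fun hz => ?_, ?_⟩⟩
  · obtain ⟨c, hc, h⟩ := exists_mulVec_eq_zero_iff.2 h0
    rw [hB] at h
    exact hc (funext (Fintype.linearIndependent_iff.1 b.linearIndependent c (Subtype.ext h)))
  · exact ⟨b.repr ⟨z, hz⟩, by rw [hB, b.sum_repr]⟩
  · rintro ⟨c, rfl⟩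
    rw [hB]
    exact Subtype.prop _

theorem card_sq_le {H : Type} [AddCommGroup H] (φ : (ι → ℤ) →+ H) {E : Matrix ι κ ℤ}
    (hE : hg E ≠ 0) (h0 : ∀ e, φ (E *ᵥ e) = 0) (X : Finset H)
    (hX : ∀ x ∈ X, ∃ y, φ y = x ∧ ∃ c : ℤ, c ≠ 0 ∧ ∃ e, c • y = E *ᵥ e) :
    (X.card : ℤ) ^ 2 ≤ hg E := by
  classical
  obtain ⟨a, b, P, Y, e, M, hu, hS, hM, hd⟩ := uc_main hE
  let N := (LinearMap.range M.mulVecLin).toAddSubgroup
  let ψ : (Fin a → ℤ) →+ H := φ.comp P.mulVecLin.toAddMonoidHom
  have hN : N ≤ ψ.ker := by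
    rintro _ ⟨c, rfl⟩
    show φ (P *ᵥ M *ᵥ c) = 0
    rw [mulVec_mulVec, ← hM, submatrix_mulVec_equiv]
    exact h0 _
  have hi : N.index = M.det.natAbs := index_range hd
  have hf : Finite ((Fin a → ℤ) ⧸ N) :=
    Nat.finite_of_card_ne_zero (hi.trans_ne (Int.natAbs_ne_zero.2 hd))
  have _ := Fintype.ofFinite ((Fin a → ℤ) ⧸ N)
  have h1 : X ⊆ univ.image (QuotientAddGroup.lift N ψ hN) := fun x hx => by
    obtain ⟨y, rfl, hy⟩ := hX x hx
    obtain ⟨c, rfl⟩ := (hS y).1 hy
    exact mem_image.2 ⟨c, mem_univ _, rfl⟩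
  have h2 : X.card ≤ M.det.natAbs := by
    refine (card_le_card h1).trans (card_image_le.trans ?_)
    rw [card_univ, ← Nat.card_eq_fintype_card, ← hi]
    rfl
  have h3 : (hg E : ℝ) = (M.det : ℝ) ^ 2 * hg P := by
    rw [← hg_reindex E e, hM, ← det_gr_one, ← gr_gr, det_gr_sq, det_gr_one]
  have h4 : hg E = M.det ^ 2 * hg P := by exact_mod_cast h3
  have h5 := one_le_hg (uc_left hu.hg_ne)
  have h6 : (X.card : ℤ) ≤ |M.det| := by rw [← Int.natCast_natAbs]; exact_mod_cast h2
  calc (X.card : ℤ) ^ 2 ≤ |M.det| ^ 2 := by gcongr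
    _ = M.det ^ 2 := sq_abs _
    _ ≤ _ := h4 ▸ le_mul_of_one_le_right (sq_nonneg _) h5

theorem index_mul {H : Type} [AddCommGroup H] [Finite H] (a b : ℕ) :
    Nat.card {x : H // (a * b) • x = 0} ≤
      Nat.card {x : H // a • x = 0} * Nat.card {x : H // b • x = 0} := by
  let K := (nsmulAddMonoidHom (α := H) (a * b)).ker
  let f : K →+ H := (nsmulAddMonoidHom a).comp K.subtype
  have h1 : Nat.card K = Nat.card f.ker * Nat.card f.range := by
    rw [← AddSubgroup.index_ker, AddSubgroup.card_mul_index]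
  have h2 : Nat.card f.ker ≤ Nat.card {x : H // a • x = 0} :=
    Nat.card_le_card_of_injective (fun x => ⟨x.1.1, x.2⟩)
      fun x y e => Subtype.ext (Subtype.ext (Subtype.mk.inj e))
  have h3 : Nat.card f.range ≤ Nat.card {x : H // b • x = 0} := by
    refine Nat.card_le_card_of_injective (fun x => ⟨x.1, ?_⟩)
      fun x y e => Subtype.ext (Subtype.mk.inj e)
    obtain ⟨y, hy⟩ := x.2
    have h4 : (a * b) • (y : H) = 0 := y.2
    rw [← hy]
    show b • a • (y : H) = 0
    rw [← mul_smul, mul_comm, h4]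
  exact (le_of_eq h1).trans (Nat.mul_le_mul h2 h3)

theorem card_ker_le {H : Type} [AddCommGroup H] [Finite H] {Q c : ℕ}
    (h : ∀ p : ℕ, p.Prime → p ≤ Q → Nat.card {x : H // p • x = 0} ≤ p ^ c) {q : ℕ} (h1 : 1 ≤ q)
    (hq : q ≤ Q) : Nat.card {x : H // q • x = 0} ≤ q ^ c := by
  induction q using Nat.recOnMul with
  | zero => omega
  | one => simp
  | prime p hp => exact h p hp hq
  | mul a b iha ihb =>
    have ha : 1 ≤ a := Nat.pos_of_ne_zero fun e => by simp [e] at h1
    have hb : 1 ≤ b := Nat.pos_of_ne_zero fun e => by simp [e] at h1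
    rw [mul_pow]
    exact (index_mul a b).trans (Nat.mul_le_mul (iha ha ((Nat.le_mul_of_pos_right a hb).trans hq))
      (ihb hb ((Nat.le_mul_of_pos_left b ha).trans hq)))

end Vale.Agent.P160
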