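import Vale.Agent.P160.Index

/-!
P160 task S5I. Keep the statements unchanged; add lemmas freely (start them with `s5i_`).

`H = (Fin n → ℤ) ⧸ L` is finite (`index_range`, `AddSubgroup.index_dvd_of_le`). `φ (y, z) = mk (q y + z)` kills the columns of
`E = [(0;U), (Ψ A) f]` (by `Elim.id`, `[q 1, 1] Ψ A e = A (2q e - W A e)`), and `φ (Ψ z) = 2q mk z`. `card_sq_le` with `X` = image of
multiplication by `2q`: `|2qH|² ≤ hg E ≤ hg U (n⁸ Q²)^r` (`det_gr_cols_le`, entries of `Ψ A` at most `n (n+2) Q`).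
Let `H' = 2H` (range of `2 • ·`). `|H| ≤ 2^n |H'|` (for a finite group kernel and cokernel of multiplication have the same size, and
`H / 2H` is a quotient of `(ZMod 2)^n`). `|H'| = |q H'| |ker q|`, and `card_ker_le` with exponent `c + 1`: `H'/pH'` is a quotient of
`(ZMod p)^n` via `z ↦ 2 z` killing the columns `mm A e_k - mm A e_0` (`A e_k - A e_0 = -2 (mm A e_k - mm A e_0)`), whose span has rank
at least `rank (mm A) - 1 ≥ n - c - 1`.
-/

set_option linter.unusedSectionVars false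
set_option linter.unusedVariables false

namespace Vale.Agent.P160

open Finset Matrix Filter

theorem s5i_card {H : Type} [AddCommGroup H] [Finite H] (p : ℕ) :
    Nat.card H = Nat.card {x : H // p • x = 0} * Nat.card (nsmulAddMonoidHom (α := H) p).range := by
  rw [← AddSubgroup.index_ker, ← AddSubgroup.card_mul_index (nsmulAddMonoidHom (α := H) p).ker]
  rfl

theorem s5i_rank_add {K : Type} [Field K] {n : ℕ} (N : Matrix (Fin n) (Fin n) K) (a b : Fin n → K) :
    (N + vecMulVec a b).rank ≤ N.rank + 1 := by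
  have h1 : LinearMap.range (N + vecMulVec a b).mulVecLin ≤
      LinearMap.range N.mulVecLin ⊔ LinearMap.range (vecMulVec a b).mulVecLin := by
    rintro _ ⟨x, rfl⟩
    rw [Matrix.mulVecLin_apply, Matrix.add_mulVec]
    exact Submodule.add_mem_sup ⟨x, rfl⟩ ⟨x, rfl⟩
  have h2 := Submodule.finrank_mono h1
  have h3 := Submodule.finrank_add_le_finrank_add_finrank (LinearMap.range N.mulVecLin)
    (LinearMap.range (vecMulVec a b).mulVecLin)
  have h4 := Matrix.rank_vecMulVec_le a b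
  unfold Matrix.rank at *
  omega

theorem s5i_ker {H : Type} [AddCommGroup H] [Finite H] {n d p : ℕ} (hp : p.Prime)
    (π : (Fin n → ℤ) →+ H) (hπ : Function.Surjective π) (N : ZM n) (hN : ∀ e, π (N *ᵥ e) = 0)
    (hr : n ≤ (N.map (Int.cast : ℤ → ZMod p)).rank + d) :
    Nat.card {x : H // p • x = 0} ≤ p ^ d := by
  have : Fact p.Prime := ⟨hp⟩
  have h1 : Nat.card {x : H // p • x = 0} = (nsmulAddMonoidHom (α := H) p).range.index := by
    rw [AddSubgroup.index_range]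
    rfl
  let ρ : (Fin n → ℤ) →+ (Fin n → ZMod p) :=
    { toFun := fun z i => (z i : ZMod p)
      map_zero' := by ext i; simp
      map_add' := by intro x y; ext i; simp }
  have hρ : Function.Surjective ρ := by
    intro y
    choose z hz using fun i => ZMod.intCast_surjective (y i)
    exact ⟨z, funext hz⟩
  have hρN : ∀ e, ρ (N *ᵥ e) = N.map (Int.cast : ℤ → ZMod p) *ᵥ ρ e := by
    intro e
    ext i
    simp [ρ, Matrix.mulVec, dotProduct]
  set V := LinearMap.range (N.map (Int.cast : ℤ → ZMod p)).mulVecLin with hV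
  have hle : V.toAddSubgroup.comap ρ ≤ (nsmulAddMonoidHom (α := H) p).range.comap π := by
    intro z hz
    obtain ⟨e', he'⟩ : ∃ e', N.map (Int.cast : ℤ → ZMod p) *ᵥ e' = ρ z := hz
    obtain ⟨e, rfl⟩ := hρ e'
    rw [← hρN] at he'
    have h0 : ∀ i, ∃ w : ℤ, z i - (N *ᵥ e) i = p * w := by
      intro i
      have := congrFun he' i
      exact (ZMod.intCast_eq_intCast_iff_dvd_sub _ _ _).1 this
    choose w hw using h0
    have hz' : z = N *ᵥ e + p • w := by
      ext i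
      rw [Pi.add_apply, Pi.smul_apply, nsmul_eq_mul]
      linarith [hw i]
    refine ⟨π w, ?_⟩
    rw [hz', map_add, hN, zero_add, map_nsmul]
    rfl
  have h2 := AddSubgroup.index_dvd_of_le hle
  rw [AddSubgroup.index_comap_of_surjective _ hρ, AddSubgroup.index_comap_of_surjective _ hπ] at h2
  have h3 : V.toAddSubgroup.index = p ^ Module.finrank (ZMod p) ((Fin n → ZMod p) ⧸ V) := by
    have := Module.natCard_eq_pow_finrank (K := ZMod p) (V := (Fin n → ZMod p) ⧸ V)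
    rw [Nat.card_zmod] at this
    rw [← this]
    rfl
  have h4 := V.finrank_quotient_add_finrank
  have h5 : Module.finrank (ZMod p) V = (N.map (Int.cast : ℤ → ZMod p)).rank := rfl
  rw [Module.finrank_fin_fun, h5] at h4
  rw [h1]
  refine (Nat.le_of_dvd ?_ h2).trans ?_
  · rw [h3]
    exact pow_pos hp.pos _
  · rw [h3]
    exact Nat.pow_le_pow_right hp.pos (by omega)

theorem s5i_hg {n v r Q q : ℕ} (hn : 2 ≤ n) {A : ZM n} (hA : A ∈ SS n)
    {U : Matrix (Fin n) (Fin v) ℤ} {Ψ : Matrix (Fin n ⊕ Fin n) (Fin n) ℤ} {W : ZM n}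
    {f : Fin r → Fin n} (hE : Elim A U Q q Ψ W f) :
    hg (fromCols (fromRows (0 : Matrix (Fin n) (Fin v) ℤ) U) ((Ψ * A).submatrix _root_.id f)) ≤
      hg U * ((n : ℤ) ^ 8 * (Q : ℤ) ^ 2) ^ r := by
  have h0 : hg (fromRows (0 : Matrix (Fin n) (Fin v) ℤ) U) = hg U := by
    unfold hg
    rw [transpose_fromRows, fromCols_mul_fromRows]
    simp
  have hb : ∀ a l, |(Ψ * A) a l| ≤ (n : ℤ) * ((n + 2) * Q) := by
    intro a l
    rw [Matrix.mul_apply]
    refine (Finset.abs_sum_le_sum_abs _ _).trans ?_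
    have : ∀ j ∈ (univ : Finset (Fin n)), |Ψ a j * A j l| ≤ ((n : ℤ) + 2) * Q := by
      intro j _
      rw [abs_mul]
      have h1 : |A j l| = 1 := by
        rcases (mem_SS.1 hA).1 j l with h | h <;> simp [h]
      rw [h1, mul_one]
      exact hE.bΨ a j
    refine (Finset.sum_le_card_nsmul _ _ _ this).trans ?_
    simp
  have h1 := det_gr_cols_le (T := (1 : Matrix (Fin n ⊕ Fin n) (Fin n ⊕ Fin n) ℝ)) Matrix.PosSemidef.one
    (fromRows (0 : Matrix (Fin n) (Fin v) ℤ) U) ((Ψ * A).submatrix _root_.id f)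
    (l := (n : ℝ) ^ 8 * (Q : ℝ) ^ 2) (by
      intro k
      rw [qf_one]
      have : ∀ i ∈ (univ : Finset (Fin n ⊕ Fin n)),
          iv (fun i => (Ψ * A).submatrix _root_.id f i k) i ^ 2 ≤ ((n : ℝ) * ((n + 2) * Q)) ^ 2 := by
        intro i _
        have h2 : |(((Ψ * A) i (f k) : ℤ) : ℝ)| ≤ (n : ℝ) * ((n + 2) * Q) := by
          exact_mod_cast hb i (f k)
        exact sq_le_sq' (abs_le.1 h2).1 (abs_le.1 h2).2
      refine (Finset.sum_le_card_nsmul _ _ _ this).trans ?_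
      have hn' : (2 : ℝ) ≤ n := by exact_mod_cast hn
      have h3 : ((n : ℝ) + 2) ^ 2 ≤ (2 * n) ^ 2 := by gcongr; linarith
      have h4 : (2 : ℝ) ^ 3 ≤ (n : ℝ) ^ 3 := by gcongr
      have h5 : 2 * ((n : ℝ) + 2) ^ 2 ≤ (n : ℝ) ^ 5 := by
        calc 2 * ((n : ℝ) + 2) ^ 2 ≤ 2 * (2 * n) ^ 2 := by gcongr
          _ = 2 ^ 3 * (n : ℝ) ^ 2 := by ring
          _ ≤ (n : ℝ) ^ 3 * (n : ℝ) ^ 2 := by gcongr
          _ = _ := by ring
      simp only [Finset.card_univ, Fintype.card_sum, Fintype.card_fin, nsmul_eq_mul]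
      push_cast
      calc ((n : ℝ) + n) * ((n : ℝ) * ((n + 2) * Q)) ^ 2
          = (2 * ((n : ℝ) + 2) ^ 2) * ((n : ℝ) ^ 3 * (Q : ℝ) ^ 2) := by ring
        _ ≤ (n : ℝ) ^ 5 * ((n : ℝ) ^ 3 * (Q : ℝ) ^ 2) := by gcongr
        _ = _ := by ring)
  rw [det_gr_one, det_gr_one, h0, Fintype.card_fin] at h1
  exact_mod_cast h1

theorem s5i_sq {H : Type} [AddCommGroup H] [Finite H] {n v r Q q : ℕ} (hn : 2 ≤ n) {A : ZM n}
    (hA : A ∈ SS n) {U : Matrix (Fin n) (Fin v) ℤ} {Ψ : Matrix (Fin n ⊕ Fin n) (Fin n) ℤ} {W : ZM n}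
    {f : Fin r → Fin n} (hE : Elim A U Q q Ψ W f) (π : (Fin n → ℤ) →+ H)
    (hπ : Function.Surjective π) (hL : ∀ u, π (A *ᵥ u) = 0) (hU : ∀ e, π (U *ᵥ e) = 0) :
    (Nat.card (nsmulAddMonoidHom (α := H) (2 * q)).range : ℤ) ^ 2 ≤
      hg U * ((n : ℤ) ^ 8 * (Q : ℤ) ^ 2) ^ r := by
  classical
  have := Fintype.ofFinite H
  refine le_trans ?_ (s5i_hg hn hA hE)
  set M : Matrix (Fin n) (Fin n ⊕ Fin n) ℤ := fromCols ((q : ℤ) • (1 : ZM n)) (1 : ZM n) with hM
  have hid : M * Ψ = (2 * q : ℤ) • (1 : ZM n) - A * W := hE.id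
  let φ : (Fin n ⊕ Fin n → ℤ) →+ H := π.comp M.mulVecLin.toAddMonoidHom
  have hφ : ∀ y, φ y = π (M *ᵥ y) := fun _ => rfl
  have hc : Nat.card (nsmulAddMonoidHom (α := H) (2 * q)).range =
      (univ.image fun x : H => (2 * q) • x).card := by
    rw [← Nat.card_eq_finsetCard]
    refine Nat.card_congr (Equiv.subtypeEquivRight fun x => ?_)
    simp [AddMonoidHom.mem_range]
  rw [hc]
  refine card_sq_le φ hE.ind (fun e => ?_) _ (fun x hx => ?_)
  · have h1 : M * fromRows (0 : Matrix (Fin n) (Fin v) ℤ) U = U := by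
      rw [hM, fromCols_mul_fromRows]
      simp
    have h2 : M * (Ψ * A).submatrix _root_.id f =
        A * ((2 * q : ℤ) • (1 : ZM n) - W * A).submatrix _root_.id f := by
      have h3 : M * (Ψ * A) = A * ((2 * q : ℤ) • (1 : ZM n) - W * A) := by
        rw [← Matrix.mul_assoc, hid, Matrix.sub_mul, Matrix.mul_sub, Matrix.smul_mul,
          Matrix.mul_smul, Matrix.one_mul, Matrix.mul_one, Matrix.mul_assoc]
      ext i k
      exact congrFun (congrFun h3 i) (f k)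
    rw [hφ, Matrix.mulVec_mulVec, mul_fromCols, h1, h2, fromCols_mulVec, map_add, hU,
      ← Matrix.mulVec_mulVec, hL, add_zero]
  · obtain ⟨y, -, rfl⟩ := Finset.mem_image.1 hx
    obtain ⟨z, rfl⟩ := hπ y
    refine ⟨Ψ *ᵥ z, ?_, hE.span z⟩
    rw [hφ, Matrix.mulVec_mulVec, hid, Matrix.sub_mulVec, map_sub, ← Matrix.mulVec_mulVec, hL,
      sub_zero, Matrix.smul_mulVec, Matrix.one_mulVec, map_zsmul, ← natCast_zsmul]
    push_cast
    rfl

theorem s5i_main {H : Type} [AddCommGroup H] [Finite H] {n Q q c : ℕ} (hn : 2 ≤ n) {A : ZM n}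
    (hA : A ∈ SS n) (hC : Cork A Q c) (h1 : 1 ≤ q) (hq : q ≤ Q) (π : (Fin n → ℤ) →+ H)
    (hπ : Function.Surjective π) (hL : ∀ u, π (A *ᵥ u) = 0) :
    Nat.card H ≤ 2 ^ n * Q ^ (c + 1) * Nat.card (nsmulAddMonoidHom (α := H) (2 * q)).range := by
  set H' := (nsmulAddMonoidHom (α := H) 2).range with hH'
  have e1 : Nat.card H ≤ 2 ^ n * Nat.card H' := by
    rw [s5i_card (H := H) 2]
    exact Nat.mul_le_mul_right _
      (s5i_ker Nat.prime_two π hπ 0 (by intro e; simp) (Nat.le_add_left _ _))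
  let π' : (Fin n → ℤ) →+ H' := (nsmulAddMonoidHom (α := H) 2).rangeRestrict.comp π
  have hπ' : Function.Surjective π' :=
    (nsmulAddMonoidHom (α := H) 2).rangeRestrict_surjective.comp hπ
  let o : Fin n := ⟨0, by omega⟩
  let N : ZM n := Matrix.of fun i k => mm A i k - mm A i o
  let D : ZM n := Matrix.of fun i k => (if i = o then 1 else 0) - (if i = k then 1 else 0)
  have hND : (2 : ℕ) • N = A * D := by
    ext i k
    have : (A * D) i k = A i o - A i k := by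
      simp [Matrix.mul_apply, D, mul_sub, Finset.sum_sub_distrib]
    rw [this]
    simp only [N, mm, Matrix.smul_apply, Matrix.of_apply]
    rcases (mem_SS.1 hA).1 i k with h | h <;> rcases (mem_SS.1 hA).1 i o with h' | h' <;>
      simp [h, h']
  have hN : ∀ e, π' (N *ᵥ e) = 0 := by
    intro e
    apply Subtype.ext
    show (2 : ℕ) • π (N *ᵥ e) = 0
    rw [← map_nsmul, ← Matrix.smul_mulVec, hND, ← Matrix.mulVec_mulVec, hL]
  have e2 : Nat.card {x : H' // q • x = 0} ≤ q ^ (c + 1) := by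
    refine card_ker_le (Q := Q) (fun p hp hpQ => ?_) h1 hq
    have : Fact p.Prime := ⟨hp⟩
    refine s5i_ker hp π' hπ' N hN ?_
    have h2 := hC p hp hpQ
    have h3 : (mm A).map (Int.cast : ℤ → ZMod p) = N.map (Int.cast : ℤ → ZMod p) +
        vecMulVec (fun i => ((mm A i o : ℤ) : ZMod p)) (fun _ => 1) := by
      ext i k
      simp [N, vecMulVec_apply]
    have h4 := s5i_rank_add (N.map (Int.cast : ℤ → ZMod p)) (fun i => ((mm A i o : ℤ) : ZMod p))
      (fun _ => 1)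
    rw [← h3] at h4
    omega
  have e3 : Nat.card (nsmulAddMonoidHom (α := H') q).range ≤
      Nat.card (nsmulAddMonoidHom (α := H) (2 * q)).range := by
    have hm : ∀ x : (nsmulAddMonoidHom (α := H') q).range,
        ((x : H') : H) ∈ (nsmulAddMonoidHom (α := H) (2 * q)).range := by
      rintro ⟨_, ⟨_, y, rfl⟩, rfl⟩
      refine ⟨y, ?_⟩
      show (2 * q) • y = q • (2 • y)
      rw [mul_comm, mul_smul]
    refine Nat.card_le_card_of_injective (fun x => ⟨_, hm x⟩) fun x y h => ?_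
    have h' : ((x : H') : H) = ((y : H') : H) := Subtype.mk.inj h
    exact Subtype.ext (Subtype.ext h')
  calc Nat.card H ≤ 2 ^ n * Nat.card H' := e1
    _ = 2 ^ n * (Nat.card {x : H' // q • x = 0} *
        Nat.card (nsmulAddMonoidHom (α := H') q).range) := by rw [← s5i_card]
    _ ≤ 2 ^ n * (Q ^ (c + 1) * Nat.card (nsmulAddMonoidHom (α := H) (2 * q)).range) :=
      Nat.mul_le_mul_left _ (Nat.mul_le_mul (e2.trans (Nat.pow_le_pow_left hq _)) e3)
    _ = _ := by ring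

theorem s5_index {n v r Q q c : ℕ} (hn : 2 ≤ n) {A : ZM n} (hA : A ∈ SS n) (hd : A.det ≠ 0)
    {U : Matrix (Fin n) (Fin v) ℤ} {Ψ : Matrix (Fin n ⊕ Fin n) (Fin n) ℤ} {W : ZM n}
    {f : Fin r → Fin n} (hE : Elim A U Q q Ψ W f) (hC : Cork A Q c) (L : Submodule ℤ (Fin n → ℤ))
    (hL : ∀ u, A *ᵥ u ∈ L) (hU : ∀ e, U *ᵥ e ∈ L) :
    (L.toAddSubgroup.index : ℤ) ^ 2 ≤
      4 ^ n * (Q : ℤ) ^ (2 * (c + 1)) * hg U * ((n : ℤ) ^ 8 * (Q : ℤ) ^ 2) ^ r := by
  have hi : L.toAddSubgroup.index ≠ 0 := by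
    have h1 : (LinearMap.range A.mulVecLin).toAddSubgroup ≤ L.toAddSubgroup := by
      rintro _ ⟨u, rfl⟩
      exact hL u
    have h2 := AddSubgroup.index_dvd_of_le h1
    rw [index_range hd] at h2
    exact ne_zero_of_dvd_ne_zero (Int.natAbs_ne_zero.2 hd) h2
  have : Finite ((Fin n → ℤ) ⧸ L.toAddSubgroup) := Nat.finite_of_card_ne_zero hi
  let π : (Fin n → ℤ) →+ (Fin n → ℤ) ⧸ L.toAddSubgroup := QuotientAddGroup.mk' _
  have hπ : Function.Surjective π := QuotientAddGroup.mk'_surjective _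
  have h0 : ∀ x ∈ L, π x = 0 := fun x hx => (QuotientAddGroup.eq_zero_iff x).2 hx
  have e1 := s5i_main hn hA hC hE.q1 hE.qQ π hπ fun u => h0 _ (hL u)
  have e2 := s5i_sq hn hA hE π hπ (fun u => h0 _ (hL u)) fun e => h0 _ (hU e)
  set X := Nat.card (nsmulAddMonoidHom (α := (Fin n → ℤ) ⧸ L.toAddSubgroup) (2 * q)).range
  have e3 : (L.toAddSubgroup.index : ℤ) ≤ 2 ^ n * (Q : ℤ) ^ (c + 1) * X := by
    exact_mod_cast e1
  calc (L.toAddSubgroup.index : ℤ) ^ 2 ≤ (2 ^ n * (Q : ℤ) ^ (c + 1) * X) ^ 2 := by gcongr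
    _ = 4 ^ n * (Q : ℤ) ^ (2 * (c + 1)) * (X : ℤ) ^ 2 := by
      rw [show (4 : ℤ) = 2 ^ 2 by norm_num, ← pow_mul]
      ring
    _ ≤ 4 ^ n * (Q : ℤ) ^ (2 * (c + 1)) * (hg U * ((n : ℤ) ^ 8 * (Q : ℤ) ^ 2) ^ r) := by gcongr
    _ = _ := by ring

end Vale.Agent.P160
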