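import Vale.Agent.P160.TT

/-!
P160 task S5II. Keep the statements unchanged; add lemmas freely (start them with `s5ii_`).

`T = TT A J`, `N = NB A J`, `G₀ = Nᵀ N`, `E = [(0;U), (Ψ A) f]`, `Φ = [q 1, 1]`, `T₁ = 1 + (rm Φ)ᵀ T (rm Φ)`, `G = gr 1 E`, `G₁ = gr T₁ E`,
`l = n⁸ Q²`. From `Elim.span` (applied to unit vectors, divide by `c`) get a real matrix `Y` with `rm Ψ = rm E * Y`; `N' = Y N`.
`qf G (N' c) = |Ψ N c|² ≤ l qf G₀ c` (`qf_one_mulVec_le`). With `z = N c`, `2q z = Φ Ψ z + A W z`, so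
`4 qf T z ≤ 2 qf T (Φ Ψ z) + 2 qf T (A W z) ≤ 2 qf G₁ (N' c) + 2 l |z|²` (`qf_add_le`, `TT_mul`), hence `Nᵀ T N ≤ l G₀ + N'ᵀ G₁ N'`; `det_mono`,
`TT_det`, `sub_det`, `1 ≤ det G`. Finally `det G₁ ≤ det (gr T₁ (0;U)) (2l)^r` (`det_gr_cols_le`; `Φ Ψ A e_k = A (2q e_k - W A e_k)`),
`gr T₁ (0;U) = gr (1 + T) U ≤ 2 gr T U`; `v ≤ n`, `v + r ≤ 2n` (`card_le_of_hg`).
-/

set_option linter.unusedSectionVars false
set_option linter.unusedVariables false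

namespace Vale.Agent.P160

open Finset Matrix Filter

section aux
variable {ι κ μ : Type} [Fintype ι] [DecidableEq ι] [Fintype κ] [DecidableEq κ]
  [Fintype μ] [DecidableEq μ]

theorem s5ii_addm (G G' : Matrix ι ι ℝ) (x : ι → ℝ) : qf (G + G') x = qf G x + qf G' x := by
  simp only [qf, add_mulVec, dotProduct_add]

theorem s5ii_smulm (c : ℝ) (G : Matrix ι ι ℝ) (x : ι → ℝ) : qf (c • G) x = c * qf G x := by
  simp only [qf, smul_mulVec, dotProduct_smul, smul_eq_mul]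

theorem s5ii_smul (c : ℝ) (G : Matrix ι ι ℝ) (x : ι → ℝ) : qf G (c • x) = c ^ 2 * qf G x := by
  simp only [qf, mulVec_smul, dotProduct_smul, smul_dotProduct, smul_eq_mul]
  ring

theorem s5ii_add2 {G : Matrix ι ι ℝ} (hG : G.PosSemidef) (x y : ι → ℝ) :
    qf G (x + y) ≤ 2 * qf G x + 2 * qf G y := by
  obtain ⟨h1, h2⟩ := posSemidef_iff.1 hG
  have h3 := gram_expand h1 1 x y
  have h4 := gram_expand h1 (-1) x y
  have h5 := h2 ((-1 : ℝ) • x + y)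
  rw [one_smul] at h3
  linarith

theorem s5ii_nonneg (x : ι → ℝ) : 0 ≤ qf 1 x := by
  rw [qf_one]
  positivity

theorem s5ii_span {Ψ : Matrix ι κ ℤ} {E : Matrix ι μ ℤ}
    (h : ∀ z : κ → ℤ, ∃ c : ℤ, c ≠ 0 ∧ ∃ e, c • (Ψ *ᵥ z) = E *ᵥ e) :
    ∃ Y : Matrix μ κ ℝ, rm Ψ = rm E * Y := by
  choose c hc z hz using fun k => h (Pi.single k 1)
  refine ⟨of fun j k => (z k j : ℝ) / c k, ?_⟩
  ext i k
  have h1 := congrFun (hz k) i
  have h2 : (c k : ℝ) ≠ 0 := by exact_mod_cast hc k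
  rw [mulVec_single_one] at h1
  simp only [Pi.smul_apply, smul_eq_mul, col_apply, mulVec, dotProduct] at h1
  have h3 : (c k : ℝ) * (Ψ i k : ℝ) = ∑ j, (E i j : ℝ) * (z k j : ℝ) := by exact_mod_cast h1
  simp only [rm, map_apply, mul_apply, of_apply, ← mul_div_assoc]
  rw [← Finset.sum_div, ← h3, mul_div_cancel_left₀ _ h2]

theorem s5ii_T1 (T : Matrix ι ι ℝ) (Φ : Matrix ι κ ℤ) (x : κ → ℝ) :
    qf (1 + gr T Φ) x = qf 1 x + qf T (rm Φ *ᵥ x) := by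
  rw [s5ii_addm, qf_gr]

/-- The abstract determinant step. -/
theorem s5ii_step {ν : Type} [Fintype ν] [DecidableEq ν] {T : Matrix ι ι ℝ} (hT : T.PosDef)
    {N : Matrix ι ν ℝ} (hN : (Nᵀ * N).PosDef) (hdet : (Nᵀ * T * N).det = T.det * (Nᵀ * N).det)
    {Φ : Matrix ι κ ℤ} {Ψ : Matrix κ ι ℤ} {E : Matrix κ μ ℤ} (hE : hg E ≠ 0)
    {Y : Matrix μ ι ℝ} (hY : rm Ψ = rm E * Y) {l : ℝ} (hl : 0 < l)
    (h1 : ∀ z, qf 1 (rm Ψ *ᵥ z) ≤ l * qf 1 z)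
    (h2 : ∀ z, qf T z ≤ qf T (rm Φ *ᵥ (rm Ψ *ᵥ z)) + l * qf 1 z) :
    T.det ≤ l ^ Fintype.card ν * 2 ^ Fintype.card μ * (gr (1 + gr T Φ) E).det := by
  have hT1 : (1 + gr T Φ).PosDef := PosDef.one.add_posSemidef (gr_posSemidef hT.posSemidef Φ)
  have hG := gr_posDef PosDef.one hE
  have hG1 := gr_posDef hT1 hE
  have hTp := (posSemidef_iff.1 hT.posSemidef).2
  have e0 : ∀ c, qf (Nᵀ * N) c = qf 1 (N *ᵥ c) := fun c => by
    rw [← gram_qf_conj, Matrix.mul_one]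
  have e1 : ∀ c, rm E *ᵥ ((Y * N) *ᵥ c) = rm Ψ *ᵥ (N *ᵥ c) := fun c => by
    rw [mulVec_mulVec, mulVec_mulVec, hY, Matrix.mul_assoc]
  have h3 := sub_det hN hG hG1 (fun x => by
    rw [qf_gr, qf_gr, s5ii_T1]
    exact le_add_of_nonneg_right (hTp _)) (Y * N) hl (fun c => by
    rw [qf_gr, e1, e0]
    exact h1 _)
  have hp1 : (Nᵀ * T * N).PosSemidef := by
    have := hT.posSemidef.conjTranspose_mul_mul_same N
    rwa [conjTranspose_eq_transpose_of_trivial] at this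
  have hp2 : (l • (Nᵀ * N) + (Y * N)ᵀ * gr (1 + gr T Φ) E * (Y * N)).PosSemidef := by
    have := hG1.posSemidef.conjTranspose_mul_mul_same (Y * N)
    rw [conjTranspose_eq_transpose_of_trivial] at this
    exact (hN.smul hl).posSemidef.add this
  have h4 := det_mono hp1 hp2 fun c => by
    rw [gram_qf_conj, s5ii_addm, s5ii_smulm, gram_qf_conj, qf_gr, e1, e0, s5ii_T1]
    have := h2 (N *ᵥ c)
    have := s5ii_nonneg (rm Ψ *ᵥ (N *ᵥ c))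
    linarith
  have h5 : (1 : ℝ) ≤ (gr 1 E).det := by
    rw [det_gr_one]
    exact_mod_cast one_le_hg hE
  have h6 := le_mul_of_one_le_right hp2.det_nonneg h5
  have h7 := h4.trans (h6.trans h3)
  rw [hdet] at h7
  refine le_of_mul_le_mul_right (h7.trans_eq ?_) hN.det_pos
  ring

theorem s5ii_top {T : Matrix ι ι ℝ} (hT : T.PosDef) (hge : ∀ z, qf 1 z ≤ qf T z) (q : ℤ)
    (U : Matrix ι κ ℤ) :
    (gr (1 + gr T (fromCols (q • (1 : Matrix ι ι ℤ)) (1 : Matrix ι ι ℤ)))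
      (fromRows (0 : Matrix ι κ ℤ) U)).det ≤ 2 ^ Fintype.card κ * (gr T U).det := by
  have hT1 : (1 + gr T (fromCols (q • (1 : Matrix ι ι ℤ)) (1 : Matrix ι ι ℤ))).PosDef :=
    PosDef.one.add_posSemidef (gr_posSemidef hT.posSemidef _)
  rw [← det_smul]
  refine det_mono (gr_posSemidef hT1.posSemidef _)
    ((gr_posSemidef hT.posSemidef U).smul (by norm_num)) fun c => ?_
  have e1 : fromCols (q • (1 : Matrix ι ι ℤ)) (1 : Matrix ι ι ℤ) * fromRows (0 : Matrix ι κ ℤ) U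
      = U := by
    rw [fromCols_mul_fromRows, Matrix.mul_zero, Matrix.one_mul, zero_add]
  have e2 : qf 1 (rm (fromRows (0 : Matrix ι κ ℤ) U) *ᵥ c) = qf 1 (rm U *ᵥ c) := by
    rw [qf_one, qf_one, Fintype.sum_sum_type]
    simp [rm, mulVec, dotProduct]
  rw [qf_gr, s5ii_T1, s5ii_smulm, qf_gr, mulVec_mulVec, ← rm_mul, e1, e2]
  linarith [hge (rm U *ᵥ c)]

end aux

theorem s5ii_num {x : ℝ} (hx : 2 ≤ x) :
    2 * x ^ 3 * (x + 2) ^ 2 ≤ x ^ 8 ∧ (x ^ 2 + 1) * (8 + 2 * x ^ 3) ≤ x ^ 8 ∧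
      2 * x ^ 2 * (x + 2) ^ 2 ≤ x ^ 8 ∧ (x ^ 2 + 1) * x ^ 2 ≤ x ^ 8 := by
  have h0 : 0 < x := by linarith
  have h2 : 4 ≤ x ^ 2 := by nlinarith
  have h3 : 8 ≤ x ^ 3 := by nlinarith
  have h4 : (x + 2) ^ 2 ≤ 4 * x ^ 2 := by nlinarith
  have h5 : 8 * x ^ 5 ≤ x ^ 8 := by
    have := mul_le_mul_of_nonneg_right h3 (pow_pos h0 5).le
    linarith [show x ^ 3 * x ^ 5 = x ^ 8 by ring]
  have h6 : 2 * x ^ 3 * (x + 2) ^ 2 ≤ x ^ 8 := by
    have := mul_le_mul_of_nonneg_left h4 (show 0 ≤ 2 * x ^ 3 by positivity)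
    linarith [show 2 * x ^ 3 * (4 * x ^ 2) = 8 * x ^ 5 by ring]
  have h7 : (x ^ 2 + 1) * (8 + 2 * x ^ 3) ≤ x ^ 8 := by
    have := mul_le_mul (show x ^ 2 + 1 ≤ 2 * x ^ 2 by linarith)
      (show 8 + 2 * x ^ 3 ≤ 4 * x ^ 3 by linarith) (by positivity) (by positivity)
    linarith [show 2 * x ^ 2 * (4 * x ^ 3) = 8 * x ^ 5 by ring]
  have h8 : x ^ 2 ≤ x ^ 3 := pow_le_pow_right₀ (by linarith) (by norm_num)
  refine ⟨h6, h7, le_trans ?_ h6, le_trans ?_ h7⟩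
  · exact mul_le_mul_of_nonneg_right (by linarith) (by positivity)
  · exact mul_le_mul_of_nonneg_left (by linarith) (by positivity)

theorem s5_det {n v r Q q : ℕ} (hn : 2 ≤ n) {A : ZM n} (hA : A ∈ SS n) (hd : A.det ≠ 0)
    {U : Matrix (Fin n) (Fin v) ℤ} (hU : hg U ≠ 0) {Ψ : Matrix (Fin n ⊕ Fin n) (Fin n) ℤ} {W : ZM n}
    {f : Fin r → Fin n} (hE : Elim A U Q q Ψ W f) (J : Finset (Fin n)) :
    (TT A J).det ≤
      32 ^ n * (gr (TT A J) U).det * ((n : ℝ) ^ 8 * (Q : ℝ) ^ 2) ^ (Jᶜ.card + r) := by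
  have hn' : (2 : ℝ) ≤ n := by exact_mod_cast hn
  have hq : (1 : ℝ) ≤ q := by exact_mod_cast hE.q1
  have hqQ : (q : ℝ) ≤ Q := by exact_mod_cast hE.qQ
  have hQ2 : (0 : ℝ) < (Q : ℝ) ^ 2 := pow_pos (by linarith) 2
  have hq2 : (q : ℝ) ^ 2 ≤ (Q : ℝ) ^ 2 := pow_le_pow_left₀ (by linarith) hqQ 2
  have hq1 : (1 : ℝ) ≤ (q : ℝ) ^ 2 := one_le_pow₀ hq
  obtain ⟨n1, n2, n3, n4⟩ := s5ii_num hn'
  have hl : (0 : ℝ) < (n : ℝ) ^ 8 * (Q : ℝ) ^ 2 := mul_pos (pow_pos (by linarith) 8) hQ2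
  have hT := TT_posDef A J
  have hTp := (posSemidef_iff.1 hT.posSemidef).2
  have hΨ : ∀ z, qf 1 (rm Ψ *ᵥ z) ≤ 2 * (n : ℝ) ^ 2 * ((n : ℝ) + 2) ^ 2 * (Q : ℝ) ^ 2 * qf 1 z :=
    fun z => by
      refine (qf_one_mulVec_le hE.bΨ z).trans_eq ?_
      rw [Fintype.card_sum, Fintype.card_fin]
      push_cast
      ring
  have hW : ∀ z, qf 1 (rm W *ᵥ z) ≤ (n : ℝ) ^ 2 * (Q : ℝ) ^ 2 * qf 1 z := fun z => by
    refine (qf_one_mulVec_le hE.bW z).trans_eq ?_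
    rw [Fintype.card_fin]
    push_cast
    ring
  have hid : ∀ z, rm (fromCols ((q : ℤ) • (1 : ZM n)) (1 : ZM n)) *ᵥ (rm Ψ *ᵥ z) =
      (2 * q : ℝ) • z - rm A *ᵥ (rm W *ᵥ z) := fun z => by
    have e : rm ((2 * q : ℤ) • (1 : ZM n) - A * W) = (2 * q : ℝ) • 1 - rm A * rm W := by
      rw [← rm_mul]
      ext i j
      simp only [rm, map_apply, Matrix.sub_apply, Matrix.smul_apply, one_apply, smul_eq_mul]
      split_ifs <;> push_cast <;> rfl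
    rw [mulVec_mulVec, mulVec_mulVec, ← rm_mul, hE.id, e, sub_mulVec, smul_mulVec, one_mulVec]
  obtain ⟨Y, hY⟩ := s5ii_span hE.span
  have h1 := s5ii_step (Φ := fromCols ((q : ℤ) • (1 : ZM n)) (1 : ZM n)) hT (NB_gram_posDef hd J)
    (TT_det A J) hE.ind hY hl (fun z => (hΨ z).trans (mul_le_mul_of_nonneg_right
      (mul_le_mul_of_nonneg_right n3 hQ2.le) (s5ii_nonneg z))) fun z => by
    have a1 := s5ii_add2 hT.posSemidef
      (rm (fromCols ((q : ℤ) • (1 : ZM n)) (1 : ZM n)) *ᵥ (rm Ψ *ᵥ z)) (rm A *ᵥ (rm W *ᵥ z))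
    have a2 := TT_mul hA hd J (rm W *ᵥ z)
    have a3 := mul_le_mul_of_nonneg_left (hW z) (show (0 : ℝ) ≤ (n : ℝ) ^ 2 + 1 by positivity)
    have a4 := mul_le_mul_of_nonneg_right (mul_le_mul_of_nonneg_right n4 hQ2.le) (s5ii_nonneg z)
    have a5 := mul_le_mul_of_nonneg_right hq1 (hTp z)
    have a6 := hTp z
    have a7 : rm (fromCols ((q : ℤ) • (1 : ZM n)) (1 : ZM n)) *ᵥ (rm Ψ *ᵥ z) +
        rm A *ᵥ (rm W *ᵥ z) = (2 * q : ℝ) • z := by rw [hid, sub_add_cancel]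
    rw [a7, s5ii_smul] at a1
    nlinarith
  have hT1 : (1 + gr (TT A J) (fromCols ((q : ℤ) • (1 : ZM n)) (1 : ZM n))).PosDef :=
    PosDef.one.add_posSemidef (gr_posSemidef hT.posSemidef _)
  have h2 := det_gr_cols_le hT1.posSemidef (fromRows (0 : Matrix (Fin n) (Fin v) ℤ) U)
    ((Ψ * A).submatrix id f) (l := 2 * ((n : ℝ) ^ 8 * (Q : ℝ) ^ 2)) fun k => by
    have e1 : (iv fun i => (Ψ * A).submatrix id f i k) =
        rm Ψ *ᵥ (rm A *ᵥ Pi.single (f k) 1) := by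
      rw [mulVec_mulVec, ← rm_mul, mulVec_single_one]
      rfl
    have e2 : qf 1 (rm A *ᵥ Pi.single (f k) 1) = n := by
      rw [qf_one, mulVec_single_one]
      have : ∀ i, (rm A).col (f k) i ^ 2 = 1 := fun i => by
        rcases (mem_SS.1 hA).1 i (f k) with h | h <;> simp [rm, h]
      simp only [this, sum_const, card_univ, Fintype.card_fin, nsmul_eq_mul, mul_one]
    have e3 : qf 1 (Pi.single (f k) 1 : Fin n → ℝ) = 1 := by
      rw [gram_qf_single, one_apply_eq]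
    have a1 := hΨ (rm A *ᵥ Pi.single (f k) 1)
    have a2 := hW (rm A *ᵥ Pi.single (f k) 1)
    have a3 := TT_mul hA hd J
      ((2 * q : ℝ) • Pi.single (f k) 1 + (-1 : ℝ) • rm W *ᵥ (rm A *ᵥ Pi.single (f k) 1))
    have a4 := s5ii_add2 PosSemidef.one ((2 * q : ℝ) • (Pi.single (f k) 1 : Fin n → ℝ))
      ((-1 : ℝ) • rm W *ᵥ (rm A *ᵥ Pi.single (f k) 1))
    rw [s5ii_smul, s5ii_smul, e3] at a4
    rw [e2] at a1 a2
    have a5 := mul_le_mul_of_nonneg_left (a4.trans (show _ ≤ (8 + 2 * (n : ℝ) ^ 3) * (Q : ℝ) ^ 2 by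
      nlinarith)) (show (0 : ℝ) ≤ (n : ℝ) ^ 2 + 1 by positivity)
    have a6 := mul_le_mul_of_nonneg_right n1 hQ2.le
    have a7 := mul_le_mul_of_nonneg_right n2 hQ2.le
    rw [mulVec_add, mulVec_smul, mulVec_smul, neg_one_smul, ← sub_eq_add_neg, ← hid] at a3
    rw [e1, s5ii_T1]
    nlinarith
  have h3 := s5ii_top hT (TT_ge A J) (q : ℤ) U
  have h4 := card_le_of_hg hE.ind
  have h5 : Fintype.card {i // i ∉ J} = Jᶜ.card := Fintype.card_of_subtype _ fun x => mem_compl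
  simp only [Fintype.card_sum, Fintype.card_fin] at h1 h2 h3 h4
  rw [h5] at h1
  have h6 := (gr_posDef hT hU).det_pos
  have h7 : (2 : ℝ) ^ (v + r) * 2 ^ (v + r) ≤ 32 ^ n := by
    rw [← pow_add, show (32 : ℝ) = 2 ^ 5 by norm_num, ← pow_mul]
    exact pow_le_pow_right₀ (by norm_num) (by omega)
  generalize (n : ℝ) ^ 8 * (Q : ℝ) ^ 2 = l at *
  refine h1.trans ((mul_le_mul_of_nonneg_left (h2.trans (mul_le_mul_of_nonneg_right h3
    (by positivity))) (by positivity)).trans ?_)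
  calc _ = (2 : ℝ) ^ (v + r) * 2 ^ (v + r) * ((gr (TT A J) U).det * l ^ (Jᶜ.card + r)) := by
        rw [mul_pow, pow_add, pow_add]
        ring
    _ ≤ 32 ^ n * ((gr (TT A J) U).det * l ^ (Jᶜ.card + r)) :=
        mul_le_mul_of_nonneg_right h7 (by positivity)
    _ = _ := by ring

end Vale.Agent.P160
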