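import Vale.Agent.P160.VolA
import Vale.Agent.P160.Resample
import Vale.Agent.P160.Odl
import Vale.Agent.P160.Comb

/-!
P160 task VolB. Keep the statements unchanged; add lemmas freely (start them with `volb_`).

`close_le`: `pr_resample_le` with `O = Ks`, `J = Ksᶜ`, `H` = span of the columns `i ∈ I` of `A` (entries in rows of `J` are not resampled;
column `k` of the resampled matrix on `J` is `Z k`), `robust`, and `θ |J| ≤ θ n ≤ e h`.
`vol_whp`: `Vol` is monotone in `c`, so assume `γ ≤ 1/2`. `c = ⌊γ n⌋`, `n₀ = ⌈n/4⌉`, `K` a large constant (`K ≥ 100/γ`), `α` from `bin (1/2) 1`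
(wlog `α ≤ 1`). Phase 1: `h = s = n/4`, `e = ⌊α s⌋ + 1`, `θ₁ = α n / 32`; the fraction is at most `2^(-s/2)`. Phase 2: `h = s = (c - K)/2`, `e = 1`,
`θ₂ = γ/4`; the fraction is `2^(-s)`. Union over the `4^n` pairs `(I, Ks)`. `hnum`: `5 n₀ ≥ 5n/4`.
-/

set_option linter.unusedSectionVars false
set_option linter.unusedVariables false

namespace Vale.Agent.P160

open Finset Matrix Filter

theorem close_le {n h s e : ℕ} {I Ks : Finset (Fin n)} (hd : Disjoint I Ks) {θ : ℝ}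
    (hθ : θ * n ≤ e * h) (hdim : I.card + h + s + Ks.card ≤ n) :
    pr n (fun A => ∀ k ∈ Ks, ∃ t : Fin n → ℝ,
      ∑ l, ((A l k : ℝ) - ∑ i ∈ I, t i * (A l i : ℝ)) ^ 2 < θ) ≤
      ((∑ j ∈ range e, (s.choose j : ℝ)) / 2 ^ s) ^ Ks.card := by
  classical
  let H : ZM n → Submodule ℝ (Fin n → ℝ) := fun A =>
    Submodule.span ℝ ((I.image fun i => fun l => (A l i : ℝ) : Finset (Fin n → ℝ)) : Set _)
  have hc : (Ksᶜ).card + Ks.card = n := by
    rw [Finset.card_compl_add_card, Fintype.card_fin]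
  refine (pr_resample_le (O := Ks) (J := Ksᶜ) disjoint_compl_right _ (fun _ => ({()} : Finset Unit))
    (fun A _ _ σ => ∃ y ∈ H A, (∑ i ∈ Ksᶜ, ((σ i : ℝ) - y i) ^ 2) * (Ksᶜ).card < e * h)
    (p := (∑ j ∈ range e, (s.choose j : ℝ)) / 2 ^ s) (m := 1) (by positivity)
    (fun _ _ => by simp) (fun A _ _ _ k _ => ?_) (fun A _ Z _ hE => ⟨(), by simp, fun k hk => ?_⟩)).trans
    (by simp)
  · have h1 : Module.finrank ℝ (H A) ≤ I.card :=
      (finrank_span_finset_le_card _).trans Finset.card_image_le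
    have h2 := robust (H A) Ksᶜ (h := h) (s := s) e (by omega)
    rw [Fintype.card_fin] at h2
    rw [div_mul_eq_mul_div, le_div_iff₀ (by positivity), mul_comm _ ((2 : ℝ) ^ n)]
    exact_mod_cast h2
  · obtain ⟨t, ht⟩ := hE k hk
    refine ⟨∑ i ∈ I, t i • fun l => (A l i : ℝ), Submodule.sum_mem _ fun i hi =>
      Submodule.smul_mem _ _ (Submodule.subset_span (Finset.mem_coe.2 (mem_image_of_mem _ hi))), ?_⟩
    have h1 : ∑ l ∈ Ksᶜ, ((Z k l : ℝ) - (∑ i ∈ I, t i • fun l => (A l i : ℝ)) l) ^ 2 ≤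
        ∑ l, ((rs Ks Ksᶜ A Z l k : ℝ) - ∑ i ∈ I, t i * (rs Ks Ksᶜ A Z l i : ℝ)) ^ 2 := by
      refine le_trans (le_of_eq (sum_congr rfl fun l hl => ?_))
        (sum_le_sum_of_subset_of_nonneg (subset_univ Ksᶜ) fun _ _ _ => sq_nonneg _)
      have hl' : l ∉ Ks := mem_compl.1 hl
      have e1 : rs Ks Ksᶜ A Z l k = Z k l := by simp [rs, hl', hk]
      have e2 : ∀ i ∈ I, rs Ks Ksᶜ A Z l i = A l i := fun i hi => by
        simp [rs, hl', Finset.disjoint_left.1 hd hi]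
      have e3 : ∑ i ∈ I, t i * (rs Ks Ksᶜ A Z l i : ℝ) = ∑ i ∈ I, t i * (A l i : ℝ) :=
        sum_congr rfl fun i hi => by rw [e2 i hi]
      rw [e1, Finset.sum_apply, e3]
      rfl
    have hn : (0 : ℝ) < n := by exact_mod_cast k.pos
    have h3 : ((Ksᶜ).card : ℝ) ≤ n := by exact_mod_cast (by omega : (Ksᶜ).card ≤ n)
    refine lt_of_le_of_lt (mul_le_mul h1 h3 (by positivity) (by positivity)) ?_
    exact (mul_lt_mul_of_pos_right ht hn).trans_le hθ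

theorem volb_and {n : ℕ} {P : Prop} {E : ZM n → Prop} {b : ℝ} (hb : 0 ≤ b)
    (h : P → pr n E ≤ b) : pr n (fun A => P ∧ E A) ≤ b := by
  by_cases hP : P
  · exact (pr_mono fun _ _ hA => hA.2).trans (h hP)
  · simpa [pr, hP] using hb

theorem volb_one {α : ℝ} (hα : 0 < α) (hb : ∀ m d : ℕ, (d : ℝ) ≤ α * m →
      ∑ j ∈ range (d + 1), (m.choose j : ℝ) * ((1 : ℕ) : ℝ) ^ j ≤ (2 : ℝ) ^ ((1 / 2 : ℝ) * m))
    {n K : ℕ} (hK : 20 ≤ K) (hn : 8 * K ≤ n) {I Ks : Finset (Fin n)} (hd : Disjoint I Ks)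
    (hKs : Ks.card = 2 * K) (hI : I.card < n / 4 + 1) :
    pr n (fun A => ∀ k ∈ Ks, ∃ t : Fin n → ℝ,
      ∑ l, ((A l k : ℝ) - ∑ i ∈ I, t i * (A l i : ℝ)) ^ 2 < α / 32 * n) ≤ (1 / 2) ^ (4 * n) := by
  obtain ⟨s, hs⟩ : ∃ s, s = n / 4 := ⟨_, rfl⟩
  have h5 : n ≤ 5 * s := by omega
  have h5' : (n : ℝ) ≤ 5 * s := by exact_mod_cast h5
  have hs0 : (0 : ℝ) ≤ s := by positivity
  have hn0 : (0 : ℝ) ≤ n := by positivity
  refine (close_le (h := s) (s := s) (e := ⌊α * s⌋₊ + 1) hd ?_ (by omega)).trans ?_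
  · have h1 := Nat.lt_floor_add_one (α * s)
    have h2 : (n : ℝ) * n ≤ 5 * s * (5 * s) := mul_self_le_mul_self hn0 h5'
    push_cast
    nlinarith [mul_le_mul_of_nonneg_left h2 hα.le, mul_le_mul_of_nonneg_right h1.le hs0,
      mul_nonneg hα.le (mul_nonneg hs0 hs0)]
  · have h1 := hb s ⌊α * s⌋₊ (Nat.floor_le (by positivity))
    simp only [Nat.cast_one, one_pow, mul_one] at h1
    have h2 : ((2 : ℝ) ^ ((1 / 2 : ℝ) * s)) ^ 2 = 2 ^ s := by
      rw [← Real.rpow_natCast, ← Real.rpow_mul zero_le_two, ← Real.rpow_natCast]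
      congr 1
      push_cast
      ring
    have h3 := pow_le_pow_left₀ (by positivity) h1 2
    have h4 : ((∑ j ∈ range (⌊α * s⌋₊ + 1), (s.choose j : ℝ)) / 2 ^ s) ^ 2 ≤ (1 / 2) ^ s := by
      rw [div_pow, div_le_iff₀ (by positivity), one_div, inv_pow, sq ((2 : ℝ) ^ s),
        inv_mul_cancel_left₀ (by positivity)]
      exact h3.trans h2.le
    rw [hKs, pow_mul]
    refine (pow_le_pow_left₀ (by positivity) h4 K).trans ?_
    rw [← pow_mul]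
    exact pow_le_pow_of_le_one (by norm_num) (by norm_num) (by nlinarith)

theorem volb_two {γ : ℝ} (hγ : 0 < γ) {n K : ℕ} (hK : 16 ≤ γ * K) (hn : 2 * K + 4 ≤ γ * n)
    {I Ks : Finset (Fin n)} (hd : Disjoint I Ks) (hKs : Ks.card = K)
    (hI : I.card + ⌊γ * n⌋₊ < n) :
    pr n (fun A => ∀ k ∈ Ks, ∃ t : Fin n → ℝ,
      ∑ l, ((A l k : ℝ) - ∑ i ∈ I, t i * (A l i : ℝ)) ^ 2 < γ / 4) ≤ (1 / 2) ^ (4 * n) := by
  have h1 := Nat.lt_floor_add_one (γ * n)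
  obtain ⟨c, hc⟩ : ∃ c, c = ⌊γ * n⌋₊ := ⟨_, rfl⟩
  rw [← hc] at h1 hI
  have hK0 : (0 : ℝ) ≤ K := by positivity
  have hn0 : (0 : ℝ) ≤ n := by positivity
  have h2 : K ≤ c := by
    have : (K : ℝ) < c := by linarith
    exact_mod_cast this.le
  obtain ⟨s, hs⟩ : ∃ s, s = (c - K) / 2 := ⟨_, rfl⟩
  have h3 : c ≤ 2 * s + K + 1 := by omega
  have h3' : (c : ℝ) ≤ 2 * s + K + 1 := by exact_mod_cast h3
  have h4 : γ / 4 * n ≤ s := by linarith
  refine (close_le (h := s) (s := s) (e := 1) hd (by simpa using h4) (by omega)).trans ?_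
  have h5 : 4 * n ≤ s * K := by
    have : (4 : ℝ) * n ≤ s * K := by
      nlinarith [mul_le_mul_of_nonneg_right h4 hK0, mul_le_mul_of_nonneg_right hK hn0]
    exact_mod_cast this
  rw [hKs, sum_range_one, Nat.choose_zero_right, Nat.cast_one, one_div, ← inv_pow, ← pow_mul,
    one_div]
  exact pow_le_pow_of_le_one (by norm_num) (by norm_num) h5

theorem volb_num {a b : ℝ} (ha : 0 < a) (hb : 0 < b) {n : ℕ} (h1 : 1 ≤ a * n)
    (h2 : 1 ≤ a ^ 5 * b ^ 20 * n) : (n : ℝ) ^ n ≤ ((a * n) ^ (n / 4 + 1) * b ^ n) ^ 5 := by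
  have hn0 : (0 : ℝ) ≤ n := by positivity
  refine le_of_pow_le_pow_left₀ (n := 4) (by norm_num) (by positivity) ?_
  have h3 : (n : ℝ) ^ 4 ≤ (a * n) ^ 5 * b ^ 20 := by
    calc (n : ℝ) ^ 4 = 1 * n ^ 4 := (one_mul _).symm
      _ ≤ a ^ 5 * b ^ 20 * n * n ^ 4 := mul_le_mul_of_nonneg_right h2 (by positivity)
      _ = _ := by ring
  calc ((n : ℝ) ^ n) ^ 4 = ((n : ℝ) ^ 4) ^ n := by rw [← pow_mul, ← pow_mul, mul_comm]
    _ ≤ ((a * n) ^ 5 * b ^ 20) ^ n := pow_le_pow_left₀ (by positivity) h3 n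
    _ = (a * n) ^ (5 * n) * b ^ (20 * n) := by rw [mul_pow _ _ n, ← pow_mul, ← pow_mul]
    _ ≤ (a * n) ^ ((n / 4 + 1) * 20) * b ^ (20 * n) :=
      mul_le_mul_of_nonneg_right (pow_le_pow_right₀ h1 (by omega)) (by positivity)
    _ = _ := by
      rw [← pow_mul _ 5 4, mul_pow _ _ (5 * 4), ← pow_mul, ← pow_mul, mul_comm n]

theorem volb_main {γ : ℝ} (hγ : 0 < γ) (hγ2 : γ ≤ 1 / 2) :
    ∀ᶠ n : ℕ in atTop, pr n (fun A => ¬ Vol A ⌊γ * n⌋₊) ≤ (1 / 2 : ℝ) ^ n := by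
  obtain ⟨α, hα, hb⟩ := bin (ε := 1 / 2) (by norm_num) 1
  obtain ⟨K, hK⟩ := exists_nat_ge (max 20 (8 / γ))
  have hK1 : 20 ≤ K := by exact_mod_cast (le_max_left _ _).trans hK
  have hK2 : 16 ≤ γ * ((2 * K : ℕ) : ℝ) := by
    have := (div_le_iff₀ hγ).1 ((le_max_right _ _).trans hK)
    push_cast
    linarith
  have hev : ∀ a r : ℝ, 0 < a → ∀ᶠ n : ℕ in atTop, r ≤ a * n := fun a r ha =>
    (tendsto_natCast_atTop_atTop.const_mul_atTop ha).eventually_ge_atTop r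
  filter_upwards [eventually_ge_atTop (8 * K), hev (α / 32) 1 (by positivity),
    hev ((α / 32) ^ 5 * (γ / 4) ^ 20) 1 (by positivity),
    hev γ (2 * ((2 * K : ℕ) : ℝ) + 4) hγ] with n h1 h2 h3 h4
  have hn0 : (0 : ℝ) ≤ n := by positivity
  have c1 : 2 * ⌊γ * n⌋₊ ≤ n := by
    have := Nat.floor_le (mul_nonneg hγ.le hn0)
    have : (2 : ℝ) * ⌊γ * n⌋₊ ≤ n := by nlinarith
    exact_mod_cast this
  have c2 : 2 * K ≤ ⌊γ * n⌋₊ := Nat.le_floor (by
    have : (0 : ℝ) ≤ ((2 * K : ℕ) : ℝ) := by positivity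
    linarith)
  let E : Finset (Fin n) × Finset (Fin n) → ZM n → Prop := fun p A =>
    Disjoint p.1 p.2 ∧ p.2.card = 2 * K ∧
      ((p.1.card < n / 4 + 1 ∧ ∀ k ∈ p.2, ∃ t : Fin n → ℝ,
          ∑ l, ((A l k : ℝ) - ∑ i ∈ p.1, t i * (A l i : ℝ)) ^ 2 < α / 32 * n) ∨
        (p.1.card + ⌊γ * n⌋₊ < n ∧ ∀ k ∈ p.2, ∃ t : Fin n → ℝ,
          ∑ l, ((A l k : ℝ) - ∑ i ∈ p.1, t i * (A l i : ℝ)) ^ 2 < γ / 4))
  have hE : ∀ p, pr n (E p) ≤ (1 / 2) ^ (4 * n) + (1 / 2) ^ (4 * n) := fun p =>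
    volb_and (by positivity) fun hd => volb_and (by positivity) fun hc =>
      (pr_or _ _).trans (add_le_add
        (volb_and (by positivity) fun hI => volb_one hα hb hK1 h1 hd hc hI)
        (volb_and (by positivity) fun hI => volb_two hγ hK2 h4 hd hc hI))
  refine (pr_mono (F := fun A => ∃ p ∈ (univ : Finset _), E p A) fun A _ hA => ?_).trans
    ((pr_exists _ _).trans ((sum_le_sum fun p _ => hE p).trans ?_))
  · obtain ⟨I, Ks, h⟩ := vol_struct (n₀ := n / 4 + 1) (K := 2 * K) (θ₁ := α / 32 * n)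
      (θ₂ := γ / 4) (by linarith) (by positivity) (by linarith) (by omega) c2
      (volb_num (by positivity) (by positivity) h2 h3) hA
    exact ⟨(I, Ks), mem_univ _, h⟩
  · obtain ⟨m, rfl⟩ : ∃ m, n = m + 1 := ⟨n - 1, by omega⟩
    rw [sum_const, card_univ, Fintype.card_prod, Fintype.card_finset, Fintype.card_fin,
      nsmul_eq_mul]
    push_cast
    have e1 : (2 : ℝ) ^ (m + 1) * (1 / 2) ^ (m + 1) = 1 := by rw [← mul_pow]; norm_num
    have e2 : ((1 : ℝ) / 2) ^ (4 * (m + 1)) = ((1 / 2) ^ (m + 1)) ^ 4 := by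
      rw [← pow_mul, mul_comm]
    have e3 : ((1 : ℝ) / 2) ^ (m + 1) ≤ 1 / 2 := by
      rw [pow_succ]
      have : ((1 : ℝ) / 2) ^ m ≤ 1 := pow_le_one₀ (by norm_num) (by norm_num)
      linarith
    have e4 : (0 : ℝ) ≤ (1 / 2) ^ (m + 1) := by positivity
    rw [e2]
    generalize ((1 : ℝ) / 2) ^ (m + 1) = x at *
    generalize (2 : ℝ) ^ (m + 1) = y at *
    have : y * y * (x ^ 4 + x ^ 4) = 2 * x ^ 2 * (y * x) ^ 2 := by ring
    rw [this, e1]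
    nlinarith

theorem vol_whp {γ : ℝ} (hγ : 0 < γ) :
    ∀ᶠ n : ℕ in atTop, pr n (fun A => ¬ Vol A ⌊γ * n⌋₊) ≤ (1 / 2 : ℝ) ^ n := by
  filter_upwards [volb_main (lt_min hγ (by norm_num : (0 : ℝ) < 1 / 2)) (min_le_right _ _)]
    with n hn
  refine (pr_mono fun A _ hA hV => hA ?_).trans hn
  obtain ⟨J, hJ, h⟩ := hV
  exact ⟨J, hJ.trans (Nat.floor_le_floor
    (mul_le_mul_of_nonneg_right (min_le_left _ _) (by positivity))), h⟩

end Vale.Agent.P160
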