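import Vale.Agent.P160.Core
import Vale.Agent.P160.Index
import Vale.Agent.P160.DenB
import Vale.Agent.P160.Elim
import Vale.Agent.P160.S5I
import Vale.Agent.P160.S5II
import Vale.Agent.P160.Cork
import Vale.Agent.P160.VolB

/-!
P160 task IL. Keep the statements unchanged; add lemmas freely (start them with `il_`).

`N, μ` from `core`, `a` from `den`, `ξ` from `il_params N a`, `c₀` from `den` at `h₀ = ξ`, then `core` with `η = c₀/2`, `ζ = ξ`.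
The event is contained in `¬ Cork (n^a) ⌊ξ n⌋ ∨ ¬ Vol ⌊ξ n⌋ ∨ ∃ C ∈ F, det ≠ 0 ∧ ¬ Rep` (probability `≤ 2^(-c₀ n²/2) ≤ 2^(-n)`):
if `IL1` fails, `exists_basis` gives `B`, `Rich ε B 1 X`; `elim`, `s5_index`, `hg U = det (gr 1 U)` contradict the first inequality of
`il_params`. If `IL2` fails, take `J` from `Vol`, `Rich ε 1 (TT A J) X` (`TT_cube`), `elim`, `s5_det`; `TT_det_ge` gives
`n^(2n) ≤ hg^10 ≤ (det T)^10 det A^20 ≤ (det T)^10 n^n`. (The bounds are monotone in the exponents since `n⁸ Q² ≥ 1`.)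
-/

set_option linter.unusedSectionVars false
set_option linter.unusedVariables false

namespace Vale.Agent.P160

open Finset Matrix Filter

theorem il_one {n N a c h j g v : ℕ} {ε δ : ℝ} (hn : 2 ≤ n) {A : ZM n} (hA : A ∈ SS n)
    (hd : A.det ≠ 0) (hC : Cork A (n ^ a) c) {P : Matrix (Fin n) (Fin g) ℤ}
    (hR : Rep A P (n ^ a) h) {U : Matrix (Fin n) (Fin v) ℤ} (hU : hg U ≠ 0) (hN : Near P U j)
    (hdet : (gr 1 U).det ≤ 4 * (8 * (N : ℝ) ^ 2) ^ n) (L : Submodule ℤ (Fin n → ℤ))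
    (hL : ∀ u, A *ᵥ u ∈ L) (hUL : ∀ e, U *ᵥ e ∈ L) :
    (L.toAddSubgroup.index : ℝ) ^ 2 ≤ 4 ^ n * ((n : ℝ) ^ a) ^ (2 * (c + 1)) *
      (4 * (8 * (N : ℝ) ^ 2) ^ n) * ((n : ℝ) ^ 8 * ((n : ℝ) ^ a) ^ 2) ^ (h + j) := by
  obtain ⟨q, r, Ψ, W, f, hr, hE⟩ := elim hA hd hR hU hN
  have h1 := s5_index hn hA hd hE hC L hL hUL
  have h2 : (L.toAddSubgroup.index : ℝ) ^ 2 ≤ 4 ^ n * ((n : ℝ) ^ a) ^ (2 * (c + 1)) * (hg U : ℝ) *
      ((n : ℝ) ^ 8 * ((n : ℝ) ^ a) ^ 2) ^ r := by exact_mod_cast h1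
  rw [det_gr_one] at hdet
  have hn1 : (1 : ℝ) ≤ n := by exact_mod_cast (by omega : 1 ≤ n)
  have h3 : (1 : ℝ) ≤ (n : ℝ) ^ 8 * ((n : ℝ) ^ a) ^ 2 :=
    one_le_mul_of_one_le_of_one_le (one_le_pow₀ hn1) (one_le_pow₀ (one_le_pow₀ hn1))
  refine h2.trans (mul_le_mul (mul_le_mul_of_nonneg_left hdet (by positivity))
    (pow_le_pow_right₀ h3 hr) (by positivity) (by positivity))

theorem il_two {n N a c h j g v : ℕ} (hn : 2 ≤ n) {A : ZM n} (hA : A ∈ SS n)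
    (hd : A.det ≠ 0) {J : Finset (Fin n)} (hJ : Jᶜ.card ≤ c)
    (hV : (n : ℤ) ^ n ≤ hg (A.submatrix id (Subtype.val : {i // i ∈ J} → Fin n)) ^ 5)
    (h20 : A.det ^ 20 ≤ (n : ℤ) ^ n) {P : Matrix (Fin n) (Fin g) ℤ}
    (hR : Rep A P (n ^ a) h) {U : Matrix (Fin n) (Fin v) ℤ} (hU : hg U ≠ 0) (hN : Near P U j)
    (hdet : (gr (TT A J) U).det ≤ 4 * (8 * (N : ℝ) ^ 2) ^ n) :
    (n : ℝ) ^ n ≤ (32 ^ n * (4 * (8 * (N : ℝ) ^ 2) ^ n) *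
      ((n : ℝ) ^ 8 * ((n : ℝ) ^ a) ^ 2) ^ (c + (h + j))) ^ 10 := by
  obtain ⟨q, r, Ψ, W, f, hr, hE⟩ := elim hA hd hR hU hN
  have h1 := s5_det hn hA hd hU hE J
  have hn1 : (1 : ℝ) ≤ n := by exact_mod_cast (by omega : 1 ≤ n)
  have h3 : (1 : ℝ) ≤ (n : ℝ) ^ 8 * ((n : ℝ) ^ a) ^ 2 :=
    one_le_mul_of_one_le_of_one_le (one_le_pow₀ hn1) (one_le_pow₀ (one_le_pow₀ hn1))
  have h2 : (TT A J).det ≤ 32 ^ n * (4 * (8 * (N : ℝ) ^ 2) ^ n) *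
      ((n : ℝ) ^ 8 * ((n : ℝ) ^ a) ^ 2) ^ (c + (h + j)) := by
    refine h1.trans ?_
    push_cast
    exact mul_le_mul (mul_le_mul_of_nonneg_left hdet (by positivity))
      (pow_le_pow_right₀ h3 (by omega)) (by positivity) (by positivity)
  have hT : 0 ≤ (TT A J).det := (TT_posDef A J).det_pos.le
  refine le_trans ?_ (pow_le_pow_left₀ hT h2 10)
  have h4 := TT_det_ge hA hd J
  set G : ℝ := (hg (A.submatrix id (Subtype.val : {i // i ∈ J} → Fin n)) : ℝ) with hG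
  have hG0 : 0 ≤ G := by rw [hG]; exact_mod_cast hg_nonneg _
  have h5 : (n : ℝ) ^ n ≤ G ^ 5 := by rw [hG]; exact_mod_cast hV
  have h6 : (A.det : ℝ) ^ 20 ≤ (n : ℝ) ^ n := by exact_mod_cast h20
  have hp : (0 : ℝ) < (n : ℝ) ^ n := by positivity
  have h7 : G ^ 10 ≤ (TT A J).det ^ 10 * (A.det : ℝ) ^ 20 := by
    calc G ^ 10 ≤ ((TT A J).det * (A.det : ℝ) ^ 2) ^ 10 := pow_le_pow_left₀ hG0 h4 10
      _ = _ := by ring
  have h8 : (n : ℝ) ^ n * (n : ℝ) ^ n ≤ (TT A J).det ^ 10 * (n : ℝ) ^ n := by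
    calc (n : ℝ) ^ n * (n : ℝ) ^ n ≤ G ^ 5 * G ^ 5 := mul_le_mul h5 h5 hp.le (by positivity)
      _ = G ^ 10 := by ring
      _ ≤ _ := h7.trans (mul_le_mul_of_nonneg_left h6 (by positivity))
  exact le_of_mul_le_mul_right h8 hp

theorem il_qf_sign {n : ℕ} {x : Fin n → ℤ} (hx : x ∈ Sg (Fin n)) : qf 1 (iv x) ≤ 2 * n := by
  rw [qf_one]
  have h : ∀ i, iv x i ^ 2 = 1 := fun i => by
    rcases mem_Sg.1 hx i with h | h <;> simp [iv, h]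
  simp only [h, sum_const, card_univ, Fintype.card_fin, nsmul_eq_mul, mul_one]
  have : (0 : ℝ) ≤ n := Nat.cast_nonneg n
  linarith

theorem il {ε δ : ℝ} (hε : 0 < ε) (hδ : 0 < δ) : ∀ᶠ n : ℕ in atTop,
    pr n (fun A => A.det ≠ 0 ∧ ¬ (IL1 ε δ A ∧ IL2 ε A)) ≤ 3 * (1 / 2 : ℝ) ^ n := by
  classical
  obtain ⟨N, μ, hN, hμ, hcore⟩ := core hε
  obtain ⟨a, ha⟩ := den hμ
  obtain ⟨ξ, hξ, hpar⟩ := il_params N a hδ
  obtain ⟨c₀, hc₀, hden⟩ := ha ξ hξ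
  have hbig : ∀ᶠ n : ℕ in atTop, 2 / c₀ ≤ (n : ℝ) :=
    tendsto_natCast_atTop_atTop.eventually_ge_atTop _
  filter_upwards [hcore (c₀ / 2) (half_pos hc₀) ξ hξ, hpar, hden, cork_whp hξ a, vol_whp hξ, hbig]
    with n ⟨F, hF, hFm, hFr⟩ ⟨hn, hp⟩ hd hck hvol hb
  set c := ⌊ξ * n⌋₊ with hc
  have hc1 : (c : ℝ) ≤ ξ * n := Nat.floor_le (by positivity)
  have hsub : ∀ A ∈ SS n, (A.det ≠ 0 ∧ ¬ (IL1 ε δ A ∧ IL2 ε A)) →
      (¬ Cork A (n ^ a) c ∨ ¬ Vol A c) ∨ ∃ C ∈ F, A.det ≠ 0 ∧ ¬ Rep A C.2 (n ^ a) c := by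
    intro A hA ⟨hdet, hno⟩
    by_contra hcon
    simp only [not_or, not_not, not_exists, not_and] at hcon
    obtain ⟨⟨hCk, J, hJ, hV⟩, hRep⟩ := hcon
    refine hno ⟨fun L hL hidx => ?_, fun h20 => ?_⟩
    · by_contra hlt
      obtain ⟨B, hB, hBL⟩ := exists_basis hdet L hL
      obtain ⟨C, hCF, v, U, j, hU, ⟨Z, hZ⟩, hdU, hj, hNear⟩ := hFr B 1 _
        ⟨hB, Matrix.PosDef.one, fun _ => le_rfl, filter_subset _ _,
          fun x hx => (hBL x).1 (mem_filter.1 hx).2,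
          fun x hx => il_qf_sign (mem_filter.1 hx).1, (not_le.1 hlt).le⟩
      have h1 := il_one (ε := ε) (δ := δ) hn hA hdet hCk (hRep C hCF hdet) hU hNear hdU L hL
        fun e => (hBL _).2 ⟨Z *ᵥ e, by rw [hZ, mulVec_mulVec]⟩
      have h2 := (hp c (c + j) hc1 (by push_cast; linarith)).1
      have h3 : nn δ n ^ 2 ≤ (L.toAddSubgroup.index : ℝ) ^ 2 :=
        pow_le_pow_left₀ (Real.exp_pos _).le hidx 2
      linarith
    · by_contra hlt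
      obtain ⟨C, hCF, v, U, j, hU, -, hdU, hj, hNear⟩ := hFr 1 (TT A J) _
        ⟨by simp, TT_posDef A J, TT_ge A J, filter_subset _ _,
          fun x hx => ⟨x, by simp⟩,
          fun x hx => TT_cube hA hdet J (mem_filter.1 hx).1 (mem_filter.1 hx).2, (not_le.1 hlt).le⟩
      have h1 := il_two hn hA hdet hJ hV h20 (hRep C hCF hdet) hU hNear hdU
      have h2 := (hp c (c + j) hc1 (by push_cast; linarith)).2
      linarith
  refine (pr_mono hsub).trans ((pr_or _ _).trans ?_)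
  have e1 := pr_or (n := n) (fun A => ¬ Cork A (n ^ a) c) fun A => ¬ Vol A c
  have e2 := pr_exists (n := n) F fun C A => A.det ≠ 0 ∧ ¬ Rep A C.2 (n ^ a) c
  have e3 : ∑ C ∈ F, pr n (fun A => A.det ≠ 0 ∧ ¬ Rep A C.2 (n ^ a) c) ≤
      F.card • (2 : ℝ) ^ (-c₀ * (n : ℝ) ^ 2) :=
    sum_le_card_nsmul _ _ _ fun C hC => hd C.1 C.2 (hFm C hC).1 (hFm C hC).2.1 (hFm C hC).2.2
  have e4 : F.card • (2 : ℝ) ^ (-c₀ * (n : ℝ) ^ 2) ≤ (1 / 2 : ℝ) ^ n := by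
    rw [nsmul_eq_mul]
    refine (mul_le_mul_of_nonneg_right hF (by positivity)).trans ?_
    rw [← Real.rpow_add two_pos, one_div, inv_pow, ← Real.rpow_natCast (2 : ℝ) n,
      ← Real.rpow_neg two_pos.le]
    refine Real.rpow_le_rpow_of_exponent_le one_le_two ?_
    rw [div_le_iff₀ hc₀] at hb
    have : (0 : ℝ) ≤ n := Nat.cast_nonneg n
    nlinarith [mul_le_mul_of_nonneg_left hb this]
  linarith

end Vale.Agent.P160
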