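import Vale.Agent.P160.Triple
import Vale.Agent.P160.Divs

/-!
P160 task XCount. Keep the statements unchanged; add lemmas freely (start them with `xcount_`).

Three parts. First: union over `f ∈ Dv`, `index_tors`, `IL1`. Second: `IL2`. Third: let `X₃` be the sign vectors of the third kind with chosen
witnesses; call `x` close to `x₀` if `e = den (x ⬝ᵥ u₀ / o₀)` has `e³ ≤ 2d`. By `triple` and `sol_symm` no three members are pairwise far, so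
`X₃` is covered by the vectors close to `x₀` and those close to `x₁` (`x₁` far from `x₀` if there is one; every member is close to itself since
`x ⬝ᵥ u / o = ±1`). If `x` is close to `x₀` then `e ∣ |o₀|`, `m = |o₀| / e ≥ y` (cube both sides), `m ∣ x ⬝ᵥ u₀`, `exists_Dv_dvd` gives
`f ∈ Dv` with `f ∣ m`; `L = {z | f ∣ z ⬝ᵥ u₀}` contains `A s` (`(A s) ⬝ᵥ u₀ = o₀ (s ⬝ᵥ x₀)`), `index_dot`, `IL1`.
-/

set_option linter.unusedSectionVars false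
set_option linter.unusedVariables false

namespace Vale.Agent.P160

open Finset Matrix Filter

theorem xcount_cover {n : ℕ} {B : ℝ} (D : Finset ℕ) (P : (Fin n → ℤ) → Prop) [DecidablePred P]
    (Q : ℕ → (Fin n → ℤ) → Prop) [∀ f, DecidablePred (Q f)] (h : ∀ x, P x → ∃ f ∈ D, Q f x)
    (hQ : ∀ f ∈ D, (((Sg (Fin n)).filter (Q f)).card : ℝ) ≤ B) :
    (((Sg (Fin n)).filter P).card : ℝ) ≤ D.card * B := by
  have h1 : (Sg (Fin n)).filter P ⊆ D.biUnion fun f => (Sg (Fin n)).filter (Q f) := by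
    intro x hx
    rw [Finset.mem_filter] at hx
    obtain ⟨f, hf, hq⟩ := h x hx.2
    exact Finset.mem_biUnion.2 ⟨f, hf, Finset.mem_filter.2 ⟨hx.1, hq⟩⟩
  have h2 := (Finset.card_le_card h1).trans Finset.card_biUnion_le
  calc (((Sg (Fin n)).filter P).card : ℝ)
      ≤ ∑ f ∈ D, (((Sg (Fin n)).filter (Q f)).card : ℝ) := by exact_mod_cast h2
    _ ≤ ∑ f ∈ D, B := Finset.sum_le_sum hQ
    _ = D.card * B := by rw [Finset.sum_const, nsmul_eq_mul]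

theorem xcount_sub {n : ℕ} {ε δ : ℝ} {A : ZM n} (h1 : IL1 ε δ A) (L : Submodule ℤ (Fin n → ℤ))
    (hL : ∀ u, A *ᵥ u ∈ L) (hi : nn δ n ≤ (L.toAddSubgroup.index : ℝ))
    (Q : (Fin n → ℤ) → Prop) [DecidablePred Q] (hQ : ∀ x, Q x → x ∈ L) :
    (((Sg (Fin n)).filter Q).card : ℝ) ≤ (2 : ℝ) ^ (ε * n) := by
  classical
  refine le_trans ?_ (h1 L hL hi)
  refine Nat.cast_le.2 (Finset.card_le_card fun x hx => ?_)
  rw [Finset.mem_filter] at hx ⊢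
  exact ⟨hx.1, hQ x hx.2⟩

theorem xcount_empty {n : ℕ} {B : ℝ} (hB : 0 ≤ B) (Q : (Fin n → ℤ) → Prop) [DecidablePred Q]
    (hQ : ∀ x, ¬ Q x) :
    (((Sg (Fin n)).filter Q).card : ℝ) ≤ B := by
  rw [Finset.filter_false_of_mem fun x _ => hQ x]
  simpa using hB

theorem xcount_or {n : ℕ} (P Q R : (Fin n → ℤ) → Prop) [DecidablePred P] [DecidablePred Q]
    [DecidablePred R] (h : ∀ x, P x → Q x ∨ R x) :
    (((Sg (Fin n)).filter P).card : ℝ) ≤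
      ((Sg (Fin n)).filter Q).card + ((Sg (Fin n)).filter R).card := by
  have h1 : (Sg (Fin n)).filter P ⊆ (Sg (Fin n)).filter Q ∪ (Sg (Fin n)).filter R := by
    intro x hx
    rw [Finset.mem_filter] at hx
    rw [Finset.mem_union, Finset.mem_filter, Finset.mem_filter]
    exact (h x hx.2).imp (fun h => ⟨hx.1, h⟩) fun h => ⟨hx.1, h⟩
  exact_mod_cast (Finset.card_le_card h1).trans (Finset.card_union_le _ _)

theorem xcount_mem_Dv {d y f : ℕ} (h : f ∈ Dv d y) : f ∣ d ∧ y ≤ f := by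
  classical
  unfold Dv at h
  simp only [Finset.mem_filter] at h
  exact ⟨Nat.dvd_of_mem_divisors h.1, h.2.1⟩

open Classical in
theorem xcount_one {n y : ℕ} {ε δ : ℝ} {A : ZM n} (hd : A.det ≠ 0) (h1 : IL1 ε δ A)
    (hy' : 2 ^ n * nn δ n ≤ y) :
    (((Sg (Fin n)).filter fun x => ∃ f ∈ Dv A.det.natAbs y, Nat.Coprime f (A.det.natAbs / f) ∧
      ∃ s : Fin n → ℤ, A *ᵥ s = ((2 * (A.det.natAbs / f) : ℕ) : ℤ) • x).card : ℝ) ≤
      (Dv A.det.natAbs y).card * (2 : ℝ) ^ (ε * n) := by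
  refine xcount_cover _ _ (fun f x => Nat.Coprime f (A.det.natAbs / f) ∧
    ∃ s : Fin n → ℤ, A *ᵥ s = ((2 * (A.det.natAbs / f) : ℕ) : ℤ) • x) (fun x h => h) fun f hf => ?_
  by_cases hc : Nat.Coprime f (A.det.natAbs / f)
  swap
  · exact xcount_empty (by positivity) _ fun x h => hc h.1
  obtain ⟨hf1, hf2⟩ := xcount_mem_Dv hf
  let L : Submodule ℤ (Fin n → ℤ) := (LinearMap.range A.mulVecLin).comap
    (((2 * (A.det.natAbs / f) : ℕ) : ℤ) • LinearMap.id)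
  have hL : ∀ z, z ∈ L ↔ ∃ s, A *ᵥ s = ((2 * (A.det.natAbs / f) : ℕ) : ℤ) • z := fun z => Iff.rfl
  refine xcount_sub h1 L (fun u => (hL _).2 ⟨((2 * (A.det.natAbs / f) : ℕ) : ℤ) • u, ?_⟩) ?_ _
    fun x h => (hL x).2 h.2
  · rw [Matrix.mulVec_smul]
  · have h3 : (f : ℝ) ≤ 2 ^ n * (L.toAddSubgroup.index : ℝ) := by
      exact_mod_cast index_tors hd hf1 hc L hL
    have h4 : (y : ℝ) ≤ f := by exact_mod_cast hf2
    exact le_of_mul_le_mul_left (hy'.trans (h4.trans h3)) (by positivity)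

theorem xcount_den {a o : ℤ} {D y : ℕ} (ho : o ≠ 0) (hD : 0 < D) (h : D * y ^ 3 ≤ o.natAbs ^ 3)
    (he : ((a : ℚ) / o).den ^ 3 ≤ D) : ∃ m : ℕ, m ∣ o.natAbs ∧ y ≤ m ∧ (m : ℤ) ∣ a := by
  have h1 : (((a : ℚ) / o).den : ℤ) ∣ o := by
    have := Rat.den_dvd a o
    rwa [Rat.divInt_eq_div] at this
  obtain ⟨k, hk⟩ := h1
  have h2 : (a : ℚ) * ((a : ℚ) / o).den = ((a : ℚ) / o).num * o := by
    have h3 := Rat.mul_den_eq_num ((a : ℚ) / o)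
    have h4 : (o : ℚ) ≠ 0 := by exact_mod_cast ho
    rw [← h3]
    field_simp
  have h5 : a * ((a : ℚ) / o).den = ((a : ℚ) / o).num * o := by exact_mod_cast h2
  have h6 : (((a : ℚ) / o).den : ℤ) ≠ 0 := by exact_mod_cast ((a : ℚ) / o).den_nz
  generalize ((a : ℚ) / o).den = e at *
  generalize ((a : ℚ) / o).num = r at *
  have h7 : o.natAbs = e * k.natAbs := by rw [hk, Int.natAbs_mul, Int.natAbs_natCast]
  refine ⟨k.natAbs, ⟨e, by rw [h7, mul_comm]⟩, ?_, ?_⟩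
  · have h8 : D * y ^ 3 ≤ D * k.natAbs ^ 3 := by
      refine h.trans ?_
      rw [h7, mul_pow]
      exact Nat.mul_le_mul_right _ he
    exact (Nat.pow_le_pow_iff_left (by norm_num)).1 (Nat.le_of_mul_le_mul_left h8 hD)
  · rw [Int.natAbs_dvd]
    refine ⟨r, mul_right_cancel₀ h6 ?_⟩
    rw [h5, hk]
    ring

open Classical in
theorem xcount_close {n y : ℕ} {ε δ : ℝ} {A : ZM n} (hA : A ∈ SS n) (hd : A.det ≠ 0)
    (h1 : IL1 ε δ A) (hy : 2 ≤ y) (hy' : 2 ^ n * nn δ n ≤ y) {x₀ u₀ : Fin n → ℤ} {o₀ : ℤ}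
    (h₀ : Sol A x₀ o₀ u₀) (ho : 2 * A.det.natAbs * y ^ 3 ≤ o₀.natAbs ^ 3) :
    (((Sg (Fin n)).filter fun x =>
      (((x ⬝ᵥ u₀ : ℤ) : ℚ) / o₀).den ^ 3 ≤ 2 * A.det.natAbs).card : ℝ) ≤
      (Dv A.det.natAbs y).card * (2 : ℝ) ^ (ε * n) := by
  have hd' : A.det.natAbs ≠ 0 := Int.natAbs_ne_zero.2 hd
  refine xcount_cover _ _ (fun f x => (f : ℤ) ∣ o₀ ∧ (f : ℤ) ∣ x ⬝ᵥ u₀) (fun x h => ?_)
    fun f hf => ?_
  · obtain ⟨m, hm1, hm2, hm3⟩ := xcount_den (h₀.o_ne hd) (by omega) ho h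
    obtain ⟨f, hf, hfm⟩ := exists_Dv_dvd hd' (hm1.trans h₀.o_dvd) hy hm2
    exact ⟨f, hf, Int.natCast_dvd.2 (hfm.trans hm1), (Int.natCast_dvd_natCast.2 hfm).trans hm3⟩
  by_cases hc : (f : ℤ) ∣ o₀
  swap
  · exact xcount_empty (by positivity) _ fun x h => hc h.1
  obtain ⟨hf1, hf2⟩ := xcount_mem_Dv hf
  let L : Submodule ℤ (Fin n → ℤ) :=
    { carrier := {z | (f : ℤ) ∣ z ⬝ᵥ u₀}
      add_mem' := fun {a b} ha hb => by
        change (f : ℤ) ∣ (a + b) ⬝ᵥ u₀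
        rw [add_dotProduct]
        exact dvd_add ha hb
      zero_mem' := by
        change (f : ℤ) ∣ 0 ⬝ᵥ u₀
        rw [zero_dotProduct]
        exact dvd_zero _
      smul_mem' := fun c a ha => by
        change (f : ℤ) ∣ (c • a) ⬝ᵥ u₀
        rw [smul_dotProduct]
        exact Dvd.dvd.mul_left ha c }
  have hL : ∀ z, z ∈ L ↔ (f : ℤ) ∣ z ⬝ᵥ u₀ := fun z => Iff.rfl
  obtain ⟨e1, -, c, c₀, e2⟩ := h₀
  refine xcount_sub h1 L (fun u => (hL _).2 ?_) ?_ _ fun x h => (hL x).2 h.2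
  · have hT : Aᵀ = A := by
      ext i j
      exact ((mem_SS.1 hA).2 i j).symm
    rw [dotProduct_comm, Matrix.dotProduct_mulVec, ← Matrix.mulVec_transpose, hT, e1,
      smul_dotProduct]
    exact Dvd.dvd.mul_right hc _
  · rw [index_dot e2 hc L hL]
    have h4 : (y : ℝ) ≤ f := by exact_mod_cast hf2
    have h5 : 0 ≤ nn δ n := (Real.exp_pos _).le
    have h6 : (1 : ℝ) ≤ 2 ^ n := one_le_pow₀ (by norm_num)
    nlinarith

open Classical in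
theorem xcount_three {n y : ℕ} {ε δ : ℝ} {A : ZM n} (hA : A ∈ SS n) (hd : A.det ≠ 0)
    (h1 : IL1 ε δ A) (hy : 2 ≤ y) (hy' : 2 ^ n * nn δ n ≤ y) :
    (((Sg (Fin n)).filter fun x => ∃ (o : ℤ) (u : Fin n → ℤ), Sol A x o u ∧
      2 * A.det.natAbs * y ^ 3 ≤ o.natAbs ^ 3).card : ℝ) ≤
      2 * (Dv A.det.natAbs y).card * (2 : ℝ) ^ (ε * n) := by
  by_cases h0 : ∃ (x : Fin n → ℤ) (o : ℤ) (u : Fin n → ℤ), Sol A x o u ∧
      2 * A.det.natAbs * y ^ 3 ≤ o.natAbs ^ 3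
  swap
  · exact xcount_empty (by positivity) _ fun x h => h0 ⟨x, h⟩
  obtain ⟨x₀, o₀, u₀, h₀, ho₀⟩ := h0
  have key : ∃ (x₁ : Fin n → ℤ) (o₁ : ℤ) (u₁ : Fin n → ℤ), Sol A x₁ o₁ u₁ ∧
      2 * A.det.natAbs * y ^ 3 ≤ o₁.natAbs ^ 3 ∧ ∀ x, (∃ (o : ℤ) (u : Fin n → ℤ), Sol A x o u ∧
        2 * A.det.natAbs * y ^ 3 ≤ o.natAbs ^ 3) →
        (((x ⬝ᵥ u₀ : ℤ) : ℚ) / o₀).den ^ 3 ≤ 2 * A.det.natAbs ∨
          (((x ⬝ᵥ u₁ : ℤ) : ℚ) / o₁).den ^ 3 ≤ 2 * A.det.natAbs := by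
    by_cases h2 : ∀ x, (∃ (o : ℤ) (u : Fin n → ℤ), Sol A x o u ∧
        2 * A.det.natAbs * y ^ 3 ≤ o.natAbs ^ 3) →
        (((x ⬝ᵥ u₀ : ℤ) : ℚ) / o₀).den ^ 3 ≤ 2 * A.det.natAbs
    · exact ⟨x₀, o₀, u₀, h₀, ho₀, fun x hx => Or.inl (h2 x hx)⟩
    simp only [not_forall, not_le] at h2
    obtain ⟨x₁, ⟨o₁, u₁, h₁, ho₁⟩, hfar⟩ := h2
    refine ⟨x₁, o₁, u₁, h₁, ho₁, fun x hx => ?_⟩
    obtain ⟨o, u, hs, -⟩ := hx
    by_contra hcon
    rw [not_or, not_le, not_le] at hcon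
    have h3 := triple hA hd hs h₁ h₀
    have h4 := Nat.pow_le_pow_left h3 3
    rw [mul_pow, mul_pow] at h4
    have h5 := Nat.mul_lt_mul'' (Nat.mul_lt_mul'' hcon.2 hcon.1) hfar
    have h6 : 2 * A.det.natAbs * (2 * A.det.natAbs) * (2 * A.det.natAbs) =
      (2 * A.det.natAbs) ^ 3 := by ring
    omega
  obtain ⟨x₁, o₁, u₁, h₁, ho₁, hx⟩ := key
  have h7 := xcount_or _ _ _ hx
  have h8 := xcount_close hA hd h1 hy hy' h₀ ho₀
  have h9 := xcount_close hA hd h1 hy hy' h₁ ho₁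
  linarith

open Classical in
theorem hit_card {n y : ℕ} {ε δ : ℝ} {A : ZM n} (hA : A ∈ SS n) (hd : A.det ≠ 0) (h1 : IL1 ε δ A)
    (h2 : IL2 ε A) (hy : 2 ≤ y) (hy' : 2 ^ n * nn δ n ≤ y) :
    (((Sg (Fin n)).filter (Hit y A)).card : ℝ) ≤
      (3 * (Dv A.det.natAbs y).card + 1) * (2 : ℝ) ^ (ε * n) := by
  have e1 := xcount_one hd h1 hy'
  have e3 := xcount_three hA hd h1 hy hy'
  have e2 : (((Sg (Fin n)).filter fun x => A.det ^ 20 ≤ (n : ℤ) ^ n ∧ InCube A x).card : ℝ) ≤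
      (2 : ℝ) ^ (ε * n) := by
    by_cases hc : A.det ^ 20 ≤ (n : ℤ) ^ n
    · refine le_trans ?_ (h2 hc)
      refine Nat.cast_le.2 (Finset.card_le_card fun x hx => ?_)
      rw [Finset.mem_filter] at hx ⊢
      exact ⟨hx.1, hx.2.2⟩
    · exact xcount_empty (by positivity) _ fun x h => hc h.1
  have e4 := xcount_or (Hit y A) _ _ fun x h => h
  have e5 := xcount_or (fun x => (A.det ^ 20 ≤ (n : ℤ) ^ n ∧ InCube A x) ∨
    ∃ (o : ℤ) (u : Fin n → ℤ), Sol A x o u ∧ 2 * A.det.natAbs * y ^ 3 ≤ o.natAbs ^ 3) _ _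
    fun x h => h
  linarith

end Vale.Agent.P160
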