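import Vale.Agent.P160.Cases
import Vale.Agent.P160.XCount
import Vale.Agent.P160.Resample
import Vale.Agent.P160.Odl

/-!
P160 task Rec. Keep the statements unchanged; add lemmas freely (start them with `rec_`).

A singular `A` is sparse, or all principal minors vanish, or `cases_hit` applies. Second case: more than `s'` indices `i` have `v i ≠ 0`
(`good_card`), and for these `E (mn A i) (cl A i)` holds with `E A' x := det A' = 0 ∧ ∀ w, A' w = 0 → x ⬝ᵥ w = 0` (`cl_orth`); `pr_many`,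
`pr_dec_le` with `F = (det = 0)`, `Bad = Sparse · s`, `p = 1/√s` (`exists_prim_ker`, `good_card`, `lo`). Third case: `pr_exists`, `pr_dec_le`
with `F = (det ≠ 0)`, `hit_card`, `natAbs_det_le`.
`rec_solve`: induction from the index where the recursion starts.
-/

set_option linter.unusedSectionVars false
set_option linter.unusedVariables false

namespace Vale.Agent.P160

open Finset Matrix Filter

theorem rec_two {n s : ℕ} (s' : ℕ) (hs : 1 ≤ s) :
    pr (n + 1) (fun A => A.det = 0 ∧ ¬ Sparse A s' ∧ ∀ i, (mn A i).det = 0) ≤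
      ((n : ℝ) + 1) / (s' + 1) *
        (pr n (fun A => Sparse A s) + pr n (fun A => A.det = 0) / √(s : ℝ)) := by
  have h0 : 0 < √(s : ℝ) := Real.sqrt_pos.2 (by exact_mod_cast hs)
  have h1 := pr_many (n := n + 1) (m := s' + 1)
    (E := fun A => A.det = 0 ∧ ¬ Sparse A s' ∧ ∀ i, (mn A i).det = 0)
    (F := fun i A => (mn A i).det = 0 ∧ ∀ w, mn A i *ᵥ w = 0 → cl A i ⬝ᵥ w = 0) (by
      rintro A hA ⟨hd, hS, hm⟩
      obtain ⟨v, c, hv, hc⟩ := exists_prim_ker hd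
      refine le_trans (good_card hS hv hc).2.2 (card_le_card fun i hi => ?_)
      simp only [mem_filter, mem_univ, true_and] at hi ⊢
      exact ⟨hm i, fun w hw => cl_orth hA hv hi hw⟩)
  have h2 := fun i : Fin (n + 1) => pr_dec_le i (p := 1 / √(s : ℝ))
    (E := fun A x => A.det = 0 ∧ ∀ w, A *ᵥ w = 0 → x ⬝ᵥ w = 0) (F := fun A => A.det = 0)
    (Bad := fun A => Sparse A s) (by positivity) (fun A x h => h.1) (by
      intro A hA hd hS
      obtain ⟨v, c, hv, hc⟩ := exists_prim_ker hd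
      have h3 := lo v (good_card hS hv hc).2.2.le
      rw [Fintype.card_fin, ← le_div_iff₀ h0] at h3
      rw [one_div_mul_eq_div]
      refine le_trans (Nat.cast_le.2 (card_le_card fun x hx => ?_)) h3
      simp only [mem_filter] at hx ⊢
      exact ⟨hx.1, hx.2.2 v hv⟩)
  have h3 := h1.trans (sum_le_sum fun i _ => h2 i)
  rw [sum_const, card_univ, Fintype.card_fin, nsmul_eq_mul, one_div_mul_eq_div] at h3
  rw [div_mul_eq_mul_div, le_div_iff₀ (by positivity)]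
  push_cast at h3
  linarith

theorem rec_three {n y : ℕ} {ε δ D : ℝ} (hy : 2 ≤ y) (hy' : 2 ^ n * nn δ n ≤ y) (hD0 : 0 ≤ D)
    (hD : ∀ d : ℕ, 1 ≤ d → d ≤ n ^ n → ((Dv d y).card : ℝ) ≤ D) :
    pr (n + 1) (fun A => ∃ i ∈ univ, (mn A i).det ≠ 0 ∧ Hit y (mn A i) (cl A i)) ≤
      ((n : ℝ) + 1) * ((3 * D + 1) * (2 : ℝ) ^ (ε * n) / 2 ^ n +
        pr n (fun A => A.det ≠ 0 ∧ ¬ (IL1 ε δ A ∧ IL2 ε A))) := by
  have h0 : 0 ≤ (3 * D + 1) * (2 : ℝ) ^ (ε * n) / 2 ^ n := by positivity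
  have h2 := fun i : Fin (n + 1) => pr_dec_le i (E := fun A x => A.det ≠ 0 ∧ Hit y A x)
    (F := fun A => A.det ≠ 0) (Bad := fun A => A.det ≠ 0 ∧ ¬ (IL1 ε δ A ∧ IL2 ε A)) h0
    (fun A x h => h.1) (by
      intro A hA hd hS
      obtain ⟨h3, h4⟩ : IL1 ε δ A ∧ IL2 ε A := not_not.1 fun h => hS ⟨hd, h⟩
      have h5 := hD _ (Int.natAbs_pos.2 hd) (natAbs_det_le hA)
      have h6 := hit_card hA hd h3 h4 hy hy'
      have h7 : (3 * ((Dv A.det.natAbs y).card : ℝ) + 1) * (2 : ℝ) ^ (ε * n) ≤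
          (3 * D + 1) * (2 : ℝ) ^ (ε * n) :=
        mul_le_mul_of_nonneg_right (by linarith) (by positivity)
      rw [div_mul_cancel₀ _ (by positivity)]
      refine le_trans (Nat.cast_le.2 (card_le_card fun x hx => ?_)) (h6.trans h7)
      simp only [mem_filter] at hx ⊢
      exact ⟨hx.1, hx.2.2⟩)
  have h3 := mul_le_of_le_one_right h0 (pr_le_one (n := n) fun A => A.det ≠ 0)
  have h4 := pr_exists (n := n + 1) univ
    fun i A => (mn A i).det ≠ 0 ∧ Hit y (mn A i) (cl A i)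
  have h5 := sum_le_sum fun i (_ : i ∈ univ) => (h2 i).trans (add_le_add h3 le_rfl)
  rw [sum_const, card_univ, Fintype.card_fin, nsmul_eq_mul, Nat.cast_add, Nat.cast_one] at h5
  exact h4.trans h5

theorem rec_step {n s s' y : ℕ} {ε δ D : ℝ} (hs : 1 ≤ s) (hy : 2 ≤ y) (hy' : 2 ^ n * nn δ n ≤ y)
    (hnum : ∀ κ : ℕ, κ ^ s' < y ^ (n + 1) → (4 * y ^ 6 * κ ^ 3) ^ 20 ≤ n ^ n) (hD0 : 0 ≤ D)
    (hD : ∀ d : ℕ, 1 ≤ d → d ≤ n ^ n → ((Dv d y).card : ℝ) ≤ D) :
    pr (n + 1) (fun A => A.det = 0) ≤ pr (n + 1) (fun A => Sparse A s') +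
      ((n : ℝ) + 1) / (s' + 1) *
        (pr n (fun A => Sparse A s) + pr n (fun A => A.det = 0) / √(s : ℝ)) +
      ((n : ℝ) + 1) * ((3 * D + 1) * (2 : ℝ) ^ (ε * n) / 2 ^ n +
        pr n (fun A => A.det ≠ 0 ∧ ¬ (IL1 ε δ A ∧ IL2 ε A))) := by
  refine le_trans (pr_mono fun A hA hd => ?_) ((pr_or _ _).trans (add_le_add ((pr_or _ _).trans
    (add_le_add le_rfl (rec_two s' hs))) (rec_three hy hy' hD0 hD)))
  by_cases hS : Sparse A s'
  · exact Or.inl (Or.inl hS)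
  by_cases hm : ∀ i, (mn A i).det = 0
  · exact Or.inl (Or.inr ⟨hd, hS, hm⟩)
  obtain ⟨i₀, h₀⟩ := not_forall.1 hm
  obtain ⟨i, hi⟩ := cases_hit hA hd hS h₀ hy hnum
  exact Or.inr ⟨i, mem_univ i, hi⟩

theorem rec_solve {a : ℕ → ℝ} {r : ℝ} (hr : 1 / 2 ≤ r)
    (h : ∀ᶠ n in atTop, a (n + 1) ≤ a n / 4 + r ^ (n + 1)) : ∃ C : ℝ, ∀ᶠ n in atTop, a n ≤ C * r ^ n := by
  obtain ⟨N, hN⟩ := eventually_atTop.1 h
  have h0 : 0 < r := by linarith
  refine ⟨max (a N / r ^ N) 2, eventually_atTop.2 ⟨N, fun n hn => ?_⟩⟩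
  induction n, hn using Nat.le_induction with
  | base => exact (div_le_iff₀ (by positivity)).1 (le_max_left _ _)
  | succ n hn ih =>
    have h1 := le_max_right (a N / r ^ N) 2
    generalize max (a N / r ^ N) 2 = C at ih h1
    have h2 := hN n hn
    have h3 := pow_pos h0 n
    rw [pow_succ] at h2 ⊢
    nlinarith [mul_nonneg (mul_nonneg (sub_nonneg.2 h1) h3.le) h0.le,
      mul_nonneg (mul_nonneg (by linarith : 0 ≤ C) h3.le) (sub_nonneg.2 hr)]

end Vale.Agent.P160
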