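import Vale.Agent.P160.Gram

/-!
P160 task Schur. Keep the statements unchanged; add lemmas freely (start them with `schur_`).

Schur complements. With `G = fromBlocks A B C D` symmetric, `A` invertible:
`qf G (a,b) = qf A (a + A⁻¹ B b) + qf (D - C A⁻¹ B) b`. `det_gr_cols`: `gr T (fromCols P Y)` has first block `gr T P`.
`det_gr_ext`: the Gram matrix of `[P, Y Z]` is `Mᵀ (gr T [P, Y]) M` with `M = fromBlocks 1 0 0 Z`; its Schur complement is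
`gr (sch ..) Z`. `sch_anti`: for `b`, choose the minimiser `a` for the smaller family (`qf_split` with `a = -A⁻¹ B b`); the real vector
`rm B₀ a` lies in the real span of the columns of `P` (columnwise: `c • B₀ e = P z`), then `qf_sch_le` and `det_mono`.
`sub_det`: `det (l G₀ + Nᵀ G₁ N) = det (l G₀) det (1 + G₁ Y)` with `Y = N (l G₀)⁻¹ Nᵀ` (`Matrix.det_one_add_mul_comm`),
`Y ≤ G⁻¹` and `G₁⁻¹ ≤ G⁻¹` as forms (use `qf G⁻¹ x = max over y of 2 x·y - qf G y`), so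
`det (1 + G₁ Y) = det G₁ det (G₁⁻¹ + Y) ≤ det G₁ det (2 G⁻¹)`.
-/

set_option linter.unusedSectionVars false
set_option linter.unusedVariables false

namespace Vale.Agent.P160

open Finset Matrix MeasureTheory

variable {ι κ : Type} [Fintype ι] [DecidableEq ι] [Fintype κ] [DecidableEq κ]

theorem schur_symm {G : Matrix (ι ⊕ κ) (ι ⊕ κ) ℝ} (hG : G.PosSemidef) :
    G.toBlocks₂₁ = G.toBlocks₁₂ᴴ ∧ G.toBlocks₂₂ᴴ = G.toBlocks₂₂ := by
  refine ⟨?_, (hG.submatrix Sum.inr).1⟩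
  ext i j
  exact (hG.1.apply (Sum.inr i) (Sum.inl j)).symm

theorem schur_qf_inr (G : Matrix (ι ⊕ κ) (ι ⊕ κ) ℝ) (b : κ → ℝ) :
    qf G (Sum.elim 0 b) = qf G.toBlocks₂₂ b := by
  simp [qf, dotProduct, mulVec, toBlocks₂₂]

theorem schur_min {G : Matrix (ι ⊕ κ) (ι ⊕ κ) ℝ} (a : ι → ℝ) :
    qf G.toBlocks₁₁ (-a + a) = 0 := by
  simp [qf]

theorem toBlocks₁₁_posDef {G : Matrix (ι ⊕ κ) (ι ⊕ κ) ℝ} (hG : G.PosDef) : G.toBlocks₁₁.PosDef := by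
  exact hG.submatrix Sum.inl_injective

theorem qf_split {G : Matrix (ι ⊕ κ) (ι ⊕ κ) ℝ} (hG : G.PosSemidef) (h1 : G.toBlocks₁₁.PosDef)
    (a : ι → ℝ) (b : κ → ℝ) : qf G (Sum.elim a b) =
      qf G.toBlocks₁₁ (a + (G.toBlocks₁₁⁻¹ * G.toBlocks₁₂) *ᵥ b) + qf (sch G) b := by
  have := h1.isUnit.invertible
  have h := schur_complement_eq₁₁ G.toBlocks₁₂ G.toBlocks₂₂ a b h1.1
  rw [← (schur_symm hG).1, fromBlocks_toBlocks] at h
  simpa only [star_trivial, ← dotProduct_mulVec, qf, sch] using h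

theorem qf_sch_le {G : Matrix (ι ⊕ κ) (ι ⊕ κ) ℝ} (hG : G.PosSemidef) (h1 : G.toBlocks₁₁.PosDef)
    (a : ι → ℝ) (b : κ → ℝ) : qf (sch G) b ≤ qf G (Sum.elim a b) := by
  rw [qf_split hG h1]
  exact le_add_of_nonneg_left ((posSemidef_iff.1 h1.posSemidef).2 _)

theorem sch_posSemidef {G : Matrix (ι ⊕ κ) (ι ⊕ κ) ℝ} (hG : G.PosSemidef)
    (h1 : G.toBlocks₁₁.PosDef) : (sch G).PosSemidef := by
  refine posSemidef_iff.2 ⟨?_, fun b => ?_⟩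
  · obtain ⟨h2, h3⟩ := schur_symm hG
    rw [← conjTranspose_eq_transpose_of_trivial, sch, h2, conjTranspose_sub, h3]
    exact congrArg _ (isHermitian_conjTranspose_mul_mul _ h1.inv.1)
  · have h := (posSemidef_iff.1 hG).2 (Sum.elim (-((G.toBlocks₁₁⁻¹ * G.toBlocks₁₂) *ᵥ b)) b)
    rwa [qf_split hG h1, schur_min, zero_add] at h

theorem sch_posDef {G : Matrix (ι ⊕ κ) (ι ⊕ κ) ℝ} (hG : G.PosDef) : (sch G).PosDef := by
  have h1 := toBlocks₁₁_posDef hG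
  refine posDef_iff.2 ⟨(posSemidef_iff.1 (sch_posSemidef hG.posSemidef h1)).1, fun b hb => ?_⟩
  have h := (posDef_iff.1 hG).2 (Sum.elim (-((G.toBlocks₁₁⁻¹ * G.toBlocks₁₂) *ᵥ b)) b)
    fun h => hb (funext fun k => congrFun h (Sum.inr k))
  rwa [qf_split hG.posSemidef h1, schur_min, zero_add] at h

theorem det_eq_sch {G : Matrix (ι ⊕ κ) (ι ⊕ κ) ℝ} (h1 : G.toBlocks₁₁.PosDef) :
    G.det = G.toBlocks₁₁.det * (sch G).det := by
  have := h1.isUnit.invertible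
  conv_lhs => rw [← fromBlocks_toBlocks G]
  rw [det_fromBlocks₁₁, invOf_eq_nonsing_inv, sch]

theorem fischer {G : Matrix (ι ⊕ κ) (ι ⊕ κ) ℝ} (hG : G.PosSemidef) :
    G.det ≤ G.toBlocks₁₁.det * G.toBlocks₂₂.det := by
  have h2 : G.toBlocks₂₂.PosSemidef := hG.submatrix Sum.inr
  rcases eq_or_ne G.det 0 with h | h
  · rw [h]
    exact mul_nonneg (hG.submatrix Sum.inl).det_nonneg h2.det_nonneg
  have h1 := toBlocks₁₁_posDef (hG.posDef_iff_det_ne_zero.2 h)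
  rw [det_eq_sch h1]
  exact mul_le_mul_of_nonneg_left (det_mono (sch_posSemidef hG h1) h2 fun b =>
    (qf_sch_le hG h1 0 b).trans_eq (schur_qf_inr G b)) h1.det_pos.le

variable {μ ν : Type} [Fintype μ] [DecidableEq μ] [Fintype ν] [DecidableEq ν]

theorem schur_cols (T : Matrix ι ι ℝ) (P : Matrix ι κ ℤ) (Y : Matrix ι μ ℤ) :
    gr T (fromCols P Y) =
      fromBlocks (gr T P) ((rm P)ᵀ * T * rm Y) ((rm Y)ᵀ * T * rm P) (gr T Y) := by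
  rw [gr, rm, fromCols_map, transpose_fromCols, fromRows_mul, fromRows_mul_fromCols]
  rfl

theorem schur_qf_cols (T : Matrix ι ι ℝ) (P : Matrix ι κ ℤ) (Y : Matrix ι μ ℤ) (a : κ → ℝ)
    (b : μ → ℝ) : qf (gr T (fromCols P Y)) (Sum.elim a b) = qf T (rm P *ᵥ a + rm Y *ᵥ b) := by
  rw [qf_gr, rm, fromCols_map, fromCols_mulVec_sumElim]
  rfl

theorem gr_cols₁₁ (T : Matrix ι ι ℝ) (P : Matrix ι κ ℤ) (Y : Matrix ι μ ℤ) :
    (gr T (fromCols P Y)).toBlocks₁₁ = gr T P := by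
  rw [schur_cols, toBlocks_fromBlocks₁₁]

theorem gr_cols₂₂ (T : Matrix ι ι ℝ) (P : Matrix ι κ ℤ) (Y : Matrix ι μ ℤ) :
    (gr T (fromCols P Y)).toBlocks₂₂ = gr T Y := by
  rw [schur_cols, toBlocks_fromBlocks₂₂]

/-- Appending columns of form at most `l`. -/
theorem det_gr_cols_le {T : Matrix ι ι ℝ} (hT : T.PosSemidef) (P : Matrix ι κ ℤ) (Y : Matrix ι μ ℤ)
    {l : ℝ} (h : ∀ k, qf T (iv fun i => Y i k) ≤ l) :
    (gr T (fromCols P Y)).det ≤ (gr T P).det * l ^ Fintype.card μ := by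
  refine (fischer (gr_posSemidef hT _)).trans ?_
  rw [gr_cols₁₁, gr_cols₂₂]
  refine mul_le_mul_of_nonneg_left (det_le_pow (gr_posSemidef hT Y) fun k => (h k).trans_eq' ?_)
    (gr_posSemidef hT P).det_nonneg
  rw [gr, Matrix.mul_assoc]
  rfl

theorem det_gr_ext {T : Matrix ι ι ℝ} (hT : T.PosDef) {P : Matrix ι κ ℤ} (hP : hg P ≠ 0)
    (Y : Matrix ι μ ℤ) (Z : Matrix μ ν ℤ) :
    (gr T (fromCols P (Y * Z))).det = (gr T P).det * (gr (sch (gr T (fromCols P Y))) Z).det := by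
  have h1 := gr_posDef hT hP
  rw [det_eq_sch (by rwa [gr_cols₁₁]), gr_cols₁₁]
  congr 2
  simp only [sch, schur_cols, toBlocks_fromBlocks₁₁, toBlocks_fromBlocks₁₂, toBlocks_fromBlocks₂₁,
    toBlocks_fromBlocks₂₂]
  simp only [gr, rm_mul, transpose_mul, Matrix.mul_sub, Matrix.sub_mul, Matrix.mul_assoc]

theorem hg_ext_ne {P : Matrix ι κ ℤ} {Y : Matrix ι μ ℤ} (h : hg (fromCols P Y) ≠ 0)
    {Z : Matrix μ ν ℤ} (hZ : hg Z ≠ 0) : hg (fromCols P (Y * Z)) ≠ 0 := by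
  refine hg_ne_zero_iff.2 fun z hz => ?_
  rw [fromCols_mulVec, ← mulVec_mulVec, ← fromCols_mulVec_sumElim] at hz
  have h1 := hg_ne_zero_iff.1 h _ hz
  have h2 := hg_ne_zero_iff.1 hZ _ (funext fun k => congrFun h1 (Sum.inr k))
  funext k
  rcases k with k | k
  · exact congrFun h1 (Sum.inl k)
  · exact congrFun h2 k

/-- Volume modulo a larger subspace is smaller. -/
theorem sch_anti {T : Matrix ι ι ℝ} (hT : T.PosDef) {P : Matrix ι κ ℤ} (hP : hg P ≠ 0)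
    {B₀ : Matrix ι μ ℤ} (hB : hg B₀ ≠ 0)
    (hsub : ∀ e : μ → ℤ, ∃ c : ℤ, c ≠ 0 ∧ ∃ z, c • (B₀ *ᵥ e) = P *ᵥ z) (Y : Matrix ι ν ℤ) :
    (sch (gr T (fromCols P Y))).det ≤ (sch (gr T (fromCols B₀ Y))).det := by
  obtain ⟨W, hW⟩ : ∃ W : Matrix κ μ ℝ, rm B₀ = rm P * W := by
    choose c hc z hz using fun k => hsub (Pi.single k 1)
    refine ⟨of fun j k => (z k j : ℝ) / c k, ?_⟩
    ext i k
    have h1 := congrArg (Int.cast : ℤ → ℝ) (congrFun (hz k) i)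
    have h2 : (c k : ℝ) ≠ 0 := Int.cast_ne_zero.2 (hc k)
    simp only [mulVec_single_one, Pi.smul_apply, smul_eq_mul, col_apply, mulVec, dotProduct,
      Int.cast_mul, Int.cast_sum] at h1
    simp only [rm, map_apply, mul_apply, of_apply, ← mul_div_assoc, ← sum_div, ← h1]
    rw [mul_div_cancel_left₀ _ h2]
  have h1 : (gr T (fromCols P Y)).toBlocks₁₁.PosDef := by
    rw [gr_cols₁₁]
    exact gr_posDef hT hP
  have h2 : (gr T (fromCols B₀ Y)).toBlocks₁₁.PosDef := by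
    rw [gr_cols₁₁]
    exact gr_posDef hT hB
  have g1 := gr_posSemidef hT.posSemidef (fromCols P Y)
  have g2 := gr_posSemidef hT.posSemidef (fromCols B₀ Y)
  refine det_mono (sch_posSemidef g1 h1) (sch_posSemidef g2 h2) fun b => ?_
  have h3 := qf_split g2 h2
    (-(((gr T (fromCols B₀ Y)).toBlocks₁₁⁻¹ * (gr T (fromCols B₀ Y)).toBlocks₁₂) *ᵥ b)) b
  rw [schur_min, zero_add, schur_qf_cols, hW, ← mulVec_mulVec, ← schur_qf_cols] at h3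
  exact (qf_sch_le g1 h1 _ b).trans_eq h3

theorem schur_inv_eq {G : Matrix ι ι ℝ} (hG : G.PosDef) (x : ι → ℝ) :
    qf G⁻¹ x = 2 * (x ⬝ᵥ G⁻¹ *ᵥ x) - qf G (G⁻¹ *ᵥ x) := by
  have h : G *ᵥ G⁻¹ *ᵥ x = x := by
    rw [mulVec_mulVec, mul_nonsing_inv _ hG.det_pos.ne'.isUnit, one_mulVec]
  rw [qf, qf, h, dotProduct_comm _ x]
  ring

theorem schur_inv_ge {G : Matrix ι ι ℝ} (hG : G.PosDef) (x y : ι → ℝ) :
    2 * (x ⬝ᵥ y) - qf G y ≤ qf G⁻¹ x := by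
  have h : G *ᵥ G⁻¹ *ᵥ x = x := by
    rw [mulVec_mulVec, mul_nonsing_inv _ hG.det_pos.ne'.isUnit, one_mulVec]
  obtain ⟨h1, h2⟩ := posSemidef_iff.1 hG.posSemidef
  have h3 : (G⁻¹ *ᵥ x) ⬝ᵥ G *ᵥ y = x ⬝ᵥ y := by
    rw [dotProduct_mulVec, ← mulVec_transpose, h1, h]
  have h4 := h2 (y - G⁻¹ *ᵥ x)
  rw [qf, mulVec_sub, h, sub_dotProduct, dotProduct_sub, dotProduct_sub, h3,
    dotProduct_comm y x, dotProduct_comm _ x] at h4
  rw [qf, qf]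
  linarith

theorem sub_det {G₀ : Matrix ι ι ℝ} (h₀ : G₀.PosDef) {G G₁ : Matrix κ κ ℝ} (hG : G.PosDef)
    (h₁ : G₁.PosDef) (hle : ∀ x, qf G x ≤ qf G₁ x) (N : Matrix κ ι ℝ) {l : ℝ} (hl : 0 < l)
    (hN : ∀ c, qf G (N *ᵥ c) ≤ l * qf G₀ c) :
    (l • G₀ + Nᵀ * G₁ * N).det * G.det ≤
      l ^ Fintype.card ι * G₀.det * 2 ^ Fintype.card κ * G₁.det := by
  have hH : (l • G₀).PosDef := h₀.smul hl
  have hY : (N * (l • G₀)⁻¹ * Nᵀ).PosSemidef := by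
    rw [← conjTranspose_eq_transpose_of_trivial]
    exact hH.inv.posSemidef.mul_mul_conjTranspose_same N
  have h1 : (G₁⁻¹ + N * (l • G₀)⁻¹ * Nᵀ).det ≤ (G⁻¹ + G⁻¹).det := by
    refine det_mono (h₁.inv.posSemidef.add hY) (hG.inv.posSemidef.add hG.inv.posSemidef)
      fun x => ?_
    have e1 := schur_inv_eq h₁ x
    have e2 := schur_inv_ge hG x (G₁⁻¹ *ᵥ x)
    have e3 := hle (G₁⁻¹ *ᵥ x)
    have e4 := schur_inv_eq hH (Nᵀ *ᵥ x)
    have e5 := schur_inv_ge hG x (N *ᵥ (l • G₀)⁻¹ *ᵥ Nᵀ *ᵥ x)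
    have e6 := hN ((l • G₀)⁻¹ *ᵥ Nᵀ *ᵥ x)
    have e7 : ∀ c, (Nᵀ *ᵥ x) ⬝ᵥ c = x ⬝ᵥ N *ᵥ c := fun c => by
      rw [dotProduct_mulVec, mulVec_transpose]
    have e8 : ∀ c, qf (l • G₀) c = l * qf G₀ c := fun c => by
      rw [qf, qf, smul_mulVec, dotProduct_smul, smul_eq_mul]
    have e9 : qf (N * (l • G₀)⁻¹ * Nᵀ) x = qf (l • G₀)⁻¹ (Nᵀ *ᵥ x) := by
      rw [qf, qf, e7, mulVec_mulVec, mulVec_mulVec]
    have e10 : ∀ A B : Matrix κ κ ℝ, qf (A + B) x = qf A x + qf B x := fun A B => by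
      rw [qf, qf, qf, add_mulVec, dotProduct_add]
    rw [e7, e8] at e4
    rw [e10, e10, e9]
    linarith
  have h2 : (G⁻¹ + G⁻¹).det * G.det = 2 ^ Fintype.card κ := by
    rw [← two_smul ℝ, det_smul, mul_assoc, ← det_mul, nonsing_inv_mul _ hG.det_pos.ne'.isUnit,
      det_one, mul_one]
  have h3 : l • G₀ + Nᵀ * G₁ * N = (l • G₀) * (1 + (l • G₀)⁻¹ * Nᵀ * G₁ * N) := by
    rw [Matrix.mul_add, Matrix.mul_one, ← Matrix.mul_assoc, ← Matrix.mul_assoc,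
      ← Matrix.mul_assoc, mul_nonsing_inv _ hH.det_pos.ne'.isUnit, Matrix.one_mul]
  have h4 : 1 + N * ((l • G₀)⁻¹ * Nᵀ * G₁) = (G₁⁻¹ + N * (l • G₀)⁻¹ * Nᵀ) * G₁ := by
    rw [Matrix.add_mul, nonsing_inv_mul _ h₁.det_pos.ne'.isUnit, ← Matrix.mul_assoc,
      ← Matrix.mul_assoc]
  rw [h3, det_mul, det_one_add_mul_comm, h4, det_mul, ← h2, ← det_smul]
  have h5 := mul_le_mul_of_nonneg_right h1
    (mul_pos (mul_pos hH.det_pos hG.det_pos) h₁.det_pos).le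
  linarith

end Vale.Agent.P160
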