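import Vale.Agent.P160.Resample
import Vale.Agent.P160.Odl
import Vale.Agent.P160.Gram

/-!
P160 task SparseA. Keep the statements unchanged; add lemmas freely (start them with `sparsea_`).

Odd primes. Pad the support to a set `S` with `|S| = s`. If no `s × s` minor of the block `Sᶜ × S` is nonzero over the integers, the block has a
nonzero integer kernel vector, which can be made primitive, so replace `p` by `3`. Otherwise fix rows `I₀` (`|I₀| = s`) with nonzero minor.
Choose at most `s` rows `I₁ ⊆ Sᶜ` spanning the row space of the block modulo `p`, and `I ⊇ I₀ ∪ I₁`, `I ⊆ Sᶜ`, `|I| = 2s`.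
For fixed `(S, I)` use `pr_resample_le` with `O = Sᶜ \ I`, `J = S`, `T A = insert 3 (odd prime factors of D)` where `D` is a chosen nonzero
minor of the block `I × S` (if there is one; entries in `I × S` are not resampled; `p` divides every minor), `|D| ≤ s! ≤ 2^(s²)`, and
`F A p k σ`: `∑ i ∈ S, σ i • v i = 0` for a chosen nonzero kernel vector `v` modulo `p` of the block `I × S` (make the choice depend only on
the block, e.g. through the matrix `fun i j => if i ∈ I ∧ j ∈ S then A i j else 0`); `half` gives the fraction `1/2`.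
-/

set_option linter.unusedSectionVars false
set_option linter.unusedVariables false

namespace Vale.Agent.P160

open Finset Matrix Filter

theorem sparsea_rows {n : ℕ} (F : Type) [Field F] (A : ZM n) (S : Finset (Fin n)) :
    ∃ I ⊆ Sᶜ, I.card ≤ S.card ∧ ∀ w : S → F, (∀ k ∈ I, ∑ i : S, (A k i : F) * w i = 0) →
      ∀ k ∉ S, ∑ i : S, (A k i : F) * w i = 0 := by
  classical
  let r : Fin n → S → F := fun k i => (A k i : F)
  obtain ⟨b, hb, -, h1, h2⟩ := exists_linearIndepOn_extension (K := F) (v := r)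
    (linearIndepOn_empty F r) (Set.empty_subset ((Sᶜ : Finset (Fin n)) : Set (Fin n)))
  refine ⟨b.toFinset, fun k hk => hb (Set.mem_toFinset.1 hk), ?_, fun w hw k hk => ?_⟩
  · have h3 := h2.linearIndependent.fintype_card_le_finrank
    rwa [Module.finrank_fintype_fun_eq_card, Fintype.card_coe, ← Set.toFinset_card] at h3
  · have h3 : r k ∈ Submodule.span F (r '' b) := h1 ⟨k, mem_coe.2 (mem_compl.2 hk), rfl⟩
    change r k ⬝ᵥ w = 0
    refine Submodule.span_induction (p := fun x _ => x ⬝ᵥ w = 0) ?_ (zero_dotProduct w)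
      (fun x y _ _ hx hy => by rw [add_dotProduct, hx, hy, add_zero])
      (fun c x _ hx => by rw [smul_dotProduct, hx, smul_zero]) h3
    rintro _ ⟨l, hl, rfl⟩
    exact hw l (Set.mem_toFinset.2 hl)

theorem sparsea_pow (s : ℕ) : 2 * s * s ≤ 3 ^ s := by
  induction s with
  | zero => simp
  | succ s ih =>
    rcases Nat.lt_or_ge s 2 with h | h
    · interval_cases s <;> simp
    · rw [pow_succ]
      nlinarith

theorem sparsea_card {ι κ : Type} [Fintype ι] [Fintype κ] [DecidableEq ι] [DecidableEq κ]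
    {M : Matrix ι κ ℤ} (hM : ∀ k i, M k i = 1 ∨ M k i = -1) {s : ℕ} (h1 : Fintype.card κ = s)
    (h2 : Fintype.card ι = 2 * s) : ((hg M).natAbs.primeFactors.erase 2).card ≤ s ^ 2 := by
  rcases eq_or_ne (hg M).natAbs 0 with h0 | h0
  · simp [h0]
  have h3 : ∀ i j, AbsoluteValue.abs ((Mᵀ * M) i j) ≤ ((2 * s : ℕ) : ℤ) := fun i j => by
    rw [AbsoluteValue.abs_apply, Matrix.mul_apply, ← h2]
    refine (abs_sum_le_sum_abs _ _).trans ?_
    rw [← card_univ, card_eq_sum_ones]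
    push_cast
    refine sum_le_sum fun k _ => ?_
    rw [transpose_apply]
    rcases hM k i with h | h <;> rcases hM k j with h' | h' <;> simp [h, h']
  have h4 := Matrix.det_le h3
  rw [AbsoluteValue.abs_apply, h1, nsmul_eq_mul, Int.abs_eq_natAbs] at h4
  have h5 : (hg M).natAbs ≤ s.factorial * (2 * s) ^ s := by exact_mod_cast h4
  have h6 : s.factorial * (2 * s) ^ s ≤ 3 ^ s ^ 2 := by
    refine (Nat.mul_le_mul_right _ s.factorial_le_pow).trans ?_
    rw [← mul_pow, sq, pow_mul, mul_comm s]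
    exact Nat.pow_le_pow_left (sparsea_pow s) s
  have h7 : 3 ^ ((hg M).natAbs.primeFactors.erase 2).card ≤
      ∏ p ∈ (hg M).natAbs.primeFactors.erase 2, p :=
    pow_card_le_prod _ _ _ fun p hp => by
      have h8 := (Nat.prime_of_mem_primeFactors (mem_of_mem_erase hp)).two_le
      have h9 := ne_of_mem_erase hp
      omega
  have h8 : ∏ p ∈ (hg M).natAbs.primeFactors.erase 2, p ≤ (hg M).natAbs :=
    Nat.le_of_dvd (Nat.pos_of_ne_zero h0)
      ((prod_dvd_prod_of_subset _ _ _ (erase_subset _ _)).trans (Nat.prod_primeFactors_dvd _))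
  exact (Nat.pow_le_pow_iff_right (by norm_num)).1 (h7.trans (h8.trans (h5.trans h6)))

theorem sparsea_dvd {ι κ : Type} [Fintype ι] [Fintype κ] [DecidableEq ι] [DecidableEq κ]
    (M : Matrix ι κ ℤ) {p : ℕ} (hp : p.Prime) {w : κ → ZMod p} (hw : w ≠ 0)
    (h : ∀ k, ∑ i, (M k i : ZMod p) * w i = 0) : p ∣ (hg M).natAbs := by
  have := Fact.mk hp
  have h1 : M.map (Int.castRingHom (ZMod p)) *ᵥ w = 0 := funext h
  have h2 : ((Mᵀ * M).map (Int.castRingHom (ZMod p))).det = 0 :=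
    Matrix.exists_mulVec_eq_zero_iff.1 ⟨w, hw, by
      rw [Matrix.map_mul, ← mulVec_mulVec, h1, mulVec_zero]⟩
  rw [← RingHom.mapMatrix_apply, ← RingHom.map_det] at h2
  exact Int.natCast_dvd.1 ((ZMod.intCast_zmod_eq_zero_iff_dvd _ p).1 h2)

/-- The block of rows `I` and columns `S`. -/
def sparsea_blk {n : ℕ} (I S : Finset (Fin n)) (A : ZM n) : Matrix I S ℤ :=
  A.submatrix Subtype.val Subtype.val

/-- Kernel vectors of a block. -/
def sparsea_K {n : ℕ} {I S : Finset (Fin n)} (M : Matrix I S ℤ) (p : ℕ) (w : Fin n → ZMod p) :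
    Prop := (∃ i ∈ S, 2 • w i ≠ 0) ∧ ∀ k, ∑ i : S, (M k i : ZMod p) * w i = 0

/-- The event for fixed `I` and `S`. -/
def sparsea_E {n : ℕ} (I S : Finset (Fin n)) (A : ZM n) : Prop :=
  I ⊆ Sᶜ ∧ ∃ p ∈ insert 0 ((hg (sparsea_blk I S A)).natAbs.primeFactors.erase 2),
    (∃ w, sparsea_K (sparsea_blk I S A) p w) ∧ ∀ w, sparsea_K (sparsea_blk I S A) p w →
      ∀ k ∉ S, ∑ i : S, (A k i : ZMod p) * w i = 0

theorem sparsea_det {n s : ℕ} (hs : 3 * s ≤ n) {A : ZM n} {p : ℕ} (hp : p.Prime) (hp2 : p ≠ 2)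
    {v : Fin n → ZMod p} (hv : v ≠ 0) (T : Finset (Fin n)) (hT : ∀ i, v i ≠ 0 → i ∈ T)
    (hc : T.card ≤ s) (hA : A.map (Int.cast : ℤ → ZMod p) *ᵥ v = 0) :
    ∃ S ∈ powersetCard s (univ : Finset (Fin n)), ∃ I ∈ powersetCard (2 * s) (univ : Finset (Fin n)),
      sparsea_E I S A := by
  classical
  have := Fact.mk hp
  obtain ⟨S, hTS, -, hS⟩ := exists_subsuperset_card_eq (subset_univ T) hc
    (show s ≤ (univ : Finset (Fin n)).card by simp; omega)
  obtain ⟨I₀, h1, h2, h3⟩ := sparsea_rows ℚ A S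
  obtain ⟨I₁, h4, h5, h6⟩ := sparsea_rows (ZMod p) A S
  obtain ⟨I, hI, hIS, hIc⟩ := exists_subsuperset_card_eq (union_subset h1 h4) (n := 2 * s)
    ((card_union_le _ _).trans (by omega)) (by rw [card_compl]; simp; omega)
  refine ⟨S, mem_powersetCard.2 ⟨subset_univ _, hS⟩, I, mem_powersetCard.2 ⟨subset_univ _, hIc⟩,
    hIS, ?_⟩
  by_cases hD : hg (sparsea_blk I S A) = 0
  · refine ⟨0, mem_insert_self _ _, ?_, fun w hw k hk => ?_⟩
    · have h7 := mt hg_ne_zero_iff.2 (not_not.2 hD)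
      push Not at h7
      obtain ⟨z, hz, hz0⟩ := h7
      obtain ⟨i, hi⟩ := Function.ne_iff.1 hz0
      obtain ⟨w, hw⟩ : ∃ w : Fin n → ℤ, ∀ j : S, w j = z j :=
        ⟨fun j => if h : j ∈ S then z ⟨j, h⟩ else 0, fun j => dif_pos j.2⟩
      refine ⟨w, ⟨i, i.2, fun h => hi ?_⟩, fun k => ?_⟩
      · exact (hw i).symm.trans (((smul_eq_zero (M := ℤ)).1 h).resolve_left two_ne_zero)
      · refine Eq.trans (sum_congr rfl fun j _ => ?_) (congrFun hz k)
        exact congrArg (sparsea_blk I S A k j * ·) (hw j)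
    · let w' : Fin n → ℤ := w
      have h7 := h3 (fun i => (w' i : ℚ)) (fun l hl => by
        have h8 : ∑ i : S, A l i * w' i = 0 := hw.2 ⟨l, hI (mem_union_left _ hl)⟩
        exact_mod_cast h8) k hk
      have h8 : ∑ i : S, A k i * w' i = 0 := by exact_mod_cast h7
      exact h8
  · obtain ⟨i, hi⟩ := Function.ne_iff.1 hv
    have hK : ∀ k, ∑ j : S, (A k j : ZMod p) * v j = 0 := fun k => by
      rw [sum_coe_sort S fun j => (A k j : ZMod p) * v j, ← congrFun hA k |>.trans (Pi.zero_apply k)]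
      refine sum_subset (subset_univ _) fun j _ hj => ?_
      rw [not_not.1 (mt (hT j) fun h => hj (hTS h)), mul_zero]
    have h2p : (2 : ZMod p) ≠ 0 := fun h => hp2 ((Nat.prime_dvd_prime_iff_eq hp Nat.prime_two).1
      ((ZMod.natCast_eq_zero_iff 2 p).1 (by exact_mod_cast h)))
    refine ⟨p, mem_insert_of_mem (mem_erase.2 ⟨hp2, Nat.mem_primeFactors.2 ⟨hp, ?_,
      Int.natAbs_ne_zero.2 hD⟩⟩), ⟨v, ⟨i, hTS (hT i hi), ?_⟩, fun k => hK k⟩, fun w hw => ?_⟩
    · exact sparsea_dvd _ hp (w := fun j : S => v j)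
        (Function.ne_iff.2 ⟨⟨i, hTS (hT i hi)⟩, hi⟩) fun k => hK k
    · rw [nsmul_eq_mul]
      exact mul_ne_zero (by exact_mod_cast h2p) hi
    · exact h6 (fun j => w j) fun l hl => hw.2 ⟨l, hI (mem_union_right _ hl)⟩

theorem sparsea_half {α : Type} {T : Finset α} {P Q : α → Prop} {iP : DecidablePred P}
    {iQ : DecidablePred Q} (h : ∀ a, P a → Q a) {n : ℕ} (h2 : 2 * (T.filter Q).card ≤ 2 ^ n) :
    ((T.filter P).card : ℝ) ≤ 1 / 2 * 2 ^ n := by
  have h3 : (T.filter P).card ≤ (T.filter Q).card :=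
    card_le_card fun a ha => mem_filter.2 ⟨(mem_filter.1 ha).1, h a (mem_filter.1 ha).2⟩
  have h4 : ((2 * (T.filter P).card : ℕ) : ℝ) ≤ ((2 ^ n : ℕ) : ℝ) := Nat.cast_le.2 (by omega)
  push_cast at h4
  linarith

theorem sparsea_pr {n s : ℕ} {I S : Finset (Fin n)} (hS : S.card = s) (hI : I.card = 2 * s) :
    pr n (sparsea_E I S) ≤ (s ^ 2 + 1) * (1 / 2 : ℝ) ^ (n - 3 * s) := by
  classical
  by_cases hIS : I ⊆ Sᶜ
  swap
  · refine le_trans (le_of_eq ?_) (by positivity : (0 : ℝ) ≤ _)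
    rw [pr, filter_false_of_mem fun A _ h => hIS h.1]
    simp
  have hch : ∀ (M : Matrix I S ℤ) (p : ℕ), ∃ w, (∃ w', sparsea_K M p w') → sparsea_K M p w :=
    fun M p => by
      by_cases h : ∃ w', sparsea_K M p w'
      · exact h.imp fun w hw _ => hw
      · exact ⟨0, fun h' => absurd h' h⟩
  choose v hv using hch
  have hd : Disjoint (Sᶜ \ I) S := disjoint_left.2 fun k hk => mem_compl.1 (mem_sdiff.1 hk).1
  have hb : ∀ A Z, sparsea_blk I S (rs (Sᶜ \ I) S A Z) = sparsea_blk I S A := fun A Z => by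
    ext k i
    simp only [sparsea_blk, rs, submatrix_apply, of_apply]
    rw [if_neg fun h => (mem_sdiff.1 h.1).2 k.2,
      if_neg fun h => mem_compl.1 (mem_sdiff.1 h.1).1 i.2]
  have h := pr_resample_le hd (sparsea_E I S)
    (fun A => insert 0 ((hg (sparsea_blk I S A)).natAbs.primeFactors.erase 2))
    (fun A p k σ => sparsea_K (sparsea_blk I S A) p (v (sparsea_blk I S A) p) ∧
      ∑ i ∈ S, σ i • v (sparsea_blk I S A) p i = 0) (p := 1 / 2) (m := s ^ 2 + 1) (by norm_num)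
    (fun A hA => (card_insert_le _ _).trans (Nat.add_le_add_right (sparsea_card
      (fun k i => (mem_SS.1 hA).1 _ _) (by simp [hS]) (by simp [hI])) 1))
    (fun A hA p hp k hk => ?_) (fun A hA Z hZ hE => ?_)
  · rw [card_sdiff_of_subset hIS, card_compl, Fintype.card_fin, hS, hI,
      show n - s - 2 * s = n - 3 * s by omega] at h
    exact_mod_cast h
  · by_cases hK : sparsea_K (sparsea_blk I S A) p (v (sparsea_blk I S A) p)
    · obtain ⟨i, hi, h2⟩ := hK.1
      have h3 := half (v (sparsea_blk I S A) p) S hi h2 0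
      rw [Fintype.card_fin] at h3
      exact sparsea_half (fun σ h => h.2) h3
    · exact sparsea_half (Q := fun _ => False) (iQ := inferInstance) (fun σ h => hK h.1) (by simp)
  · obtain ⟨-, p, hp, h1, h2⟩ := hE
    rw [hb] at hp h1 h2
    refine ⟨p, hp, fun k hk => ⟨hv _ _ h1, ?_⟩⟩
    have h3 := h2 _ (hv _ _ h1) k (mem_compl.1 (mem_sdiff.1 hk).1)
    rw [← sum_coe_sort S, ← h3]
    refine sum_congr rfl fun i _ => ?_
    rw [zsmul_eq_mul, rs, of_apply, if_pos ⟨hk, i.2⟩]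

open Classical in
theorem sparse_prime_le {n s : ℕ} (hs : 3 * s ≤ n) :
    pr n (fun A => ∃ p : ℕ, p.Prime ∧ p ≠ 2 ∧ ∃ v : Fin n → ZMod p, v ≠ 0 ∧
      (univ.filter fun i => v i ≠ 0).card ≤ s ∧ A.map (Int.cast : ℤ → ZMod p) *ᵥ v = 0) ≤
      n.choose s * n.choose (2 * s) * (s ^ 2 + 1) * (1 / 2 : ℝ) ^ (n - 3 * s) := by
  refine (pr_mono (F := fun A => ∃ S ∈ powersetCard s (univ : Finset (Fin n)),
    ∃ I ∈ powersetCard (2 * s) (univ : Finset (Fin n)), sparsea_E I S A) ?_).trans ?_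
  · rintro A - ⟨p, hp, hp2, v, hv, hc, hA⟩
    exact sparsea_det hs hp hp2 hv _ (fun i hi => mem_filter.2 ⟨mem_univ _, hi⟩) hc hA
  refine (pr_exists _ _).trans ((sum_le_card_nsmul _ _
    ((n.choose (2 * s) : ℝ) * ((s ^ 2 + 1) * (1 / 2 : ℝ) ^ (n - 3 * s))) fun S hS => ?_).trans ?_)
  · refine (pr_exists _ _).trans ((sum_le_card_nsmul _ _ _ fun I hI =>
      sparsea_pr (mem_powersetCard.1 hS).2 (mem_powersetCard.1 hI).2).trans ?_)
    rw [card_powersetCard, card_univ, Fintype.card_fin, nsmul_eq_mul]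
  · rw [card_powersetCard, card_univ, Fintype.card_fin, nsmul_eq_mul]
    exact le_of_eq (by ring)

end Vale.Agent.P160
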