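import Vale.Agent.P160.SparseA
import Vale.Agent.P160.Comb

/-!
P160 task SparseB. Keep the statements unchanged; add lemmas freely (start them with `sparseb_`).

`sparse_four_le`: union over the sets `S` with `|S| = s` and the `4^s` vectors `v` vanishing outside `S`; `pr_resample_le` with `O = Sᶜ`, `J = S`
and `half`. `sparse_whp`: `bin` bounds the binomial coefficients by `2^(ε n / 8)`; take `β` small.
-/

set_option linter.unusedSectionVars false
set_option linter.unusedVariables false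

namespace Vale.Agent.P160

open Finset Matrix Filter

open Classical in
theorem sparseb_one {n : ℕ} (S : Finset (Fin n)) :
    pr n (fun A => ∃ v : Fin n → ZMod 4, (∃ i, 2 * v i ≠ 0) ∧ (∀ i, i ∉ S → v i = 0) ∧
      A.map (Int.cast : ℤ → ZMod 4) *ᵥ v = 0) ≤ 4 ^ S.card * (1 / 2 : ℝ) ^ (n - S.card) := by
  have h := pr_resample_le (O := Sᶜ) (J := S) disjoint_compl_left
    (fun A => ∃ v : Fin n → ZMod 4, (∃ i, 2 * v i ≠ 0) ∧ (∀ i, i ∉ S → v i = 0) ∧
      A.map (Int.cast : ℤ → ZMod 4) *ᵥ v = 0)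
    (fun _ => (Fintype.piFinset fun i => if i ∈ S then (univ : Finset (ZMod 4)) else {0}).filter
      fun v => ∃ i ∈ S, 2 • v i ≠ 0)
    (fun _ v _ σ => ∑ i ∈ S, σ i • v i = 0) (p := 1 / 2) (m := 4 ^ S.card) (by norm_num)
    (fun _ _ => (card_filter_le _ _).trans (le_of_eq ?_)) (fun _ _ v hv _ _ => ?_) ?_
  · rw [card_compl, Fintype.card_fin] at h
    exact_mod_cast h
  · rw [Fintype.card_piFinset]
    simp only [apply_ite Finset.card, card_univ, ZMod.card, card_singleton]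
    rw [prod_ite_mem, univ_inter, prod_const]
  · obtain ⟨i, hi, h2⟩ := (mem_filter.1 hv).2
    have h3 := half v S hi h2 0
    rw [Fintype.card_fin] at h3
    have h4 : (2 : ℝ) * ((Sg (Fin n)).filter fun σ => ∑ i ∈ S, σ i • v i = 0).card ≤ 2 ^ n := by
      exact_mod_cast h3
    have h5 : (((Sg (Fin n)).filter fun σ => ∑ i ∈ S, σ i • v i = 0).card : ℝ) ≤ 1 / 2 * 2 ^ n := by
      linarith
    exact le_trans (Nat.cast_le.2 (card_le_card fun x hx => by simpa using hx)) h5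
  · rintro A - Z - ⟨v, ⟨i, hi⟩, h0, hv⟩
    refine ⟨v, mem_filter.2 ⟨Fintype.mem_piFinset.2 fun j => ?_, i, ?_, by rwa [nsmul_eq_mul]⟩,
      fun k hk => ?_⟩
    · by_cases hj : j ∈ S
      · simp [hj]
      · simp [hj, h0 j hj]
    · by_contra hi'
      exact hi (by rw [h0 i hi', mul_zero])
    · have h1 := congrFun hv k
      simp only [mulVec, dotProduct, Matrix.map_apply, Pi.zero_apply] at h1
      rw [← h1, ← sum_subset (subset_univ S) fun j _ hj => by rw [h0 j hj, mul_zero]]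
      refine sum_congr rfl fun j hj => ?_
      simp only [rs, Matrix.of_apply, hk, hj, and_self, if_true, zsmul_eq_mul]

open Classical in
theorem sparse_four_le {n s : ℕ} (hs : s ≤ n) :
    pr n (fun A => ∃ v : Fin n → ZMod 4, (∃ i, 2 * v i ≠ 0) ∧
      (univ.filter fun i => v i ≠ 0).card ≤ s ∧ A.map (Int.cast : ℤ → ZMod 4) *ᵥ v = 0) ≤
      n.choose s * 4 ^ s * (1 / 2 : ℝ) ^ (n - s) := by
  refine (pr_mono (F := fun A => ∃ S ∈ powersetCard s (univ : Finset (Fin n)),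
    ∃ v : Fin n → ZMod 4, (∃ i, 2 * v i ≠ 0) ∧ (∀ i, i ∉ S → v i = 0) ∧
      A.map (Int.cast : ℤ → ZMod 4) *ᵥ v = 0) ?_).trans ((pr_exists _ _).trans ?_)
  · rintro A - ⟨v, h1, h2, h3⟩
    obtain ⟨S, a, -, b⟩ := exists_subsuperset_card_eq (subset_univ _) h2 (by simpa using hs)
    refine ⟨S, mem_powersetCard.2 ⟨subset_univ _, b⟩, v, h1, fun i hi => ?_, h3⟩
    by_contra h
    exact hi (a (mem_filter.2 ⟨mem_univ _, h⟩))
  · refine (sum_le_card_nsmul _ _ (4 ^ s * (1 / 2 : ℝ) ^ (n - s)) fun S hS => ?_).trans_eq ?_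
    · have h := sparseb_one S
      rwa [(mem_powersetCard.1 hS).2] at h
    · rw [card_powersetCard, card_univ, Fintype.card_fin, nsmul_eq_mul, mul_assoc]

theorem sparse_whp {ε : ℝ} (hε : 0 < ε) : ∃ β > (0 : ℝ), ∀ᶠ n : ℕ in atTop, ∀ s : ℕ,
    (s : ℝ) ≤ β * n → pr n (fun A => Sparse A s) ≤ (2 : ℝ) ^ (-(1 - ε) * n) := by
  obtain ⟨e, he⟩ : ∃ e, e = ε / 4 := ⟨_, rfl⟩
  have e0 : 0 < e := by rw [he]; positivity
  obtain ⟨α, α0, hα⟩ := bin e0 1
  have r1 : (1 : ℝ) < 2 ^ e := Real.one_lt_rpow one_lt_two e0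
  refine ⟨min (α / 2) (min (e / 3) (1 / 3)), by positivity, ?_⟩
  filter_upwards [(tendsto_pow_const_div_const_pow_of_one_lt 2 r1).eventually
    (gt_mem_nhds (by norm_num : (0 : ℝ) < 1 / 2)), eventually_ge_atTop 2] with n hn n2 s hs
  have n0 : (0 : ℝ) ≤ n := Nat.cast_nonneg n
  have s0 : (0 : ℝ) ≤ s := Nat.cast_nonneg s
  have s1 : (s : ℝ) ≤ α / 2 * n := hs.trans (mul_le_mul_of_nonneg_right (min_le_left _ _) n0)
  have s2 : (s : ℝ) ≤ e / 3 * n :=
    hs.trans (mul_le_mul_of_nonneg_right ((min_le_right _ _).trans (min_le_left _ _)) n0)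
  have s3 : (s : ℝ) ≤ 1 / 3 * n :=
    hs.trans (mul_le_mul_of_nonneg_right ((min_le_right _ _).trans (min_le_right _ _)) n0)
  have s4 : 3 * s ≤ n := by exact_mod_cast (by linarith : (3 : ℝ) * s ≤ n)
  have hc : ∀ d : ℕ, (d : ℝ) ≤ α * n → (n.choose d : ℝ) ≤ 2 ^ (e * n) := fun d hd => by
    refine le_trans ?_ (hα n d hd)
    simp only [Nat.cast_one, one_pow, mul_one]
    exact single_le_sum (f := fun j => (n.choose j : ℝ)) (fun _ _ => Nat.cast_nonneg _)
      (self_mem_range_succ d)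
  have c1 := hc s (by linarith)
  have c2 := hc (2 * s) (by push_cast; linarith)
  obtain ⟨x, hx⟩ : ∃ x : ℝ, x = 2 ^ (e * n) := ⟨_, rfl⟩
  have x1 : 1 ≤ x := hx ▸ Real.one_le_rpow one_le_two (by positivity)
  have c3 : (s : ℝ) ^ 2 + 2 ≤ x := by
    rw [div_lt_iff₀ (by positivity), ← Real.rpow_mul_natCast zero_le_two, ← hx] at hn
    have : (2 : ℝ) ≤ n := by exact_mod_cast n2
    nlinarith
  have c4 : (2 : ℝ) ^ (3 * s) ≤ x := by
    rw [hx, ← Real.rpow_natCast]
    exact Real.rpow_le_rpow_of_exponent_le one_le_two (by push_cast; linarith)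
  have c5 : (1 / 2 : ℝ) ^ (n - 3 * s) = 2 ^ (3 * s) * (1 / 2) ^ n := by
    rw [← Nat.sub_add_cancel s4, Nat.add_sub_cancel, pow_add, mul_left_comm, ← mul_pow]
    norm_num
  have c6 : 4 ^ s * (1 / 2 : ℝ) ^ (n - s) = 2 ^ (3 * s) * (1 / 2) ^ n := by
    rw [← Nat.sub_add_cancel (by omega : s ≤ n), Nat.add_sub_cancel, pow_add, pow_mul,
      mul_left_comm, ← mul_pow, mul_comm]
    norm_num
  have c7 : (2 : ℝ) ^ (-(1 - ε) * n) = x ^ 4 * (1 / 2) ^ n := by
    rw [hx, ← Real.rpow_mul_natCast zero_le_two, one_div, inv_pow, ← Real.rpow_natCast,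
      ← Real.rpow_neg zero_le_two, ← Real.rpow_add two_pos, he]
    congr 1
    push_cast
    ring
  rw [← hx] at c1 c2
  refine (pr_or _ _).trans ((add_le_add (sparse_prime_le s4) (sparse_four_le (by omega))).trans ?_)
  rw [mul_assoc _ (4 ^ s), c5, c6, c7]
  have p0 : (0 : ℝ) ≤ (1 / 2) ^ n := by positivity
  calc _ ≤ x * x * ((s : ℝ) ^ 2 + 1) * (x * (1 / 2) ^ n) + x * x * (x * (1 / 2) ^ n) := by
        gcongr
        exact c1.trans (le_mul_of_one_le_left (by positivity) x1)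
    _ = x ^ 3 * ((s : ℝ) ^ 2 + 2) * (1 / 2) ^ n := by ring
    _ ≤ x ^ 3 * x * (1 / 2) ^ n := by gcongr
    _ = _ := by ring

end Vale.Agent.P160
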