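import Vale.Agent.P160.Schur

/-!
P160 task TT. Keep the statements unchanged; add lemmas freely (start them with `tt_`).

`qf (TT A J) z = |z|² + |Nᵀ z|²` with `(Nᵀ z) l = ((rm A)⁻¹ z) l` (the inverse of a symmetric matrix is symmetric).
`TT_det`: `det (1 + N Nᵀ) = det (1 + Nᵀ N)` (`Matrix.det_one_add_mul_comm`) and `Nᵀ (1 + N Nᵀ) N = (Nᵀ N)(1 + Nᵀ N)`.
`TT_det_ge` (Jacobi): `det TT ≥ det (Nᵀ N)` by `det_mono`. Let `M` be the square matrix whose columns in `J` are those of `A` and whose other columns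
are those of `A⁻¹` (index `{i // i ∈ J} ⊕ {i // i ∉ J}`, `Equiv.sumCompl`). `Mᵀ M` is block diagonal with blocks `A_Jᵀ A_J` and `Nᵀ N`
(`A_Jᵀ N = 0`), and `A M` is block triangular with diagonal blocks `A_Jᵀ A_J` and `1`. So `hg * det (NᵀN) = det M² = hg² / det A²`.
-/

set_option linter.unusedSectionVars false
set_option linter.unusedVariables false

namespace Vale.Agent.P160

open Finset Matrix Filter

theorem tt_symm {n : ℕ} {A : ZM n} (hA : A ∈ SS n) : (rm A)ᵀ = rm A := by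
  ext i j
  simp [rm, (mem_SS.1 hA).2 i j]

theorem tt_unit {n : ℕ} {A : ZM n} (hd : A.det ≠ 0) : IsUnit (rm A).det := by
  rw [rm, ← Int.cast_det]
  exact (Int.cast_ne_zero.2 hd).isUnit

theorem tt_add {ι : Type} [Fintype ι] [DecidableEq ι] (G G' : Matrix ι ι ℝ) (z : ι → ℝ) :
    qf (G + G') z = qf G z + qf G' z := by
  rw [qf, qf, qf, add_mulVec, dotProduct_add]

theorem tt_nonneg {ι : Type} [Fintype ι] [DecidableEq ι] (z : ι → ℝ) : 0 ≤ qf 1 z := by
  rw [qf_one]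
  positivity

theorem tt_qf {n : ℕ} (A : ZM n) (J : Finset (Fin n)) (z : Fin n → ℝ) :
    qf (TT A J) z = qf 1 z + qf 1 ((NB A J)ᵀ *ᵥ z) := by
  rw [TT, tt_add, ← gram_qf_conj, transpose_transpose, Matrix.mul_one]

theorem tt_sub {n : ℕ} (J : Finset (Fin n)) (u : Fin n → ℝ) :
    ∑ l : {i // i ∉ J}, u l ^ 2 ≤ qf 1 u := by
  rw [qf_one, ← Fintype.sum_subtype_add_sum_subtype (· ∉ J) fun i => u i ^ 2]
  exact le_add_of_nonneg_right (by positivity)

theorem tt_sq {ι κ : Type} [Fintype ι] [DecidableEq ι] [Fintype κ] [DecidableEq κ] (e : κ ≃ ι)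
    (K M : Matrix ι κ ℝ) : (Kᵀ * M).det = (K.submatrix e id).det * (M.submatrix e id).det := by
  rw [← det_transpose (K.submatrix e id), ← det_mul, transpose_submatrix, submatrix_mul_equiv,
    submatrix_id_id]

theorem tt_left {n : ℕ} {A : ZM n} (hd : A.det ≠ 0) (J : Finset (Fin n)) {κ : Type}
    (f : κ → Fin n) : (rm A).submatrix f id * NB A J = (1 : Matrix _ _ ℝ).submatrix f Subtype.val := by
  rw [← mul_nonsing_inv _ (tt_unit hd), NB]
  exact submatrix_mul_equiv _ _ _ (Equiv.refl _) _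

theorem qf_TT {n : ℕ} {A : ZM n} (hA : A ∈ SS n) (J : Finset (Fin n)) (z : Fin n → ℝ) :
    qf (TT A J) z = qf 1 z + ∑ l : {i // i ∉ J}, (((rm A)⁻¹ *ᵥ z) l) ^ 2 := by
  rw [tt_qf, qf_one ((NB A J)ᵀ *ᵥ z), NB, transpose_submatrix, transpose_nonsing_inv, tt_symm hA]
  rfl

theorem TT_posDef {n : ℕ} (A : ZM n) (J : Finset (Fin n)) : (TT A J).PosDef := by
  rw [TT, ← conjTranspose_eq_transpose_of_trivial]
  exact PosDef.one.add_posSemidef (posSemidef_self_mul_conjTranspose _)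

theorem TT_ge {n : ℕ} (A : ZM n) (J : Finset (Fin n)) (z : Fin n → ℝ) : qf 1 z ≤ qf (TT A J) z := by
  rw [tt_qf]
  exact le_add_of_nonneg_right (tt_nonneg _)

theorem qf_one_mulVec_le {ι κ : Type} [Fintype ι] [DecidableEq ι] [Fintype κ] [DecidableEq κ]
    {M : Matrix ι κ ℤ} {b : ℤ} (h : ∀ i j, |M i j| ≤ b) (z : κ → ℝ) :
    qf 1 (rm M *ᵥ z) ≤ Fintype.card ι * Fintype.card κ * (b : ℝ) ^ 2 * qf 1 z := by
  have h1 : ∀ i, (rm M *ᵥ z) i ^ 2 ≤ Fintype.card κ * (b : ℝ) ^ 2 * qf 1 z := fun i => by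
    rw [qf_one]
    refine (sum_mul_sq_le_sq_mul_sq _ _ _).trans (mul_le_mul_of_nonneg_right ?_ (by positivity))
    rw [← nsmul_eq_mul]
    refine sum_le_card_nsmul _ _ _ fun j _ => ?_
    have h2 : M i j ^ 2 ≤ b ^ 2 := sq_le_sq' (abs_le.1 (h i j)).1 (abs_le.1 (h i j)).2
    simp only [rm, map_apply]
    exact_mod_cast h2
  rw [qf_one (rm M *ᵥ z), mul_assoc, mul_assoc, ← mul_assoc (Fintype.card κ : ℝ), ← nsmul_eq_mul]
  exact sum_le_card_nsmul _ _ _ fun i _ => h1 i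

theorem TT_mul {n : ℕ} {A : ZM n} (hA : A ∈ SS n) (hd : A.det ≠ 0) (J : Finset (Fin n))
    (u : Fin n → ℝ) : qf (TT A J) (rm A *ᵥ u) ≤ ((n : ℝ) ^ 2 + 1) * qf 1 u := by
  have h1 := qf_one_mulVec_le (M := A) (b := 1)
    (fun i j => by rcases (mem_SS.1 hA).1 i j with h | h <;> simp [h]) u
  rw [qf_TT hA, mulVec_mulVec, nonsing_inv_mul _ (tt_unit hd), one_mulVec]
  simp only [Fintype.card_fin, Int.cast_one] at h1
  linarith [tt_sub J u]

theorem TT_cube {n : ℕ} {A : ZM n} (hA : A ∈ SS n) (hd : A.det ≠ 0) (J : Finset (Fin n))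
    {x : Fin n → ℤ} (hx : x ∈ Sg (Fin n)) (h : InCube A x) : qf (TT A J) (iv x) ≤ 2 * n := by
  obtain ⟨u, hu, e⟩ := h
  have h1 : ∀ w : Fin n → ℝ, (∀ i, |w i| ≤ 1) → qf 1 w ≤ n := fun w hw => by
    rw [qf_one]
    simpa using sum_le_card_nsmul univ (fun i => w i ^ 2) 1 fun i _ => (sq_le_one_iff_abs_le_one _).2 (hw i)
  have h2 := h1 (iv x) fun i => by rcases mem_Sg.1 hx i with h | h <;> simp [iv, h]
  rw [qf_TT hA]
  nth_rw 2 [← e]
  rw [mulVec_mulVec, nonsing_inv_mul _ (tt_unit hd), one_mulVec]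
  linarith [tt_sub J u, h1 u hu]

theorem NB_gram_posDef {n : ℕ} {A : ZM n} (hd : A.det ≠ 0) (J : Finset (Fin n)) :
    ((NB A J)ᵀ * NB A J).PosDef := by
  rw [← conjTranspose_eq_transpose_of_trivial]
  refine PosDef.conjTranspose_mul_self _ fun a b h => ?_
  have h1 := congrArg ((rm A).submatrix (Subtype.val : {i // i ∉ J} → Fin n) id *ᵥ ·) h
  simpa only [mulVec_mulVec, tt_left hd, submatrix_one _ Subtype.val_injective, one_mulVec] using h1

theorem TT_det {n : ℕ} (A : ZM n) (J : Finset (Fin n)) :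
    ((NB A J)ᵀ * TT A J * NB A J).det = (TT A J).det * ((NB A J)ᵀ * NB A J).det := by
  rw [TT, det_one_add_mul_comm, ← det_mul]
  simp only [Matrix.mul_add, Matrix.add_mul, Matrix.mul_one, Matrix.one_mul, Matrix.mul_assoc]

theorem TT_det_ge {n : ℕ} {A : ZM n} (hA : A ∈ SS n) (hd : A.det ≠ 0) (J : Finset (Fin n)) :
    (hg (A.submatrix id (Subtype.val : {i // i ∈ J} → Fin n)) : ℝ) ≤
      (TT A J).det * (A.det : ℝ) ^ 2 := by
  obtain ⟨P, hP⟩ : ∃ P, P = (rm A).submatrix id (Subtype.val : {i // i ∈ J} → Fin n) := ⟨_, rfl⟩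
  obtain ⟨Q, hQ⟩ : ∃ Q, Q = (rm A).submatrix id (Subtype.val : {i // i ∉ J} → Fin n) := ⟨_, rfl⟩
  have e0 : (hg (A.submatrix id (Subtype.val : {i // i ∈ J} → Fin n)) : ℝ) = (Pᵀ * P).det := by
    rw [← det_gr_one, gr, Matrix.mul_one, hP]
    rfl
  have e1 : Pᵀ * NB A J = 0 := by
    rw [hP, transpose_submatrix, tt_symm hA, tt_left hd]
    ext i j
    exact one_apply_ne fun h => j.2 (h ▸ i.2)
  have e2 : Qᵀ * NB A J = 1 := by
    rw [hQ, transpose_submatrix, tt_symm hA, tt_left hd, submatrix_one _ Subtype.val_injective]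
  have e3 : (fromCols P Q).submatrix (Equiv.sumCompl (· ∈ J)) id =
      (rm A).submatrix (Equiv.sumCompl (· ∈ J)) (Equiv.sumCompl (· ∈ J)) := by
    rw [hP, hQ]
    ext i j
    rcases j with j | j <;> rfl
  have h1 := tt_sq (Equiv.sumCompl (· ∈ J)) (fromCols P Q) (fromCols P (NB A J))
  have h2 := tt_sq (Equiv.sumCompl (· ∈ J)) (fromCols P (NB A J)) (fromCols P (NB A J))
  rw [transpose_fromCols, fromRows_mul_fromCols, e1, det_fromBlocks_zero₁₂] at h1 h2
  rw [e2, det_one, mul_one, e3, det_submatrix_equiv_self, rm, ← Int.cast_det] at h1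
  have h3 := (NB_gram_posDef hd J).posSemidef
  have h4 : ((NB A J)ᵀ * NB A J).det ≤ (TT A J).det := by
    rw [TT, det_one_add_mul_comm]
    refine det_mono h3 (PosSemidef.one.add h3) fun x => ?_
    rw [tt_add]
    exact le_add_of_nonneg_left (tt_nonneg _)
  rw [e0]
  rcases eq_or_ne (Pᵀ * P).det 0 with h | h
  · rw [h]
    exact mul_nonneg (TT_posDef A J).det_pos.le (sq_nonneg _)
  · refine le_trans (le_of_eq (mul_left_cancel₀ h ?_)) (mul_le_mul_of_nonneg_right h4 (sq_nonneg _))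
    rw [← mul_assoc, h2, h1]
    ring

end Vale.Agent.P160
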