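import Vale.Agent.P160.Index

/-!
P160 task Triple. Keep the statements unchanged; add lemmas freely (start them with `triple_`).

Over `ℚ` put `B = A⁻¹`, so `u = o • B x` and `x' ⬝ᵥ u / o = x' ⬝ᵥ B x`. For an integer matrix `R` (`n × k`),
`det (fromBlocks A R Rᵀ 0) = det A * det (-(Rᵀ B R))` (`Matrix.det_fromBlocks₁₁`) is an integer. With `k = 2`: `d b²` is an integer; with `k = 3`
(`Matrix.det_fin_three`): `2 d b₁₂ b₁₃ b₂₃` is an integer. Then the product of the three denominators divides `2d`: compare `p`-adic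
valuations (if all three denominators are divisible by `p` the numerators are not; otherwise use `den² ∣ d` twice).
`index_dot`: the map `z ↦ (z ⬝ᵥ u : ZMod f)` is onto. `index_tors`: in `D = ℤⁿ / A ℤⁿ` of order `d` (`index_range`), `m = d/f`, the subgroup
`K = {x | 2m x = 0}` has `|K| ≤ 2^n |ker m|` and `|ker m|` divides `d` and is coprime to `f` (Cauchy, `exists_prime_addOrderOf_dvd_card`), so is
at most `m`; `index * |K| = d`.
-/

set_option linter.unusedSectionVars false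
set_option linter.unusedVariables false

namespace Vale.Agent.P160

open Finset Matrix Filter

theorem Sol.o_ne {n : ℕ} {A : ZM n} (hd : A.det ≠ 0) {x u : Fin n → ℤ} {o : ℤ} (h : Sol A x o u) :
    o ≠ 0 := by
  rintro rfl
  obtain ⟨h1, -, c, c₀, h2⟩ := h
  rw [zero_smul] at h1
  rw [eq_zero_of_mulVec_eq_zero hd h1] at h2
  simp at h2

theorem Sol.o_dvd {n : ℕ} {A : ZM n} {x u : Fin n → ℤ} {o : ℤ} (h : Sol A x o u) :
    o.natAbs ∣ A.det.natAbs := by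
  obtain ⟨h1, -, c, c₀, h2⟩ := h
  have h3 := congrArg (fun v => c ⬝ᵥ (A.adjugate *ᵥ v)) h1
  simp only [mulVec_mulVec, adjugate_mul, smul_mulVec, one_mulVec, mulVec_smul, dotProduct_smul,
    smul_eq_mul] at h3
  exact Int.natAbs_dvd_natAbs.2 ⟨c ⬝ᵥ (A.adjugate *ᵥ x) + A.det * c₀, by
    linear_combination h3 - A.det * h2⟩

theorem sol_symm {n : ℕ} {A : ZM n} (hA : A ∈ SS n) (hd : A.det ≠ 0) {x₁ u₁ x₂ u₂ : Fin n → ℤ}
    {o₁ o₂ : ℤ} (h₁ : Sol A x₁ o₁ u₁) (h₂ : Sol A x₂ o₂ u₂) :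
    ((x₁ ⬝ᵥ u₂ : ℤ) : ℚ) / o₂ = ((x₂ ⬝ᵥ u₁ : ℤ) : ℚ) / o₁ := by
  have hT : Aᵀ = A := by
    ext i j
    exact (mem_SS.1 hA).2 j i
  have h : x₁ ⬝ᵥ u₂ * o₁ = x₂ ⬝ᵥ u₁ * o₂ := by
    have e : (A *ᵥ u₁) ⬝ᵥ u₂ = u₁ ⬝ᵥ (A *ᵥ u₂) := by
      rw [dotProduct_mulVec, ← mulVec_transpose, hT]
    rw [h₁.1, h₂.1, smul_dotProduct, dotProduct_smul, dotProduct_comm u₁] at e
    simpa only [smul_eq_mul, mul_comm] using e
  rw [div_eq_div_iff (by exact_mod_cast h₂.o_ne hd) (by exact_mod_cast h₁.o_ne hd)]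
  exact_mod_cast h

theorem triple_det {n k : ℕ} (A : ZM n) {x u : Fin k → Fin n → ℤ} {o : Fin k → ℤ}
    (h : ∀ j, A *ᵥ u j = o j • x j) (ho : ∀ j, o j ≠ 0) : ∃ z : ℤ,
    (A.det : ℚ) * (Matrix.of fun i j => -(((x i ⬝ᵥ u j : ℤ) : ℚ) / o j)).det = z := by
  let R : Matrix (Fin n) (Fin k) ℤ := Matrix.of fun i j => x j i
  let U : Matrix (Fin n) (Fin k) ℚ := Matrix.of fun i j => -((u j i : ℚ) / o j)
  have e1 : A.map (Int.cast : ℤ → ℚ) * U + R.map Int.cast = 0 := by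
    ext i j
    have h1 : (∑ l, (A i l : ℚ) * u j l) = o j * x j i := by exact_mod_cast congrFun (h j) i
    have h2 : (o j : ℚ) ≠ 0 := by exact_mod_cast ho j
    simp only [U, R, Matrix.add_apply, mul_apply, map_apply, of_apply, mul_neg, sum_neg_distrib,
      ← mul_div_assoc, ← sum_div, h1, Matrix.zero_apply]
    field_simp
    ring
  have e2 : Rᵀ.map (Int.cast : ℤ → ℚ) * U =
      Matrix.of fun i j => -(((x i ⬝ᵥ u j : ℤ) : ℚ) / o j) := by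
    ext i j
    simp [U, R, mul_apply, dotProduct, ← mul_div_assoc, ← sum_div]
  have e3 : (fromBlocks A R Rᵀ 0).map (Int.cast : ℤ → ℚ) * fromBlocks 1 U 0 1 =
      fromBlocks (A.map Int.cast) 0 (Rᵀ.map Int.cast)
        (Matrix.of fun i j => -(((x i ⬝ᵥ u j : ℤ) : ℚ) / o j)) := by
    rw [fromBlocks_map, fromBlocks_multiply]
    simp [e1, e2]
  have e4 := congrArg det e3
  rw [det_mul, det_fromBlocks_zero₂₁, det_fromBlocks_zero₁₂, det_one, det_one, mul_one, mul_one,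
    ← Int.cast_det, ← Int.cast_det] at e4
  exact ⟨_, e4.symm⟩

theorem triple_diag {n : ℕ} {A : ZM n} (hd : A.det ≠ 0) {x u : Fin n → ℤ} {o : ℤ}
    (h : Sol A x o u) : ∃ ε : ℤ, ((x ⬝ᵥ u : ℤ) : ℚ) / o = ε := by
  have h0 : (o : ℚ) ≠ 0 := by exact_mod_cast h.o_ne hd
  rcases h.2.1 with e | e
  · exact ⟨1, by rw [e, div_self h0, Int.cast_one]⟩
  · exact ⟨-1, by rw [e, Int.cast_neg, neg_div, div_self h0, Int.cast_neg, Int.cast_one]⟩

theorem triple_two {n : ℕ} {A : ZM n} (hA : A ∈ SS n) (hd : A.det ≠ 0) {x₁ u₁ x₂ u₂ : Fin n → ℤ}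
    {o₁ o₂ : ℤ} (h₁ : Sol A x₁ o₁ u₁) (h₂ : Sol A x₂ o₂ u₂) :
    ∃ z : ℤ, (A.det : ℚ) * (((x₁ ⬝ᵥ u₂ : ℤ) : ℚ) / o₂) ^ 2 = z := by
  obtain ⟨z, hz⟩ := triple_det A (x := ![x₁, x₂]) (u := ![u₁, u₂]) (o := ![o₁, o₂])
    (Fin.forall_fin_two.2 ⟨h₁.1, h₂.1⟩) (Fin.forall_fin_two.2 ⟨h₁.o_ne hd, h₂.o_ne hd⟩)
  obtain ⟨a, ha⟩ := triple_diag hd h₁
  obtain ⟨b, hb⟩ := triple_diag hd h₂
  simp only [det_fin_two, of_apply, cons_val_zero, cons_val_one, ha, hb,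
    ← sol_symm hA hd h₁ h₂] at hz
  refine ⟨A.det * a * b - z, ?_⟩
  generalize A.det = d at hz ⊢
  push_cast
  linear_combination -hz

theorem triple_sq {d z : ℤ} {a : ℚ} (h : (d : ℚ) * a ^ 2 = z) : a.den ^ 2 ∣ d.natAbs := by
  have h0 : (a.den : ℚ) ≠ 0 := by exact_mod_cast a.den_nz
  have h1 : d * a.num ^ 2 = a.den ^ 2 * z := by
    have : (d : ℚ) * a.num ^ 2 = a.den ^ 2 * z := by
      rw [← h, ← Rat.mul_den_eq_num]
      ring
    exact_mod_cast this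
  have h2 := congrArg Int.natAbs h1
  simp only [Int.natAbs_mul, Int.natAbs_pow, Int.natAbs_natCast] at h2
  exact (a.reduced.symm.pow 2 2).dvd_of_dvd_mul_right ⟨_, h2⟩

theorem triple_nat {D q₁ q₂ q₃ n₁ n₂ n₃ : ℕ} (hD : D ≠ 0) (a₁ : q₁ ^ 2 ∣ D) (a₂ : q₂ ^ 2 ∣ D)
    (a₃ : q₃ ^ 2 ∣ D) (c₁ : n₁.Coprime q₁) (c₂ : n₂.Coprime q₂) (c₃ : n₃.Coprime q₃)
    (h : q₁ * q₂ * q₃ ∣ 2 * D * (n₁ * n₂ * n₃)) : q₁ * q₂ * q₃ ∣ 2 * D := by
  have z : ∀ {q : ℕ}, q ^ 2 ∣ D → q ≠ 0 := fun {q} hq h0 => hD (by simpa [h0] using hq)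
  have hq := mul_ne_zero (mul_ne_zero (z a₁) (z a₂)) (z a₃)
  refine (Nat.factorization_prime_le_iff_dvd hq (by omega)).1 fun p hp => ?_
  have v : ∀ {q : ℕ}, q ^ 2 ∣ D → 2 * q.factorization p ≤ D.factorization p := fun {q} hq => by
    simpa using (Nat.factorization_le_iff_dvd (pow_ne_zero 2 (z hq)) hD).2 hq p
  have w : ∀ {m q : ℕ}, m.Coprime q → q.factorization p ≠ 0 → p.Coprime m := fun {m q} c h0 =>
    (c.coprime_dvd_right (Nat.dvd_of_factorization_pos h0)).symm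
  by_cases h0 : q₁.factorization p ≠ 0 ∧ q₂.factorization p ≠ 0 ∧ q₃.factorization p ≠ 0
  · refine (hp.pow_dvd_iff_le_factorization (by omega)).1 ?_
    exact ((((w c₁ h0.1).mul_right (w c₂ h0.2.1)).mul_right (w c₃ h0.2.2)).pow_left
      _).dvd_of_dvd_mul_right ((Nat.ordProj_dvd _ p).trans h)
  · have b₁ := v a₁
    have b₂ := v a₂
    have b₃ := v a₃
    rw [Nat.factorization_mul (mul_ne_zero (z a₁) (z a₂)) (z a₃),
      Nat.factorization_mul (z a₁) (z a₂), Nat.factorization_mul two_ne_zero hD]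
    simp only [Finsupp.add_apply]
    omega

theorem triple_rat {d z₁ z₂ z₃ z : ℤ} {a b c : ℚ} (hd : d ≠ 0) (h₁ : (d : ℚ) * a ^ 2 = z₁)
    (h₂ : (d : ℚ) * b ^ 2 = z₂) (h₃ : (d : ℚ) * c ^ 2 = z₃) (h : 2 * (d : ℚ) * (a * b * c) = z) :
    a.den * b.den * c.den ≤ 2 * d.natAbs := by
  have h0 := Int.natAbs_ne_zero.2 hd
  have h1 : 2 * d * (a.num * b.num * c.num) = a.den * b.den * c.den * z := by
    have : 2 * (d : ℚ) * (a.num * b.num * c.num) = a.den * b.den * c.den * z := by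
      rw [← h, ← Rat.mul_den_eq_num, ← Rat.mul_den_eq_num, ← Rat.mul_den_eq_num]
      ring
    exact_mod_cast this
  have h2 := congrArg Int.natAbs h1
  simp only [Int.natAbs_mul, Int.natAbs_natCast] at h2
  exact Nat.le_of_dvd (by omega) (triple_nat h0 (triple_sq h₁) (triple_sq h₂) (triple_sq h₃)
    a.reduced b.reduced c.reduced ⟨_, h2⟩)

theorem triple {n : ℕ} {A : ZM n} (hA : A ∈ SS n) (hd : A.det ≠ 0)
    {x₁ u₁ x₂ u₂ x₃ u₃ : Fin n → ℤ} {o₁ o₂ o₃ : ℤ} (h₁ : Sol A x₁ o₁ u₁) (h₂ : Sol A x₂ o₂ u₂)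
    (h₃ : Sol A x₃ o₃ u₃) :
    (((x₁ ⬝ᵥ u₂ : ℤ) : ℚ) / o₂).den * (((x₁ ⬝ᵥ u₃ : ℤ) : ℚ) / o₃).den *
      (((x₂ ⬝ᵥ u₃ : ℤ) : ℚ) / o₃).den ≤ 2 * A.det.natAbs := by
  obtain ⟨z, hz⟩ := triple_det A (x := ![x₁, x₂, x₃]) (u := ![u₁, u₂, u₃]) (o := ![o₁, o₂, o₃])
    (fun j => by fin_cases j; exacts [h₁.1, h₂.1, h₃.1])
    (fun j => by fin_cases j; exacts [h₁.o_ne hd, h₂.o_ne hd, h₃.o_ne hd])
  obtain ⟨a, ha⟩ := triple_diag hd h₁
  obtain ⟨b, hb⟩ := triple_diag hd h₂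
  obtain ⟨c, hc⟩ := triple_diag hd h₃
  obtain ⟨z₁, e₁⟩ := triple_two hA hd h₁ h₂
  obtain ⟨z₂, e₂⟩ := triple_two hA hd h₁ h₃
  obtain ⟨z₃, e₃⟩ := triple_two hA hd h₂ h₃
  simp only [det_fin_three, of_apply, cons_val_zero, cons_val_one, Matrix.cons_val, ha, hb, hc,
    ← sol_symm hA hd h₁ h₂, ← sol_symm hA hd h₁ h₃, ← sol_symm hA hd h₂ h₃] at hz
  refine triple_rat hd e₁ e₂ e₃ (z := -z - A.det * a * b * c + a * z₃ + b * z₂ + c * z₁) ?_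
  generalize A.det = d at hz e₁ e₂ e₃ ⊢
  push_cast
  linear_combination -hz + a * e₃ + b * e₂ + c * e₁

theorem index_dot {n : ℕ} {u c : Fin n → ℤ} {o c₀ : ℤ} (h : c ⬝ᵥ u + c₀ * o = 1) {f : ℕ}
    (hf : (f : ℤ) ∣ o) (L : Submodule ℤ (Fin n → ℤ)) (hL : ∀ z, z ∈ L ↔ (f : ℤ) ∣ z ⬝ᵥ u) :
    L.toAddSubgroup.index = f := by
  let φ : (Fin n → ℤ) →+ ZMod f := AddMonoidHom.mk' (fun z => ((z ⬝ᵥ u : ℤ) : ZMod f))
    fun a b => by rw [add_dotProduct, Int.cast_add]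
  have h1 : L.toAddSubgroup = φ.ker := by
    ext z
    exact (hL z).trans (ZMod.intCast_zmod_eq_zero_iff_dvd _ _).symm
  have h2 : Function.Surjective φ := fun t => by
    obtain ⟨m, rfl⟩ := ZMod.intCast_surjective t
    refine ⟨m • c, ?_⟩
    have h3 : (o : ZMod f) = 0 := (ZMod.intCast_zmod_eq_zero_iff_dvd _ _).2 hf
    show (((m • c) ⬝ᵥ u : ℤ) : ZMod f) = m
    rw [smul_dotProduct, eq_sub_of_add_eq h, smul_eq_mul]
    simp [h3]
  rw [h1, AddSubgroup.index_ker, AddMonoidHom.range_eq_top.2 h2, AddSubgroup.card_top,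
    Nat.card_zmod]

theorem index_tors {n : ℕ} {A : ZM n} (hd : A.det ≠ 0) {f : ℕ} (hf : f ∣ A.det.natAbs)
    (hc : Nat.Coprime f (A.det.natAbs / f)) (L : Submodule ℤ (Fin n → ℤ))
    (hL : ∀ z, z ∈ L ↔ ∃ s, A *ᵥ s = ((2 * (A.det.natAbs / f) : ℕ) : ℤ) • z) :
    f ≤ 2 ^ n * L.toAddSubgroup.index := by
  have hi := index_range hd
  have h0 := Int.natAbs_ne_zero.2 hd
  obtain ⟨m, hm⟩ := hf
  have hf0 : 0 < f := Nat.pos_of_ne_zero fun h => h0 (by rw [hm, h, zero_mul])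
  rw [hm, Nat.mul_div_cancel_left _ hf0] at hc hL
  set N := (LinearMap.range A.mulVecLin).toAddSubgroup
  let K : AddSubgroup (Fin n → ℤ) := N.comap (nsmulAddMonoidHom m)
  have h1 : N ≤ K := fun z hz => N.nsmul_mem hz m
  have h2 := AddSubgroup.relIndex_mul_index h1
  have h3 : f.Coprime (N.relIndex K) := by
    refine Nat.coprime_of_dvd fun p hp hpf hpr => ?_
    have : Finite (K ⧸ N.addSubgroupOf K) := Nat.finite_of_card_ne_zero
      (left_ne_zero_of_mul (h2 ▸ hi ▸ h0 : N.relIndex K * K.index ≠ 0))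
    have := Fact.mk hp
    obtain ⟨x, hx⟩ := exists_prime_addOrderOf_dvd_card' (G := K ⧸ N.addSubgroupOf K) p hpr
    have h4 : m • x = 0 := by
      obtain ⟨z, rfl⟩ := QuotientAddGroup.mk_surjective x
      rw [← QuotientAddGroup.mk_nsmul, QuotientAddGroup.eq_zero_iff]
      exact z.2
    exact hp.one_lt.ne' (Nat.eq_one_of_dvd_coprimes hc hpf (hx ▸ addOrderOf_dvd_of_nsmul_eq_zero h4))
  have h4 : f ∣ K.index := h3.dvd_of_dvd_mul_left ⟨m, by rw [h2, hi, hm]⟩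
  let T : Matrix (Fin n) (Fin n) ℤ := (2 : ℤ) • 1
  have hT : T.det = 2 ^ n := by rw [det_smul, det_one, mul_one, Fintype.card_fin]
  have h5 : L.toAddSubgroup.map T.mulVecLin.toAddMonoidHom ≤ K := by
    rintro _ ⟨z, hz, rfl⟩
    obtain ⟨s, hs⟩ := (hL z).1 hz
    refine ⟨s, hs.trans ?_⟩
    ext i
    simp [T]
    ring
  have h6 : T.mulVecLin.toAddMonoidHom.ker = ⊥ := (AddMonoidHom.ker_eq_bot_iff _).2
    (mulVec_injective_of_det_ne_zero (by rw [hT]; positivity))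
  have h7 : T.mulVecLin.toAddMonoidHom.range.index = 2 ^ n := by
    have := index_range (A := T) (by rw [hT]; positivity)
    rwa [hT, Int.natAbs_pow] at this
  have h8 : N ≤ L.toAddSubgroup := by
    rintro _ ⟨s, rfl⟩
    exact (hL _).2 ⟨_, mulVec_smul _ _ _⟩
  have h9 : L.toAddSubgroup.index ≠ 0 := ne_zero_of_dvd_ne_zero (hi ▸ h0)
    (AddSubgroup.index_dvd_of_le h8)
  have h10 := AddSubgroup.index_dvd_of_le h5
  rw [AddSubgroup.index_map, h6, sup_bot_eq, h7, mul_comm] at h10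
  exact Nat.le_of_dvd (Nat.mul_pos (by positivity) (Nat.pos_of_ne_zero h9)) (h4.trans h10)

end Vale.Agent.P160
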