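import Vale.Agent.P160.Gram

/-!
P160 task Unfold. Keep the statements unchanged; add lemmas freely (start them with `unfold_`).

Unfolding over the unit cube. `lintegral_unfold`: the sets `cell + iv z` partition the space (`z = floor`); use
`ZSpan.isAddFundamentalDomain (Pi.basisFun ℝ ι)` with `IsAddFundamentalDomain.lintegral_eq_tsum`, or directly
`lintegral_iUnion` and translation invariance, then `lintegral_tsum`. Packing and covering: apply it to `P.indicator f`;
`∑' z, indicator (x + z) f(x)` is at most (at least) `f x`. Real versions by `ofReal_integral_eq_lintegral_ofReal`.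
`gauss`: write `G = Bᵀ B`, change variables with `Real.map_matrix_volume_pi_eq_smul_volume_pi` or
`MeasureTheory.integral_comp_linearMap`-type lemmas (`Measure.addHaar_preimage_linearMap`, `LinearMap.det_toLin'`), then
`integral_fintype_prod_volume_eq_prod` and `integral_gaussian`.
-/

set_option linter.unusedSectionVars false
set_option linter.unusedVariables false

namespace Vale.Agent.P160

open Finset Matrix MeasureTheory

variable {ι κ : Type} [Fintype ι] [DecidableEq ι] [Fintype κ] [DecidableEq κ]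

theorem measurableSet_cell : MeasurableSet (cell ι) := by
  exact MeasurableSet.univ_pi fun _ => measurableSet_Ico

theorem volume_cell : volume (cell ι) = 1 := by
  simp [cell, volume_pi_pi]

theorem unfold_mem {x : ι → ℝ} {z : ι → ℤ} : x - iv z ∈ cell ι ↔ z = fun i => ⌊x i⌋ := by
  simp only [cell, Set.mem_univ_pi, Set.mem_Ico, Pi.sub_apply, iv, funext_iff]
  refine forall_congr' fun i => ?_
  rw [eq_comm, Int.floor_eq_iff, sub_nonneg, sub_lt_iff_lt_add']

theorem lintegral_unfold {h : (ι → ℝ) → ENNReal} (hm : Measurable h) :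
    ∫⁻ x, h x = ∫⁻ x in cell ι, ∑' z : ι → ℤ, h (x + iv z) := by
  have h1 : ∀ z : ι → ℤ, Measurable fun y => h (y + iv z) := fun z => hm.comp (by fun_prop)
  have h2 : ∀ x, h x = ∑' z : ι → ℤ, (cell ι).indicator (fun y => h (y + iv z)) (x - iv z) := by
    intro x
    rw [tsum_eq_single (fun i => ⌊x i⌋) fun z hz => Set.indicator_of_notMem (unfold_mem.not.2 hz) _,
      Set.indicator_of_mem (unfold_mem.2 rfl), sub_add_cancel]
  have h3 : ∀ z : ι → ℤ, Measurable fun x =>
      (cell ι).indicator (fun y => h (y + iv z)) (x - iv z) := fun z =>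
    ((h1 z).indicator measurableSet_cell).comp (measurable_sub_const (iv z))
  rw [lintegral_congr h2, lintegral_tsum fun z => (h3 z).aemeasurable,
    lintegral_tsum fun z => (h1 z).aemeasurable]
  refine tsum_congr fun z => ?_
  rw [lintegral_sub_right_eq_self, lintegral_indicator measurableSet_cell]

theorem unfold_le {f : (ι → ℝ) → ℝ} (hf : Measurable f) (h0 : ∀ x, 0 ≤ f x) (h1 : ∀ x, f x ≤ 1)
    {P Q : Set (ι → ℝ)} (hfin : volume Q ≠ ⊤)
    (h : ∫⁻ x in P, ENNReal.ofReal (f x) ≤ ∫⁻ x in Q, ENNReal.ofReal (f x)) :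
    ∫ x in P, f x ≤ ∫ x in Q, f x := by
  rw [integral_eq_lintegral_of_nonneg_ae (ae_of_all _ h0) hf.aestronglyMeasurable,
    integral_eq_lintegral_of_nonneg_ae (ae_of_all _ h0) hf.aestronglyMeasurable]
  refine ENNReal.toReal_mono (ne_top_of_le_ne_top hfin ?_) h
  exact (lintegral_mono fun x => ENNReal.ofReal_le_one.2 (h1 x)).trans (by simp)

theorem unfold_iv_sub (z w : ι → ℤ) : iv (z - w) = iv z - iv w := by
  funext i
  simp [iv]

theorem packing {f : (ι → ℝ) → ℝ} (hf : Measurable f) (h0 : ∀ x, 0 ≤ f x) (h1 : ∀ x, f x ≤ 1)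
    (hp : ∀ x z, f (x + iv z) = f x) {P : Set (ι → ℝ)} (hP : MeasurableSet P)
    (hpack : ∀ x ∈ P, ∀ z : ι → ℤ, x + iv z ∈ P → z = 0) :
    ∫ x in P, f x ≤ ∫ x in cell ι, f x := by
  refine unfold_le hf h0 h1 (by simp [volume_cell]) ?_
  rw [← lintegral_indicator hP, lintegral_unfold (hf.ennreal_ofReal.indicator hP)]
  refine lintegral_mono fun x => ?_
  by_cases hx : ∃ z : ι → ℤ, x + iv z ∈ P
  · obtain ⟨w, hw⟩ := hx
    rw [tsum_eq_single w fun z hz => Set.indicator_of_notMem (fun h => hz (sub_eq_zero.1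
      (hpack _ hw _ (by rwa [unfold_iv_sub, add_add_sub_cancel])))) _, Set.indicator_of_mem hw, hp]
  · rw [tsum_congr fun z => Set.indicator_of_notMem (not_exists.1 hx z) _, tsum_zero]
    exact bot_le

theorem covering {f : (ι → ℝ) → ℝ} (hf : Measurable f) (h0 : ∀ x, 0 ≤ f x) (h1 : ∀ x, f x ≤ 1)
    (hp : ∀ x z, f (x + iv z) = f x) {P : Set (ι → ℝ)} (hP : MeasurableSet P)
    (hfin : volume P ≠ ⊤) (hcov : ∀ x, ∃ z : ι → ℤ, x + iv z ∈ P) :
    ∫ x in cell ι, f x ≤ ∫ x in P, f x := by
  refine unfold_le hf h0 h1 hfin ?_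
  rw [← lintegral_indicator hP, lintegral_unfold (hf.ennreal_ofReal.indicator hP)]
  refine lintegral_mono fun x => ?_
  obtain ⟨w, hw⟩ := hcov x
  refine le_trans ?_ (ENNReal.le_tsum w)
  rw [Set.indicator_of_mem hw, hp]

/-- A periodic function has the same integral after a translation. -/
theorem integral_cell_add {f : (ι → ℝ) → ℝ} (hf : Measurable f) (h0 : ∀ x, 0 ≤ f x)
    (h1 : ∀ x, f x ≤ 1) (hp : ∀ x z, f (x + iv z) = f x) (s : ι → ℝ) :
    ∫ x in cell ι, f (x + s) = ∫ x in cell ι, f x := by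
  have hP : MeasurableSet ((fun x => x - s) ⁻¹' cell ι) := measurable_sub_const s measurableSet_cell
  have e : ∫ x in cell ι, f (x + s) = ∫ x in (fun x => x - s) ⁻¹' cell ι, f x := by
    rw [← integral_indicator hP, ← integral_indicator measurableSet_cell,
      ← integral_sub_right_eq_self _ s]
    refine integral_congr_ae (ae_of_all _ fun x => ?_)
    simp only [Set.indicator, sub_add_cancel]
    rfl
  rw [e]
  refine le_antisymm (packing hf h0 h1 hp hP fun x hx z hz => ?_)
    (covering hf h0 h1 hp hP ?_ fun x => ⟨0 - fun i => ⌊(x - s) i⌋, ?_⟩)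
  · have e1 : x + iv z - s - iv z ∈ cell ι := by
      rwa [sub_right_comm, add_sub_cancel_right]
    have e2 : x + iv z - s - iv 0 ∈ cell ι := by
      rwa [← sub_self z, unfold_iv_sub, sub_self, sub_zero]
    exact (unfold_mem.1 e1).trans (unfold_mem.1 e2).symm
  · simp [sub_eq_add_neg, volume_cell]
  · have e1 := (unfold_mem (x := x - s)).2 rfl
    rw [Set.mem_preimage, unfold_iv_sub, ← sub_self (0 : ι → ℤ), unfold_iv_sub, sub_self, zero_sub,
      ← sub_eq_add_neg, sub_right_comm]
    exact e1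

theorem continuous_qf (G : Matrix ι ι ℝ) : Continuous (qf G) := by
  unfold qf
  fun_prop

theorem unfold_prod (x : ι → ℝ) :
    Real.exp (-Real.pi * qf 1 x) = ∏ i, Real.exp (-Real.pi * x i ^ 2) := by
  rw [qf_one, mul_sum, Real.exp_sum]

theorem unfold_sqrt {G : Matrix ι ι ℝ} (hG : G.PosDef) : ∃ B : Matrix ι ι ℝ, B.det ≠ 0 ∧
    √G.det = |B.det| ∧ ∀ x, qf G x = qf 1 (toLin' B x) := by
  obtain ⟨B, hB⟩ := gram_sqrt hG.posSemidef
  have h1 : G.det = B.det ^ 2 := by rw [hB, det_mul, det_transpose, sq]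
  refine ⟨B, fun h => hG.det_pos.ne' (by simp [h1, h]), by rw [h1, Real.sqrt_sq_eq_abs],
    fun x => ?_⟩
  rw [toLin'_apply, ← gram_qf_conj, Matrix.mul_one, hB]

theorem integrable_gauss {G : Matrix ι ι ℝ} (hG : G.PosDef) :
    Integrable fun x => Real.exp (-Real.pi * qf G x) := by
  obtain ⟨B, h0, -, h⟩ := unfold_sqrt hG
  have h1 : Integrable (fun x : ι → ℝ => Real.exp (-Real.pi * qf 1 x))
      (Measure.map (toLin' B) volume) := by
    rw [Real.map_matrix_volume_pi_eq_smul_volume_pi h0]
    refine Integrable.smul_measure ?_ ENNReal.ofReal_ne_top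
    simp only [unfold_prod]
    exact Integrable.fintype_prod (f := fun _ y => Real.exp (-Real.pi * y ^ 2))
      fun _ => integrable_exp_neg_mul_sq Real.pi_pos
  simp only [h]
  exact h1.comp_measurable (toLin' B).continuous_of_finiteDimensional.measurable

theorem gauss {G : Matrix ι ι ℝ} (hG : G.PosDef) :
    √G.det * ∫ x, Real.exp (-Real.pi * qf G x) = 1 := by
  obtain ⟨B, h0, h1, h⟩ := unfold_sqrt hG
  have h2 := continuous_qf (1 : Matrix ι ι ℝ)
  have h3 := integral_map (μ := volume) (φ := toLin' B)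
    (f := fun x => Real.exp (-Real.pi * qf 1 x))
    (toLin' B).continuous_of_finiteDimensional.measurable.aemeasurable
    (Continuous.aestronglyMeasurable (by fun_prop))
  simp only [h]
  rw [← h3, Real.map_matrix_volume_pi_eq_smul_volume_pi h0, integral_smul_measure, h1]
  simp only [unfold_prod]
  rw [integral_fintype_prod_volume_eq_prod fun _ y => Real.exp (-Real.pi * y ^ 2)]
  simp only [integral_gaussian]
  simp [Real.pi_pos.ne', h0]

end Vale.Agent.P160
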