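import Vale.Agent.P160.Rec
import Vale.Agent.P160.IL
import Vale.Agent.P160.SparseB

/-!
P160 task Upper. Keep the statements unchanged; add lemmas freely (start them with `upper_`).

Wlog `ε ≤ 1/2`. `ε₁ = ε/8`, `β` from `sparse_whp ε₁`, `δ₀` from `card_Dv ε₁`, `δ` from `upper_params`, `s' = ⌊β (n+1)⌋`, `s = ⌊β n⌋`,
`D = 2^(ε₁ n)`. Then `(n+1)/(s'+1) ≤ 1/β`, `1/(β √s) ≤ 1/4` eventually, and all other terms together are at most `r^(n+1)`,
`r = 2^(-(1 - 4 ε₁))`, for large `n` (polynomial factors against `2^(ε₁ n)`). `rec_solve`, and absorb `C` into `2^(ε n / 2)`.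
-/

set_option linter.unusedSectionVars false
set_option linter.unusedVariables false

namespace Vale.Agent.P160

open Finset Matrix Filter

theorem upper_lin {t : ℝ} (ht : 1 < t) (c : ℝ) : ∀ᶠ n : ℕ in atTop, c * (n + 1) ≤ t ^ n := by
  have h := (isLittleO_pow_const_const_pow_of_one_lt (R := ℝ) 1 ht).def
    (c := 1 / (2 * (|c| + 1))) (by positivity)
  filter_upwards [h, eventually_ge_atTop 1] with n h1 h2
  have h3 : (1 : ℝ) ≤ n := by exact_mod_cast h2
  rw [pow_one, Real.norm_of_nonneg (by positivity), Real.norm_of_nonneg (by positivity),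
    one_div_mul_eq_div, le_div_iff₀ (by positivity)] at h1
  nlinarith [le_abs_self c, abs_nonneg c]

theorem upper_pow (e : ℝ) (n : ℕ) :
    (2 : ℝ) ^ (-(1 - e) * n) = ((2 : ℝ) ^ e) ^ n * (1 / 2) ^ n := by
  rw [Real.rpow_mul zero_le_two, Real.rpow_natCast, ← mul_pow, neg_sub,
    Real.rpow_sub two_pos, Real.rpow_one, mul_one_div]

theorem upper {ε : ℝ} (hε : 0 < ε) :
    ∀ᶠ n : ℕ in atTop, pr n (fun A => A.det = 0) ≤ (2 : ℝ) ^ (-(1 - ε) * n) := by
  obtain ⟨e, e0, e1, e2⟩ : ∃ e : ℝ, 0 < e ∧ e ≤ 1 ∧ 4 * e ≤ ε :=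
    ⟨min 1 (ε / 4), by positivity, min_le_left _ _, by linarith [min_le_right 1 (ε / 4)]⟩
  obtain ⟨β, b0, hβ⟩ := sparse_whp e0
  obtain ⟨δ₀, d0, hδ₀⟩ := card_Dv e0
  obtain ⟨δ, d1, hδ⟩ := upper_params b0 d0
  obtain ⟨t, ht⟩ : ∃ t, t = (2 : ℝ) ^ e := ⟨_, rfl⟩
  have t1 : 1 < t := ht ▸ Real.one_lt_rpow one_lt_two e0
  have t2 : t ≤ 2 := by simpa [ht] using Real.rpow_le_rpow_of_exponent_le one_le_two e1
  have t3 : 1 ≤ t ^ 3 := one_le_pow₀ t1.le
  have hs : ∀ᶠ n : ℕ in atTop, (4 / β) ^ 2 + 2 ≤ β * n :=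
    (tendsto_natCast_atTop_atTop.const_mul_atTop b0).eventually_ge_atTop _
  obtain ⟨C, hC⟩ := rec_solve (a := fun n => pr n fun A => A.det = 0) (r := t ^ 3 / 2)
    (by linarith) (by
      filter_upwards [hβ, (tendsto_add_atTop_nat 1).eventually hβ, hδ₀, hδ, il e0 d1, hs,
        upper_lin t1 (2 * (8 + 1 / β))] with n a1 a2 a3 ⟨y, y1, y2, y3, y4⟩ a5 a6 a7
      have s0 : 0 ≤ β * n := by positivity
      have s1 : (4 / β) ^ 2 + 1 ≤ (⌊β * n⌋₊ : ℝ) := by linarith [Nat.lt_floor_add_one (β * n)]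
      have s2 : 1 ≤ ⌊β * n⌋₊ := by
        have : (1 : ℝ) ≤ (⌊β * n⌋₊ : ℝ) := by linarith [sq_nonneg (4 / β)]
        exact_mod_cast this
      have s3 : 4 / β ≤ √(⌊β * n⌋₊ : ℝ) := Real.le_sqrt_of_sq_le (by linarith)
      have h1 := rec_step (ε := e) s2 y1 y2 y4 (by positivity) fun d h1 h2 => a3 d y h1 h2 y3
      have h2 := a1 _ (Nat.floor_le s0)
      have h3 := a2 _ (Nat.floor_le (by positivity))
      have h4 : ((n : ℝ) + 1) / ((⌊β * ((n + 1 : ℕ) : ℝ)⌋₊ : ℝ) + 1) ≤ 1 / β := by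
        rw [div_le_div_iff₀ (by positivity) b0]
        have := Nat.lt_floor_add_one (β * ((n + 1 : ℕ) : ℝ))
        push_cast at this ⊢
        linarith
      have h5 : (pr n fun A => A.det = 0) / √(⌊β * n⌋₊ : ℝ) ≤
          (pr n fun A => A.det = 0) / (4 / β) :=
        div_le_div_of_nonneg_left (pr_nonneg _) (by positivity) s3
      have h6 := mul_le_mul h4 (add_le_add h2 h5)
        (add_nonneg (pr_nonneg _) (div_nonneg (pr_nonneg _) (Real.sqrt_nonneg _))) (by positivity)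
      have h7 : 1 / β * ((pr n fun A => A.det = 0) / (4 / β)) = (pr n fun A => A.det = 0) / 4 := by
        field_simp
      have h8 := mul_le_mul_of_nonneg_left a5 (by positivity : (0 : ℝ) ≤ n + 1)
      rw [upper_pow, ← ht] at h3 h6
      rw [Real.rpow_mul zero_le_two, Real.rpow_natCast, ← ht, div_eq_mul_inv _ ((2 : ℝ) ^ n),
        ← inv_pow, ← one_div] at h1
      have e3 : (t ^ 3 / 2) ^ (n + 1) = t ^ 3 / 2 * ((t ^ n) ^ 3 * (1 / 2) ^ n) := by
        rw [pow_succ', ← pow_mul, mul_comm n, pow_mul, ← mul_pow, mul_one_div]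
      rw [pow_succ, pow_succ] at h3
      rw [e3]
      have u1 : 1 ≤ t ^ n := one_le_pow₀ t1.le
      have n0 : (0 : ℝ) ≤ n := Nat.cast_nonneg n
      have k0 : (0 : ℝ) < (1 / 2) ^ n := by positivity
      have b1 : 0 < 1 / β := by positivity
      generalize t ^ n = u at *
      generalize ((1 : ℝ) / 2) ^ n = h at *
      generalize 1 / β = b at *
      have k1 : h ≤ u * h := le_mul_of_one_le_left k0.le u1
      have k2 : u * h ≤ u * (u * h) := le_mul_of_one_le_left (by positivity) u1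
      have k3 := mul_le_mul_of_nonneg_right a7 (by positivity : 0 ≤ u * (u * h))
      have k4 := mul_le_mul_of_nonneg_right t3 (by positivity : 0 ≤ u ^ 3 * h)
      have k5 := mul_le_mul_of_nonneg_right t2 (by positivity : 0 ≤ u * h)
      have k6 := mul_le_mul_of_nonneg_left k2 b1.le
      have k7 := mul_le_mul_of_nonneg_left k2 n0
      have k8 := mul_le_mul_of_nonneg_left k1 n0
      have k9 : 0 ≤ n * (u * (u * h)) := by positivity
      have k10 : 0 ≤ b * n * (u * (u * h)) := by positivity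
      linarith)
  filter_upwards [hC, upper_lin t1 |C|] with n a1 a2
  refine a1.trans (le_trans ?_ (Real.rpow_le_rpow_of_exponent_le one_le_two
    (mul_le_mul_of_nonneg_right (by linarith : -(1 - 4 * e) ≤ -(1 - ε)) (Nat.cast_nonneg n))))
  have h1 : C ≤ t ^ n := by nlinarith [le_abs_self C, abs_nonneg C, (Nat.cast_nonneg n : (0 : ℝ) ≤ n)]
  have h2 : (2 : ℝ) ^ (4 * e) = t * t ^ 3 := by
    rw [mul_comm 4, Real.rpow_mul zero_le_two, ← ht, ← pow_succ']
    exact_mod_cast Real.rpow_natCast t 4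
  rw [upper_pow, h2, mul_pow, mul_assoc, ← mul_pow, mul_one_div]
  exact mul_le_mul_of_nonneg_right h1 (by positivity)

end Vale.Agent.P160
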