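import Vale.Agent.P160.Schur

/-!
P160 task VolA. Keep the statements unchanged; add lemmas freely (start them with `vola_`).

Let `f j = θ₁ ^ min j n₀ * θ₂ ^ (j - n₀)` and take `I` of maximal cardinality with `f |I| ≤ hg (columns in I)` (the empty set works). If
`|I| + c ≥ n` then `Vol A c` holds (`|I| ≥ n₀`, `θ₂ ≤ 1`). Otherwise there are more than `c ≥ K` indices outside `I`; for such `k`,
`hg (insert k I) = hg I * dist²` where `dist²` is the entry of the Schur complement (`det_eq_sch`, `hg_reindex` with an equivalence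
`{i // i ∈ I} ⊕ Unit ≃ {i // i ∈ insert k I}`), `dist²` is attained (`qf_split` with `b = 1`), and maximality gives `dist² < f(|I|+1) / f |I|`.
-/

set_option linter.unusedSectionVars false
set_option linter.unusedVariables false

namespace Vale.Agent.P160

open Finset Matrix Filter

theorem vola_step {n : ℕ} (A : ZM n) {I : Finset (Fin n)} {k : Fin n} (hk : k ∉ I)
    (h : hg (A.submatrix id (Subtype.val : {i // i ∈ I} → Fin n)) ≠ 0) :
    ∃ t : Fin n → ℝ, (hg (A.submatrix id (Subtype.val : {i // i ∈ insert k I} → Fin n)) : ℝ) =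
      hg (A.submatrix id (Subtype.val : {i // i ∈ I} → Fin n)) *
        ∑ l, ((A l k : ℝ) - ∑ i ∈ I, t i * (A l i : ℝ)) ^ 2 := by
  set P := A.submatrix id (Subtype.val : {i // i ∈ I} → Fin n) with hP
  set Y := A.submatrix id (fun _ : Unit => k) with hY
  let e : {i // i ∈ I} ⊕ Unit ≃ {i // i ∈ insert k I} :=
    ((Finset.subtypeInsertEquivOption hk).trans (Equiv.optionEquivSumPUnit _)).symm
  have he : (A.submatrix id (Subtype.val : {i // i ∈ insert k I} → Fin n)).submatrix id e =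
      fromCols P Y := by
    ext l j
    rcases j with j | j <;> rfl
  have h1 : (gr 1 (fromCols P Y)).toBlocks₁₁.PosDef := by
    rw [gr_cols₁₁]
    exact gr_posDef PosDef.one h
  have g1 := gr_posSemidef (PosSemidef.one (n := Fin n)) (fromCols P Y)
  obtain ⟨a, ha⟩ : ∃ a : {i // i ∈ I} → ℝ, qf (sch (gr 1 (fromCols P Y))) (fun _ => 1) =
      qf 1 (rm P *ᵥ a + rm Y *ᵥ fun _ => 1) := by
    have h3 := qf_split g1 h1 (-(((gr 1 (fromCols P Y)).toBlocks₁₁⁻¹ *
      (gr 1 (fromCols P Y)).toBlocks₁₂) *ᵥ fun _ => 1)) fun _ => 1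
    rw [schur_min, zero_add, schur_qf_cols] at h3
    exact ⟨_, h3.symm⟩
  refine ⟨fun i => if hi : i ∈ I then -a ⟨i, hi⟩ else 0, ?_⟩
  rw [← hg_reindex _ e, he, ← det_gr_one, det_eq_sch h1, gr_cols₁₁, det_gr_one]
  congr 1
  have h4 : (sch (gr 1 (fromCols P Y))).det = qf (sch (gr 1 (fromCols P Y))) (fun _ => 1) := by
    simp [qf, dotProduct, mulVec]
  rw [h4, ha, qf_one]
  refine sum_congr rfl fun l _ => ?_
  congr 1
  rw [← Finset.sum_coe_sort I]
  simp [rm, mulVec, dotProduct, hP, hY, mul_comm, add_comm]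

theorem vol_struct {n c n₀ K : ℕ} {A : ZM n} {θ₁ θ₂ : ℝ} (h1 : 0 < θ₁) (h2 : 0 < θ₂) (h21 : θ₂ ≤ 1)
    (hn₀ : n₀ + c ≤ n) (hK : K ≤ c) (hnum : (n : ℝ) ^ n ≤ (θ₁ ^ n₀ * θ₂ ^ n) ^ 5) (hV : ¬ Vol A c) :
    ∃ I Ks : Finset (Fin n), Disjoint I Ks ∧ Ks.card = K ∧
      ((I.card < n₀ ∧ ∀ k ∈ Ks, ∃ t : Fin n → ℝ,
          ∑ l, ((A l k : ℝ) - ∑ i ∈ I, t i * (A l i : ℝ)) ^ 2 < θ₁) ∨
        (I.card + c < n ∧ ∀ k ∈ Ks, ∃ t : Fin n → ℝ,
          ∑ l, ((A l k : ℝ) - ∑ i ∈ I, t i * (A l i : ℝ)) ^ 2 < θ₂)) := by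
  classical
  let f : ℕ → ℝ := fun j => θ₁ ^ min j n₀ * θ₂ ^ (j - n₀)
  have hf : ∀ j, 0 < f j := fun j => mul_pos (pow_pos h1 _) (pow_pos h2 _)
  let H : Finset (Fin n) → ℤ := fun I => hg (A.submatrix id (Subtype.val : {i // i ∈ I} → Fin n))
  obtain ⟨I, hI, hmax⟩ := exists_max_image (univ.filter fun I : Finset (Fin n) => f I.card ≤ H I)
    Finset.card ⟨∅, by simp [f, H, hg]⟩
  have hI' : f I.card ≤ H I := (mem_filter.1 hI).2
  have hc : I.card + c < n := by
    by_contra hc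
    refine hV ⟨I, by rw [card_compl, Fintype.card_fin]; omega, ?_⟩
    have h3 : θ₁ ^ n₀ * θ₂ ^ n ≤ f I.card := by
      have : min I.card n₀ = n₀ := by omega
      simp only [f, this]
      refine mul_le_mul_of_nonneg_left (pow_le_pow_of_le_one h2.le h21 ?_) (pow_pos h1 _).le
      have := I.card_le_univ
      rw [Fintype.card_fin] at this
      omega
    have h4 : (n : ℝ) ^ n ≤ (H I : ℝ) ^ 5 :=
      hnum.trans (pow_le_pow_left₀ (by positivity) (h3.trans hI') 5)
    exact_mod_cast h4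
  obtain ⟨Ks, hKs, hcard⟩ := exists_subset_card_eq (s := Iᶜ) (n := K)
    (by rw [card_compl, Fintype.card_fin]; omega)
  have key : ∀ θ : ℝ, f (I.card + 1) = f I.card * θ → ∀ k ∈ Ks, ∃ t : Fin n → ℝ,
      ∑ l, ((A l k : ℝ) - ∑ i ∈ I, t i * (A l i : ℝ)) ^ 2 < θ := by
    intro θ hθ k hk
    have hk' : k ∉ I := mem_compl.1 (hKs hk)
    have hpos : (0 : ℝ) < H I := (hf _).trans_le hI'
    obtain ⟨t, ht⟩ := vola_step A hk' (by
      have : (0 : ℤ) < H I := by exact_mod_cast hpos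
      exact this.ne')
    refine ⟨t, ?_⟩
    have h5 : (H (insert k I) : ℝ) < f (I.card + 1) := by
      by_contra h
      have := hmax (insert k I) (mem_filter.2 ⟨mem_univ _, by
        rw [card_insert_of_notMem hk']; exact not_lt.1 h⟩)
      rw [card_insert_of_notMem hk'] at this
      omega
    have h6 : 0 ≤ ∑ l, ((A l k : ℝ) - ∑ i ∈ I, t i * (A l i : ℝ)) ^ 2 := by positivity
    rw [hθ] at h5
    exact lt_of_mul_lt_mul_left
      ((mul_le_mul_of_nonneg_right hI' h6).trans_lt (ht.symm.trans_lt h5)) (hf _).le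
  refine ⟨I, Ks, disjoint_left.2 fun i hi hi' => mem_compl.1 (hKs hi') hi, hcard, ?_⟩
  rcases lt_or_ge I.card n₀ with h | h
  · refine Or.inl ⟨h, key θ₁ ?_⟩
    have e1 : min (I.card + 1) n₀ = min I.card n₀ + 1 := by omega
    have e2 : I.card + 1 - n₀ = I.card - n₀ := by omega
    simp only [f, e1, e2]
    ring
  · refine Or.inr ⟨hc, key θ₂ ?_⟩
    have e1 : min (I.card + 1) n₀ = min I.card n₀ := by omega
    have e2 : I.card + 1 - n₀ = I.card - n₀ + 1 := by omega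
    simp only [f, e1, e2]
    ring

end Vale.Agent.P160
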