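import Vale.Agent.P160.Unfold

/-!
P160 task W0. Keep the statements unchanged; add lemmas freely (start them with `w0_`).

Basic facts on `dl` and `FF`. `dl_attain`: only finitely many `z` have `qf G (x - iv z) ≤ qf G x` (`exists_qf_bounds`).
`continuous_dl`: `√dl` is Lipschitz (`qf_add_le`), or use that an infimum is upper semicontinuous plus the Lipschitz bound.
`FF_close`: `|exp (-π a) - exp (-π b)| ≤ η` when `(1-η) a ≤ b ≤ (1+η) a`, `0 ≤ η ≤ 1/2` (since `t exp (-t/2) ≤ 2/e < 1`).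
`count_le`: for `x` take `z₀` attaining `dl`, `u = x - iv z₀`; `exp (-π qf (u+y)) + exp (-π qf (u-y)) ≥ 2 exp (-π qf u) exp (-π qf y)`
(parallelogram law and AM-GM), and both `∑ y ∈ Y` sums are at most `∑' z, exp (-π qf (x + iv z))`; integrate with
`lintegral_unfold` and `gauss`.
-/

set_option linter.unusedSectionVars false
set_option linter.unusedVariables false

namespace Vale.Agent.P160

open Finset Matrix MeasureTheory

variable {ι κ : Type} [Fintype ι] [DecidableEq ι] [Fintype κ] [DecidableEq κ]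

theorem w0_nonneg {G : Matrix ι ι ℝ} (hG : G.PosDef) (x : ι → ℝ) : 0 ≤ qf G x :=
  (posSemidef_iff.1 hG.posSemidef).2 x

theorem dl_le {G : Matrix ι ι ℝ} (hG : G.PosDef) (x : ι → ℝ) (z : ι → ℤ) :
    dl G x ≤ qf G (x - iv z) := by
  exact ciInf_le ⟨0, Set.forall_mem_range.2 fun z => w0_nonneg hG _⟩ z

theorem dl_attain {G : Matrix ι ι ℝ} (hG : G.PosDef) (x : ι → ℝ) :
    ∃ z : ι → ℤ, dl G x = qf G (x - iv z) := by
  obtain ⟨c, hc, C, -, h⟩ := exists_qf_bounds hG
  have h1 : Filter.Tendsto (fun z : ι → ℤ => qf G (x - iv z)) Filter.cofinite Filter.atTop := by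
    refine Filter.tendsto_atTop.2 fun b => Filter.eventually_cofinite.2 ?_
    refine (Set.finite_Icc (fun i => ⌊x i - (b / c + 1)⌋) fun i => ⌈x i + (b / c + 1)⌉).subset
      fun z hz => ?_
    have h2 := (h (x - iv z)).1.trans_lt (not_le.1 hz)
    have h3 : ∀ i, (x i - z i) ^ 2 < b / c := fun i => by
      rw [qf_one, ← lt_div_iff₀' hc] at h2
      exact (single_le_sum (f := fun i => (x - iv z) i ^ 2) (fun _ _ => sq_nonneg _)
        (mem_univ i)).trans_lt h2
    exact ⟨fun i => Int.floor_le_iff.2 (by nlinarith [h3 i, sq_nonneg (x i - z i - 1)]),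
      fun i => Int.le_ceil_iff.2 (by nlinarith [h3 i, sq_nonneg (x i - z i + 1)])⟩
  obtain ⟨z, hz⟩ := h1.exists_forall_le
  exact ⟨z, le_antisymm (dl_le hG x z) (le_ciInf hz)⟩

theorem dl_nonneg {G : Matrix ι ι ℝ} (hG : G.PosDef) (x : ι → ℝ) : 0 ≤ dl G x := by
  exact le_ciInf fun z => w0_nonneg hG _

theorem dl_add {G : Matrix ι ι ℝ} (x : ι → ℝ) (z : ι → ℤ) : dl G (x + iv z) = dl G x := by
  rw [dl, dl, ← (Equiv.addRight z).iInf_comp]
  refine iInf_congr fun w => congrArg _ (funext fun i => ?_)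
  simp [iv]

theorem continuous_dl {G : Matrix ι ι ℝ} (hG : G.PosDef) : Continuous (dl G) := by
  have key : ∀ x y, √(dl G x) ≤ √(dl G y) + √(qf G (x - y)) := fun x y => by
    obtain ⟨z, hz⟩ := dl_attain hG y
    have h := qf_add_le hG.posSemidef (y - iv z) (x - y)
    rw [sub_add_sub_cancel', ← hz] at h
    exact (Real.sqrt_le_sqrt (dl_le hG x z)).trans h
  have hq := continuous_qf G
  have hc : Continuous fun x => √(dl G x) := continuous_iff_continuousAt.2 fun y => by
    have h1 : Continuous fun x => √(dl G y) - √(qf G (y - x)) := by fun_prop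
    have h2 : Continuous fun x => √(dl G y) + √(qf G (x - y)) := by fun_prop
    refine tendsto_of_tendsto_of_tendsto_of_le_of_le (h1.tendsto' y _ (by simp [qf]))
      (h2.tendsto' y _ (by simp [qf])) (fun x => ?_) fun x => key x y
    exact sub_le_iff_le_add.2 (key y x)
  exact (hc.pow 2).congr fun x => Real.sq_sqrt (dl_nonneg hG x)

theorem dl_mono {G G' : Matrix ι ι ℝ} (hG : G.PosDef) (hG' : G'.PosDef) {c : ℝ} (hc : 0 ≤ c)
    (h : ∀ x, qf G x ≤ c * qf G' x) (x : ι → ℝ) : dl G x ≤ c * dl G' x := by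
  obtain ⟨z, hz⟩ := dl_attain hG' x
  rw [hz]
  exact (dl_le hG x z).trans (h _)

theorem integrableOn_dl {G : Matrix ι ι ℝ} (hG : G.PosDef) {P : Set (ι → ℝ)} (hP : volume P ≠ ⊤) :
    IntegrableOn (fun x => Real.exp (-Real.pi * dl G x)) P := by
  refine Measure.integrableOn_of_bounded (M := 1) hP
    (continuous_const.mul (continuous_dl hG)).rexp.aestronglyMeasurable
    (Filter.Eventually.of_forall fun x => ?_)
  rw [Real.norm_eq_abs, Real.abs_exp, Real.exp_le_one_iff, neg_mul, neg_nonpos]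
  exact mul_nonneg Real.pi_pos.le (dl_nonneg hG x)

theorem FF_nonneg (G : Matrix ι ι ℝ) : 0 ≤ FF G := by
  exact mul_nonneg (Real.sqrt_nonneg _) (integral_nonneg fun _ => (Real.exp_pos _).le)

theorem FF_smul_le {G : Matrix ι ι ℝ} (hG : G.PosDef) {c : ℝ} (hc : 1 ≤ c) :
    FF (c • G) ≤ c ^ Fintype.card ι * FF G := by
  have hc' : (c • G).PosDef := hG.smul (by linarith)
  have hv : volume (cell ι) ≠ ⊤ := by
    rw [volume_cell]
    exact ENNReal.one_ne_top
  have h1 : 1 ≤ c ^ Fintype.card ι := one_le_pow₀ hc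
  rw [FF, FF, det_smul, Real.sqrt_mul (by linarith), ← mul_assoc]
  refine mul_le_mul (mul_le_mul_of_nonneg_right
    (Real.sqrt_le_iff.2 ⟨by linarith, by nlinarith⟩) (Real.sqrt_nonneg _))
    (integral_mono (integrableOn_dl hc' hv) (integrableOn_dl hG hv) fun x => ?_)
    (integral_nonneg fun _ => (Real.exp_pos _).le)
    (mul_nonneg (by linarith) (Real.sqrt_nonneg _))
  have h2 := dl_mono hG hc' zero_le_one (fun y => by
    have := w0_nonneg hG y
    rw [qf, qf, smul_mulVec, dotProduct_smul, smul_eq_mul, ← qf]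
    nlinarith) x
  exact Real.exp_le_exp.2 (by nlinarith [Real.pi_pos])

theorem w0_exp {u v s η : ℝ} (hs : 0 ≤ s) (h0 : 0 ≤ η) (h1 : s / 2 ≤ u) (h2 : v - u ≤ η * s) :
    Real.exp (-u) - Real.exp (-v) ≤ η := by
  have e1 : Real.exp (-v) = Real.exp (-u) * Real.exp (-(v - u)) := by
    rw [← Real.exp_add]
    congr 1
    ring
  have e2 := Real.add_one_le_exp (-(v - u))
  have e3 := Real.exp_pos (-u)
  have e4 : s ≤ Real.exp u := by
    have h3 : Real.exp u = Real.exp (u / 2) * Real.exp (u / 2) := by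
      rw [← Real.exp_add, add_halves]
    have h4 := Real.add_one_le_exp (u / 2)
    have h5 := mul_self_le_mul_self (by linarith) h4
    nlinarith [sq_nonneg (u / 2 - 1)]
  have e5 : Real.exp (-u) * s ≤ 1 := by
    rw [Real.exp_neg, inv_mul_le_iff₀ (Real.exp_pos u), mul_one]
    exact e4
  have e6 := mul_le_mul_of_nonneg_left e2 e3.le
  have e7 := mul_le_mul_of_nonneg_left h2 e3.le
  have e8 := mul_le_mul_of_nonneg_left e5 h0
  linarith

theorem FF_close {G G' : Matrix ι ι ℝ} (hG : G.PosDef) (hG' : G'.PosDef) (hd : G'.det = G.det)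
    {η : ℝ} (h0 : 0 ≤ η) (h1 : η ≤ 1 / 2)
    (h : ∀ x, (1 - η) * qf G x ≤ qf G' x ∧ qf G' x ≤ (1 + η) * qf G x) :
    |FF G' - FF G| ≤ √G.det * η := by
  have hv : volume (cell ι) ≠ ⊤ := by
    rw [volume_cell]
    exact ENNReal.one_ne_top
  rw [FF, FF, hd, ← mul_sub, abs_mul, abs_of_nonneg (Real.sqrt_nonneg _),
    ← integral_sub (integrableOn_dl hG' hv) (integrableOn_dl hG hv)]
  refine mul_le_mul_of_nonneg_left ?_ (Real.sqrt_nonneg _)
  rw [← Real.norm_eq_abs]
  refine (norm_setIntegral_le_of_norm_le_const (C := η) hv.lt_top fun x _ => ?_).trans_eq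
    (by rw [measureReal_def, volume_cell, ENNReal.toReal_one, mul_one])
  have h2 := mul_le_mul_of_nonneg_left (dl_mono hG' hG (by linarith) (fun y => (h y).2) x)
    Real.pi_pos.le
  have h3 : (1 - η) * dl G x ≤ dl G' x := by
    obtain ⟨z, hz⟩ := dl_attain hG' x
    rw [hz]
    exact (mul_le_mul_of_nonneg_left (dl_le hG x z) (by linarith)).trans (h _).1
  have h4 := mul_le_mul_of_nonneg_left h3 Real.pi_pos.le
  have h5 := mul_nonneg Real.pi_pos.le (dl_nonneg hG x)
  have h6 := mul_le_mul_of_nonneg_right h1 h5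
  rw [Real.norm_eq_abs, neg_mul, neg_mul]
  exact abs_sub_le_iff.2 ⟨w0_exp h5 h0 (by linarith) (by linarith),
    w0_exp h5 h0 (by linarith) (by linarith)⟩

theorem w0_amgm {a b c : ℝ} (h : 2 * c ≤ a + b) :
    2 * Real.exp c ≤ Real.exp a + Real.exp b := by
  have e1 : Real.exp a = Real.exp (a / 2) * Real.exp (a / 2) := by
    rw [← Real.exp_add, add_halves]
  have e2 : Real.exp b = Real.exp (b / 2) * Real.exp (b / 2) := by
    rw [← Real.exp_add, add_halves]
  have e3 : Real.exp c ≤ Real.exp (a / 2) * Real.exp (b / 2) := by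
    rw [← Real.exp_add]
    exact Real.exp_le_exp.2 (by linarith)
  nlinarith [sq_nonneg (Real.exp (a / 2) - Real.exp (b / 2))]

theorem w0_par (G : Matrix ι ι ℝ) (u y : ι → ℝ) :
    qf G (u + y) + qf G (u - y) = 2 * qf G u + 2 * qf G y := by
  simp only [qf, mulVec_add, mulVec_sub, add_dotProduct, sub_dotProduct, dotProduct_add,
    dotProduct_sub]
  ring

theorem w0_point {G : Matrix ι ι ℝ} (hG : G.PosDef) (Y : Finset (ι → ℤ)) {r : ℝ}
    (hY : ∀ z ∈ Y, qf G (iv z) ≤ r) (x : ι → ℝ) :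
    ENNReal.ofReal (Y.card * Real.exp (-(Real.pi * r)) * Real.exp (-Real.pi * dl G x)) ≤
      ∑' z : ι → ℤ, ENNReal.ofReal (Real.exp (-Real.pi * qf G (x + iv z))) := by
  obtain ⟨z, hz⟩ := dl_attain hG x
  have key : ∀ f : (ι → ℤ) → ι → ℤ, Function.Injective f →
      ENNReal.ofReal (∑ y ∈ Y, Real.exp (-Real.pi * qf G (x + iv (f y)))) ≤
        ∑' z : ι → ℤ, ENNReal.ofReal (Real.exp (-Real.pi * qf G (x + iv z))) := fun f hf => by
    rw [ENNReal.ofReal_sum_of_nonneg fun _ _ => (Real.exp_pos _).le]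
    exact (ENNReal.sum_le_tsum Y).trans (ENNReal.tsum_comp_le_tsum_of_injective hf
      fun z => ENNReal.ofReal (Real.exp (-Real.pi * qf G (x + iv z))))
  have h1 : 2 * (Y.card * Real.exp (-(Real.pi * r)) * Real.exp (-Real.pi * dl G x)) ≤
      ∑ y ∈ Y, Real.exp (-Real.pi * qf G (x + iv (y - z))) +
        ∑ y ∈ Y, Real.exp (-Real.pi * qf G (x + iv (-y - z))) := by
    rw [← sum_add_distrib, mul_assoc, ← Real.exp_add, mul_left_comm, ← nsmul_eq_mul]
    refine card_nsmul_le_sum _ _ _ fun y hy => w0_amgm ?_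
    have e1 : x + iv (y - z) = x - iv z + iv y := by
      funext i
      simp only [iv, Pi.add_apply, Pi.sub_apply, Int.cast_sub]
      ring
    have e2 : x + iv (-y - z) = x - iv z - iv y := by
      funext i
      simp only [iv, Pi.add_apply, Pi.sub_apply, Pi.neg_apply, Int.cast_sub, Int.cast_neg]
      ring
    have e3 := mul_le_mul_of_nonneg_left (hY y hy) Real.pi_pos.le
    rw [e1, e2, ← mul_add, w0_par, hz]
    linarith
  rcases le_total (∑ y ∈ Y, Real.exp (-Real.pi * qf G (x + iv (y - z))))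
    (∑ y ∈ Y, Real.exp (-Real.pi * qf G (x + iv (-y - z)))) with h | h
  · exact (ENNReal.ofReal_le_ofReal (by linarith)).trans
      (key (fun y => -y - z) (sub_left_injective.comp neg_injective))
  · exact (ENNReal.ofReal_le_ofReal (by linarith)).trans (key (fun y => y - z) sub_left_injective)

theorem count_le {G : Matrix ι ι ℝ} (hG : G.PosDef) (Y : Finset (ι → ℤ)) {r : ℝ}
    (hY : ∀ z ∈ Y, qf G (iv z) ≤ r) : (Y.card : ℝ) * FF G ≤ Real.exp (Real.pi * r) := by
  have hv : volume (cell ι) ≠ ⊤ := by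
    rw [volume_cell]
    exact ENNReal.one_ne_top
  have h1 := lintegral_mono (μ := volume.restrict (cell ι)) (w0_point hG Y hY)
  rw [← lintegral_unfold (h := fun x => ENNReal.ofReal (Real.exp (-Real.pi * qf G x)))
      (continuous_const.mul (continuous_qf G)).rexp.measurable.ennreal_ofReal,
    ← ofReal_integral_eq_lintegral_ofReal (integrable_gauss hG)
      (Filter.Eventually.of_forall fun _ => (Real.exp_pos _).le),
    ← ofReal_integral_eq_lintegral_ofReal ((integrableOn_dl hG hv).const_mul _)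
      (Filter.Eventually.of_forall fun _ => by positivity),
    ENNReal.ofReal_le_ofReal_iff (integral_nonneg fun _ => (Real.exp_pos _).le),
    integral_const_mul] at h1
  have h2 := mul_le_mul_of_nonneg_left h1 (Real.sqrt_nonneg G.det)
  rw [gauss hG, mul_left_comm, ← FF, Real.exp_neg, mul_right_comm,
    mul_inv_le_iff₀ (Real.exp_pos _), one_mul] at h2
  exact h2

end Vale.Agent.P160
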