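import Vale.Agent.P160.Unfold
import Vale.Agent.P227.Poly

/-!
P160 task WB. Keep the statements unchanged; add lemmas freely (start them with `wb_`).

The strong B-inequality. `log_concave'` is `P227.log_concave` with one profile per index: copy the proofs of
`P227.variance_at` and `P227.log_concave` in P227/Concave.lean (the underlying `P227.variance` already allows `ψ j`).
`bthm`: use the index set `J₁ ⊕ J₂`, profiles `s ↦ π s² = (2π) * (s²/2)` (`P227.prof_sq.const_mul`) with `δ = -d i` on `J₁`, and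
`k * φ` (`P227.exists_prof`) with `δ = 0` on `J₂`, `ε = 1/(k+1)`; let `k → ∞` by dominated convergence exactly as in
`P227.poly_ineq` (dominating function `exp (-π c' |x|²)`, `P227.integrable_gauss_poly`). `P227.dot a x = a ⬝ᵥ x` by `rfl`.
-/

set_option linter.unusedSectionVars false
set_option linter.unusedVariables false

namespace Vale.Agent.P160

open Finset Matrix MeasureTheory

open P227 in
theorem wb_variance {n : ℕ} {J : Type} [Fintype J] {ψ : J → ℝ → ℝ} (hψ : ∀ j, Prof (ψ j))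
    {ε : ℝ} (hε : 0 < ε) (a : J → X n) (δ w : J → ℝ) {V f r : X n → ℝ}
    (hV : V = fun x => ε / 2 * nsq x + ∑ j, ψ j (w j * dot (a j) x))
    (hf : f = fun x => ∑ j, δ j * (deriv (ψ j) (w j * dot (a j) x) * (w j * dot (a j) x)))
    (hr : r = fun x => ∑ j, δ j ^ 2 * (deriv (deriv (ψ j)) (w j * dot (a j) x) *
      (w j * dot (a j) x) ^ 2 + deriv (ψ j) (w j * dot (a j) x) * (w j * dot (a j) x))) :
    (∫ x, f x ^ 2 * Real.exp (-V x)) * (∫ x, Real.exp (-V x))
        - (∫ x, f x * Real.exp (-V x)) ^ 2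
      ≤ (∫ x, r x * Real.exp (-V x)) * ∫ x, Real.exp (-V x) := by
  have d1 : ∀ (i : Fin n) (x : X n), dot (Pi.single i 1) x = x i := fun i x => by
    simp [dot, Pi.single_apply]
  have d2 : ∀ (c : ℝ) (b x : X n), dot (c • b) x = c * dot b x := fun c b x => by
    simp [dot, Finset.mul_sum, mul_assoc]
  have d3 : deriv (fun s : ℝ => ε * (s ^ 2 / 2)) = fun s => ε * s := by
    funext s
    simp
  have d4 : ∀ s, deriv (fun s : ℝ => ε * s) s = ε := fun s => by simp
  refine variance (J := Fin n ⊕ J)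
    (ψ := Sum.elim (fun _ s => ε * (s ^ 2 / 2)) ψ) ?_
    (Sum.elim (fun i => Pi.single i 1) fun j => w j • a j) (Sum.elim (fun _ => 0) δ)
    ⟨ε, hε, fun x ξ => ?_⟩ ?_ ?_ ?_
  · rintro (i | j)
    · exact prof_sq.const_mul hε.le
    · exact hψ j
  · simp only [Fintype.sum_sum_type, Sum.elim_inl, Sum.elim_inr, d1, d3, d4, nsq, Finset.mul_sum]
    exact le_add_of_nonneg_right
      (Finset.sum_nonneg fun j _ => mul_nonneg ((hψ j).conv _) (sq_nonneg _))
  · rw [hV]
    funext x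
    simp only [Fintype.sum_sum_type, Sum.elim_inl, Sum.elim_inr, d1, d2, nsq, Finset.mul_sum]
    congr 1
    exact Finset.sum_congr rfl fun i _ => by ring
  · rw [hf]
    funext x
    simp [Fintype.sum_sum_type, d2]
  · rw [hr]
    funext x
    simp [Fintype.sum_sum_type, d2]

open P227 Set Filter Topology in
theorem log_concave' {n : ℕ} {J : Type} [Fintype J] {ψ : J → ℝ → ℝ} (hψ : ∀ j, P227.Prof (ψ j))
    (h0 : ∀ j s, 0 ≤ ψ j s) {ε : ℝ} (hε : 0 < ε) (a : J → Fin n → ℝ) (δ : J → ℝ) {I : ℝ → ℝ}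
    (hI : I = fun t => ∫ x, Real.exp
      (-(ε / 2 * P227.nsq x + ∑ j, ψ j (Real.exp (-(δ j * t)) * P227.dot (a j) x))))
    {t : ℝ} (ht0 : 0 ≤ t) (ht1 : t ≤ 1) : I 0 ^ (1 - t) * I 1 ^ t ≤ I t := by
  let S : J → ℝ → X n → ℝ := fun j t x => Real.exp (-(δ j * t)) * dot (a j) x
  let V : ℝ → X n → ℝ := fun t x => ε / 2 * nsq x + ∑ j, ψ j (S j t x)
  let f : ℝ → X n → ℝ := fun t x => ∑ j, δ j * (deriv (ψ j) (S j t x) * S j t x)
  let r : ℝ → X n → ℝ := fun t x => ∑ j, δ j ^ 2 *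
    (deriv (deriv (ψ j)) (S j t x) * S j t x ^ 2 + deriv (ψ j) (S j t x) * S j t x)
  have s1 := fun j => contDiff_infty_iff_deriv.1 (hψ j).sm
  have s2 := fun j => contDiff_infty_iff_deriv.1 (s1 j).2
  have c0 : ∀ j, Continuous (ψ j) := fun j => (hψ j).sm.continuous
  have c1 : ∀ j, Continuous (deriv (ψ j)) := fun j => (s1 j).2.continuous
  have c2 : ∀ j, Continuous (deriv (deriv (ψ j))) := fun j => (s2 j).2.continuous
  have cS : ∀ j, Continuous fun p : ℝ × X n => S j p.1 p.2 := fun j =>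
    (Real.continuous_exp.comp (continuous_const.mul continuous_fst).neg).mul
      ((sm_dot (a j)).cont.comp continuous_snd)
  have cV : Continuous fun p : ℝ × X n => V p.1 p.2 :=
    (continuous_const.mul (sm_nsq.cont.comp continuous_snd)).add
      (continuous_finsetSum _ fun j _ => (c0 j).comp (cS j))
  have cf : Continuous fun p : ℝ × X n => f p.1 p.2 :=
    continuous_finsetSum _ fun j _ => continuous_const.mul (((c1 j).comp (cS j)).mul (cS j))
  have cr : Continuous fun p : ℝ × X n => r p.1 p.2 :=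
    continuous_finsetSum _ fun j _ => continuous_const.mul
      ((((c2 j).comp (cS j)).mul ((cS j).pow 2)).add (((c1 j).comp (cS j)).mul (cS j)))
  have hVl : ∀ t x, ε / 2 * nsq x ≤ V t x := fun t x =>
    le_add_of_nonneg_right (Finset.sum_nonneg fun j _ => h0 j _)
  have pS : ∀ j, (fun (t : Icc (0 : ℝ) 1) x => S j t x) ∈ Qp := by
    intro j
    refine Qp.mul_mem (x := fun (t : Icc (0 : ℝ) 1) (_ : X n) => Real.exp (-(δ j * t)))
      (y := fun _ x => dot (a j) x) (Qp_of_le (Qp_const (Real.exp |δ j|)) fun t x => ?_)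
      (Qp_sum fun i => Qp.mul_mem (Qp_const (a j i)) (coord_mem_Qp i))
    rw [abs_of_pos (Real.exp_pos _), abs_of_pos (Real.exp_pos _), Real.exp_le_exp]
    have h1 := t.2.1
    have h2 := t.2.2
    nlinarith [neg_abs_le (δ j), abs_nonneg (δ j)]
  choose C2 hC2 using fun j => (hψ j).abs_deriv2_le
  choose C1 D1 hC1 using fun j => (hψ j).abs_deriv_le
  have p1 : ∀ j, (fun (t : Icc (0 : ℝ) 1) x => deriv (ψ j) (S j t x)) ∈ Qp := fun j =>
    Qp_of_le (Qp.add_mem (Qp_const (D1 j)) (Qp.mul_mem (Qp_const (C1 j))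
      (Qp.add_mem (Qp_const 1) (Qp.mul_mem (pS j) (pS j))))) fun t x => hC1 j _
  have p2 : ∀ j, (fun (t : Icc (0 : ℝ) 1) x => deriv (deriv (ψ j)) (S j t x)) ∈ Qp := fun j =>
    Qp_of_le (Qp_const (C2 j)) fun t x => (hC2 j _).trans (le_abs_self _)
  have pf : (fun (t : Icc (0 : ℝ) 1) x => f t x) ∈ Qp :=
    Qp_sum fun j => Qp.mul_mem (Qp_const (δ j)) (Qp.mul_mem (p1 j) (pS j))
  have pr : (fun (t : Icc (0 : ℝ) 1) x => r t x) ∈ Qp :=
    Qp_sum fun j => Qp.mul_mem (Qp_const (δ j ^ 2))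
      (Qp.add_mem (Qp.mul_mem (p2 j) (Qp.pow_mem (pS j) 2)) (Qp.mul_mem (p1 j) (pS j)))
  have dS : ∀ j t x, HasDerivAt (fun s => S j s x) (-(δ j * S j t x)) t := by
    intro j t x
    have h1 := (((hasDerivAt_id t).const_mul (δ j)).neg.exp).mul_const (dot (a j) x)
    refine HasDerivAt.congr_deriv h1 ?_
    simp only [S, id, Pi.neg_apply]
    ring
  have dE : ∀ t x, HasDerivAt (fun s => Real.exp (-V s x)) (f t x * Real.exp (-V t x)) t := by
    intro t x
    have h1 := ((HasDerivAt.fun_sum (u := Finset.univ) fun j _ =>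
      ((s1 j).1 _).hasDerivAt.comp t (dS j t x)).const_add (ε / 2 * nsq x)).fun_neg.exp
    refine HasDerivAt.congr_deriv h1 ?_
    rw [mul_comm, ← Finset.sum_neg_distrib]
    congr 1
    exact Finset.sum_congr rfl fun j _ => by ring
  have df : ∀ t x, HasDerivAt (fun s => f s x) (-r t x) t := by
    intro t x
    have h1 := HasDerivAt.fun_sum (u := Finset.univ) fun j _ =>
      ((((s2 j).1 _).hasDerivAt.comp t (dS j t x)).mul (dS j t x)).const_mul (δ j)
    refine HasDerivAt.congr_deriv h1 ?_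
    rw [← Finset.sum_neg_distrib]
    exact Finset.sum_congr rfl fun j _ => by simp only [Function.comp_apply]; ring
  exact concave_of (by positivity) hVl cV cf cr pf pr dE df
    (fun t => wb_variance hψ hε a δ (fun j => Real.exp (-(δ j * t))) rfl rfl rfl) hI ht0 ht1

open P227 Filter Topology in
theorem bthm {r m : ℕ} (a : Fin r → Fin r → ℝ) (d : Fin r → ℝ) (b : Fin m → Fin r → ℝ)
    (ha : ∃ c > 0, ∀ x : Fin r → ℝ, c * ∑ i, x i ^ 2 ≤ ∑ i, (a i ⬝ᵥ x) ^ 2) {g : ℝ → ℝ}
    (hg' : g = fun t => ∫ x in {x : Fin r → ℝ | ∀ j, |b j ⬝ᵥ x| ≤ 1},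
      Real.exp (-Real.pi * ∑ i, (Real.exp (d i * t) * (a i ⬝ᵥ x)) ^ 2))
    {s : ℝ} (hs0 : 0 ≤ s) (hs1 : s ≤ 1) : g 0 ^ (1 - s) * g 1 ^ s ≤ g s := by
  obtain ⟨c, hc, hca⟩ := ha
  obtain ⟨φ, hφ, h1, h2⟩ := exists_prof
  have hφ0 : ∀ s, 0 ≤ φ s := fun s => by
    rcases le_or_gt |s| 1 with h | h
    · exact (h1 s h).ge
    · exact (h2 s h).le
  have hφc : Continuous φ := hφ.sm.continuous
  set Q : ℝ → X r → ℝ := fun t x => Real.pi * ∑ i, (Real.exp (d i * t) * (a i ⬝ᵥ x)) ^ 2 with hQ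
  set I : ℕ → ℝ → ℝ := fun k t => ∫ x, Real.exp
    (-(1 / ((k : ℝ) + 1) / 2 * nsq x + (Q t x + k * ∑ j, φ (b j ⬝ᵥ x)))) with hI
  have hlim : ∀ t : ℝ, Tendsto (fun k => I k t) atTop (𝓝 (g t)) := by
    intro t
    have hm : MeasurableSet {x : Fin r → ℝ | ∀ j, |b j ⬝ᵥ x| ≤ 1} := by
      simp only [Set.ofPred_forall]
      exact (isClosed_iInter fun j => isClosed_le (by fun_prop) continuous_const).measurableSet
    obtain ⟨μ, hμ, hμ'⟩ : ∃ μ > 0, ∀ i, μ ≤ Real.exp (d i * t) :=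
      ⟨Real.exp (-∑ i, |d i * t|), Real.exp_pos _, fun i => Real.exp_le_exp.2
        ((neg_le_neg (Finset.single_le_sum (f := fun i => |d i * t|) (fun _ _ => abs_nonneg _)
          (Finset.mem_univ i))).trans (neg_abs_le _))⟩
    have hQl : ∀ x, Real.pi * (μ ^ 2 * c) * nsq x ≤ Q t x := fun x => by
      rw [mul_assoc, mul_assoc]
      refine mul_le_mul_of_nonneg_left ((mul_le_mul_of_nonneg_left (hca x) (sq_nonneg μ)).trans ?_)
        Real.pi_pos.le
      rw [Finset.mul_sum]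
      refine Finset.sum_le_sum fun i _ => ?_
      rw [mul_pow]
      exact mul_le_mul_of_nonneg_right (pow_le_pow_left₀ hμ.le (hμ' i) 2) (sq_nonneg _)
    have h0 : ∀ x : X r, Tendsto (fun k : ℕ => 1 / ((k : ℝ) + 1) / 2 * nsq x) atTop (𝓝 0) :=
      fun x => by
        simpa using ((tendsto_one_div_add_atTop_nhds_zero_nat (𝕜 := ℝ)).div_const 2).mul_const
          (nsq x)
    have n0 : ∀ (k : ℕ) (x : X r), 0 ≤ 1 / ((k : ℝ) + 1) / 2 * nsq x := fun k x =>
      mul_nonneg (by positivity) (Finset.sum_nonneg fun _ _ => sq_nonneg _)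
    rw [hg']
    simp only [neg_mul]
    rw [← integral_indicator hm]
    refine tendsto_integral_of_dominated_convergence
      (fun x => Real.exp (-(Real.pi * (μ ^ 2 * c) * nsq x)))
      (fun k => Continuous.aestronglyMeasurable ?_) ?_ (fun k => Eventually.of_forall fun x => ?_)
      (Eventually.of_forall fun x => ?_)
    · simp only [hQ, nsq]
      fun_prop
    · simpa using integrable_gauss_poly (n := r) (c := Real.pi * (μ ^ 2 * c)) (by positivity) 0
    · rw [Real.norm_of_nonneg (Real.exp_pos _).le, Real.exp_le_exp, neg_le_neg_iff]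
      linarith [hQl x, n0 k x, mul_nonneg (Nat.cast_nonneg (α := ℝ) k)
        (Finset.sum_nonneg (s := Finset.univ) fun j _ => hφ0 (b j ⬝ᵥ x))]
    · by_cases hx : x ∈ {x : Fin r → ℝ | ∀ j, |b j ⬝ᵥ x| ≤ 1}
      · rw [Set.indicator_of_mem hx, Finset.sum_eq_zero fun j _ => h1 _ (hx j)]
        simpa using ((h0 x).add_const (Q t x)).neg.rexp
      · rw [Set.indicator_of_notMem hx]
        simp only [Set.mem_ofPred_eq, not_forall] at hx
        obtain ⟨j, hj⟩ := hx
        have hpos : 0 < ∑ j, φ (b j ⬝ᵥ x) :=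
          Finset.sum_pos' (fun j _ => hφ0 _) ⟨j, Finset.mem_univ _, h2 _ (not_le.1 hj)⟩
        exact Real.tendsto_exp_neg_atTop_nhds_zero.comp ((h0 x).add_atTop
          (tendsto_atTop_add_const_left _ _ (tendsto_natCast_atTop_atTop.atTop_mul_const hpos)))
  refine le_of_tendsto_of_tendsto' (((hlim 0).rpow_const (Or.inr (sub_nonneg.2 hs1))).mul
    ((hlim 1).rpow_const (Or.inr hs0))) (hlim s) fun k => ?_
  refine log_concave' (J := Fin r ⊕ Fin m)
    (ψ := Sum.elim (fun _ s => 2 * Real.pi * (s ^ 2 / 2)) fun _ s => (k : ℝ) * φ s) ?_ ?_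
    (ε := 1 / ((k : ℝ) + 1)) (by positivity) (Sum.elim a b) (Sum.elim (fun i => -d i) fun _ => 0)
    (I := I k) ?_ hs0 hs1
  · rintro (i | j)
    · exact prof_sq.const_mul (by positivity)
    · exact hφ.const_mul (Nat.cast_nonneg k)
  · rintro (i | j) s
    · exact mul_nonneg (by positivity) (by positivity)
    · exact mul_nonneg (Nat.cast_nonneg k) (hφ0 s)
  · funext t
    refine congrArg _ (funext fun x => ?_)
    simp only [hQ, Fintype.sum_sum_type, Sum.elim_inl, Sum.elim_inr, neg_mul, neg_neg, zero_mul,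
      neg_zero, Real.exp_zero, one_mul, Finset.mul_sum]
    congr 4
    exact Finset.sum_congr rfl fun i _ => by rw [show dot (a i) x = a i ⬝ᵥ x from rfl]; ring

end Vale.Agent.P160
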