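import Vale.Agent.P160.UC

/-!
P160 task WHerm. Keep the statements unchanged; add lemmas freely (start them with `wherm_`).

Hermite reduction. Induct on `r` (the statement is for all `μ, D`). For `r + 1`: take a nonzero integer `z₁` minimising `qf G`
(finitely many candidates, `exists_qf_bounds`), `λ = qf G z₁ ≥ μ`; `saturate` for the one-column matrix gives a unimodular `[P Y]` with
`P` one column and `qf G P ≤ λ`, hence `= λ`. The Schur complement `S` has `det S = det G / λ ≤ D / μ` and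
`qf S (iv b) ≥ 3 λ / 4` for `b ≠ 0` (lift with `|a + ..| ≤ 1/2` by rounding: `λ ≤ λ/4 + qf S b`, `qf_split`). Apply the induction to
`S` reindexed to `Fin r` with `3μ/4, D/μ`, get `Z'`, lift each column with rounding so that its form is `≤ R' + λ/4`;
`λ ≤ D` if `r = 0`, else `3λ/4 ≤ R'`. The final matrix is `[P Y] * fromBlocks 1 c 0 Z'` reindexed to `Fin (r+1)`.
-/

set_option linter.unusedSectionVars false
set_option linter.unusedVariables false

namespace Vale.Agent.P160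

open Finset Matrix MeasureTheory

section
variable {ι κ ν : Type} [Fintype ι] [DecidableEq ι] [Fintype κ] [DecidableEq κ] [Fintype ν]
  [DecidableEq ν]

theorem wherm_min [Nonempty ι] {G : Matrix ι ι ℝ} (hG : G.PosDef) :
    ∃ z₁ : ι → ℤ, z₁ ≠ 0 ∧ ∀ z : ι → ℤ, z ≠ 0 → qf G (iv z₁) ≤ qf G (iv z) := by
  obtain ⟨c, hc, C, -, h⟩ := exists_qf_bounds hG
  obtain ⟨N, hN⟩ : ∃ N : ℤ, qf G (iv 1) / c ≤ N := ⟨_, Int.le_ceil _⟩
  have hfin : {z : ι → ℤ | z ≠ 0 ∧ qf G (iv z) ≤ qf G (iv 1)}.Finite := by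
    refine (Set.finite_Icc (fun _ : ι => -N) fun _ => N).subset fun z hz => ?_
    have h1 : ∀ i, z i ^ 2 ≤ N := by
      intro i
      have h2 := (h (iv z)).1.trans hz.2
      have h3 : iv z i ^ 2 ≤ qf 1 (iv z) := by
        rw [qf_one]
        exact single_le_sum (f := fun i => iv z i ^ 2) (fun _ _ => sq_nonneg _) (mem_univ i)
      have h4 : qf 1 (iv z) ≤ N := ((le_div_iff₀' hc).2 h2).trans hN
      have h5 : ((z i : ℝ)) ^ 2 ≤ N := h3.trans h4
      exact_mod_cast h5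
    refine ⟨fun i => ?_, fun i => (Int.le_self_sq (z i)).trans (h1 i)⟩
    have h2 := Int.le_self_sq (-z i)
    have h3 := h1 i
    rw [neg_sq] at h2
    show -N ≤ z i
    linarith
  obtain ⟨z₁, h1, h2⟩ := Set.exists_min_image _ (fun z => qf G (iv z)) hfin
    ⟨1, one_ne_zero, le_rfl⟩
  refine ⟨z₁, h1.1, fun z hz => ?_⟩
  rcases le_total (qf G (iv z)) (qf G (iv 1)) with h3 | h3
  · exact h2 z ⟨hz, h3⟩
  · exact h1.2.trans h3

theorem wherm_diag (G : Matrix ι ι ℝ) (Z : Matrix ι κ ℤ) (k : κ) :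
    gr G Z k k = qf G (iv fun i => Z i k) := by
  rw [gr, Matrix.mul_assoc]
  rfl

theorem wherm_single (G : Matrix ι ι ℝ) (k : ι) : qf G (iv (Pi.single k 1)) = G k k := by
  have : iv (Pi.single k 1 : ι → ℤ) = Pi.single k 1 := by
    funext i
    by_cases h : i = k <;> simp [iv, h]
  simp [this, qf]

theorem wherm_lift {H : Matrix (Fin 1 ⊕ κ) (Fin 1 ⊕ κ) ℝ} (hH : H.PosDef) (b : κ → ℤ) :
    ∃ a : Fin 1 → ℤ, qf H (iv (Sum.elim a b)) ≤
      H (Sum.inl 0) (Sum.inl 0) / 4 + qf (sch H) (iv b) := by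
  obtain ⟨t, ht⟩ : ∃ t, t = (H.toBlocks₁₁⁻¹ * H.toBlocks₁₂) *ᵥ iv b := ⟨_, rfl⟩
  refine ⟨fun i => -round (t i), ?_⟩
  have e : iv (Sum.elim (fun i => -round (t i)) b) =
      Sum.elim (fun i => -(round (t i) : ℝ)) (iv b) := by
    funext i
    rcases i with i | i <;> simp [iv]
  rw [e, qf_split hH.posSemidef (toBlocks₁₁_posDef hH), ← ht]
  have h0 : 0 ≤ H (Sum.inl 0) (Sum.inl 0) := hH.posSemidef.diag_nonneg
  have h1 := abs_le.1 (abs_sub_round (t 0))
  have h2 : (-(round (t 0) : ℝ) + t 0) ^ 2 ≤ 1 / 4 := by nlinarith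
  have h3 : qf H.toBlocks₁₁ ((fun i => -(round (t i) : ℝ)) + t) =
      H (Sum.inl 0) (Sum.inl 0) * (-(round (t 0) : ℝ) + t 0) ^ 2 := by
    simp only [qf, dotProduct, mulVec, Fin.sum_univ_one, toBlocks₁₁, of_apply, Pi.add_apply]
    ring
  rw [h3]
  nlinarith

theorem wherm_mul {A : Matrix ι κ ℤ} {B : Matrix κ ν ℤ} (hA : Uni A) (hB : Uni B) :
    Uni (A * B) := by
  obtain ⟨A', a1, a2⟩ := hA
  obtain ⟨B', b1, b2⟩ := hB
  refine ⟨B' * A', ?_, ?_⟩
  · rw [Matrix.mul_assoc, ← Matrix.mul_assoc B, b1, Matrix.one_mul, a1]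
  · rw [Matrix.mul_assoc, ← Matrix.mul_assoc A', a2, Matrix.one_mul, b2]

theorem wherm_block (c : Matrix ι κ ℤ) {Z : Matrix κ κ ℤ} (hZ : Uni Z) :
    Uni (fromBlocks (1 : Matrix ι ι ℤ) c 0 Z) := by
  obtain ⟨Q, h1, h2⟩ := hZ
  refine ⟨fromBlocks 1 (-(c * Q)) 0 Q, ?_, ?_⟩
  · simp [fromBlocks_multiply, h1]
  · simp [fromBlocks_multiply, h2, Matrix.mul_assoc]

theorem wherm_reindex {A : Matrix ι κ ℤ} (hA : Uni A) (e : ν ≃ κ) : Uni (A.submatrix id e) := by
  obtain ⟨Q, h1, h2⟩ := hA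
  refine ⟨Q.submatrix e id, ?_, ?_⟩
  · rw [submatrix_mul_equiv, h1, submatrix_id_id]
  · rw [← submatrix_mul _ _ _ _ _ Function.bijective_id, h2, submatrix_one_equiv]

theorem wherm_col {Z : Matrix ι κ ℤ} (hZ : Uni Z) (k : κ) : (fun i => Z i k) ≠ 0 := by
  intro h
  have h1 := hg_ne_zero_iff.1 hZ.hg_ne (Pi.single k 1) (by rw [mulVec_single_one]; exact h)
  simpa using congrFun h1 k

theorem wherm_step {μ D R : ℝ} (hμ : 0 < μ)
    (ih : ∀ G : Matrix κ κ ℝ, G.PosDef → (∀ z : κ → ℤ, z ≠ 0 → 3 * μ / 4 ≤ qf G (iv z)) →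
      G.det ≤ D / μ → ∃ Z : Matrix κ κ ℤ, Uni Z ∧ ∀ i, gr G Z i i ≤ R)
    {H : Matrix (Fin 1 ⊕ κ) (Fin 1 ⊕ κ) ℝ} (hH : H.PosDef) (h1 : μ ≤ H (Sum.inl 0) (Sum.inl 0))
    (h2 : ∀ z, z ≠ 0 → H (Sum.inl 0) (Sum.inl 0) ≤ qf H (iv z)) (h3 : H.det ≤ D) :
    ∃ W : Matrix (Fin 1 ⊕ κ) (Fin 1 ⊕ κ) ℤ, Uni W ∧
      ∀ i, gr H W i i ≤ max (max D (4 * R / 3)) (max D (4 * R / 3) / 4 + R) := by
  have hS := sch_posDef hH
  have hd : H.det = H (Sum.inl 0) (Sum.inl 0) * (sch H).det := by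
    rw [det_eq_sch (toBlocks₁₁_posDef hH), det_fin_one]
    rfl
  choose a ha using wherm_lift hH
  have h4 : ∀ b : κ → ℤ, b ≠ 0 → 3 * H (Sum.inl 0) (Sum.inl 0) / 4 ≤ qf (sch H) (iv b) := by
    intro b hb
    have := (h2 (Sum.elim (a b) b) fun h => hb (funext fun k => congrFun h (Sum.inr k))).trans
      (ha b)
    linarith
  obtain ⟨Z, hZ, hR⟩ := ih (sch H) hS (fun b hb => by linarith [h4 b hb])
    ((le_div_iff₀' hμ).2 (by nlinarith [hS.det_pos]))
  have h5 : H (Sum.inl 0) (Sum.inl 0) ≤ max D (4 * R / 3) := by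
    rcases isEmpty_or_nonempty κ with h | ⟨⟨k⟩⟩
    · rw [det_isEmpty (A := sch H), mul_one] at hd
      exact le_max_of_le_left (hd ▸ h3)
    · have h6 := h4 _ (wherm_col hZ k)
      have h7 := hR k
      rw [wherm_diag] at h7
      exact le_max_of_le_right (by linarith)
  refine ⟨fromBlocks 1 (of fun i k => a (fun j => Z j k) i) 0 Z, wherm_block _ hZ, ?_⟩
  rintro (i | k)
  · have e : (fun j => fromBlocks (1 : Matrix (Fin 1) (Fin 1) ℤ)
        (of fun i k => a (fun j => Z j k) i) 0 Z j (Sum.inl i)) = Pi.single (Sum.inl 0) 1 := by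
      funext j
      rcases j with j | j
      · simp [Subsingleton.elim i 0, Subsingleton.elim j 0]
      · simp
    rw [wherm_diag, e, wherm_single]
    exact le_max_of_le_left h5
  · have e : (fun j => fromBlocks (1 : Matrix (Fin 1) (Fin 1) ℤ)
        (of fun i k => a (fun j => Z j k) i) 0 Z j (Sum.inr k)) =
        Sum.elim (a fun j => Z j k) fun j => Z j k := by
      funext j
      rcases j with j | j <;> rfl
    have h7 := hR k
    rw [wherm_diag] at h7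
    rw [wherm_diag, e]
    exact le_max_of_le_right ((ha _).trans (by linarith))

end

theorem hermite (r : ℕ) {μ : ℝ} (hμ : 0 < μ) (D : ℝ) : ∃ R : ℝ, ∀ G : Matrix (Fin r) (Fin r) ℝ,
    G.PosDef → (∀ z : Fin r → ℤ, z ≠ 0 → μ ≤ qf G (iv z)) → G.det ≤ D →
      ∃ Z : Matrix (Fin r) (Fin r) ℤ, Uni Z ∧ ∀ i, gr G Z i i ≤ R := by
  induction r generalizing μ D with
  | zero => exact ⟨0, fun G _ _ _ => ⟨1, ⟨1, Matrix.mul_one _, Matrix.mul_one _⟩, fun i => i.elim0⟩⟩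
  | succ r ih =>
    obtain ⟨R, hR⟩ := ih (μ := 3 * μ / 4) (by positivity) (D / μ)
    refine ⟨max (max D (4 * R / 3)) (max D (4 * R / 3) / 4 + R), fun G hG h1 h2 => ?_⟩
    obtain ⟨z₁, hz, hmin⟩ := wherm_min hG
    have hZ : hg (of fun i (_ : Fin 1) => z₁ i) ≠ 0 := by
      refine hg_ne_zero_iff.2 fun c hc => ?_
      obtain ⟨i, hi⟩ := Function.ne_iff.1 hz
      have h3 := congrFun hc i
      simp only [mulVec, dotProduct, Fin.sum_univ_one, of_apply, Pi.zero_apply] at h3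
      funext j
      rw [Subsingleton.elim j 0]
      exact (mul_eq_zero.1 h3).resolve_left hi
    obtain ⟨a, b, P, Y, hU, ha, -, hle⟩ := saturate hG hZ
    rw [Fintype.card_fin] at ha
    subst ha
    have hb := hU.card_eq
    simp only [Fintype.card_sum, Fintype.card_fin] at hb
    obtain rfl : b = r := by omega
    rw [det_fin_one, det_fin_one, wherm_diag G (of fun i (_ : Fin 1) => z₁ i)] at hle
    have h3 : gr G (fromCols P Y) (Sum.inl 0) (Sum.inl 0) = gr G P 0 0 := by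
      rw [wherm_diag, wherm_diag]
      rfl
    obtain ⟨W, hW, hWR⟩ := wherm_step hμ hR (gr_posDef hG hU.hg_ne)
      (by rw [wherm_diag]; exact h1 _ (wherm_col hU _))
      (fun z hz => by
        rw [h3, qf_gr, ← iv_mulVec]
        exact hle.trans (hmin _ fun h => hz (hg_ne_zero_iff.1 hU.hg_ne z h)))
      (by rw [det_gr_uni hU]; exact h2)
    refine ⟨_, wherm_reindex (wherm_mul hU hW) ((finCongr hb.symm).trans finSumFinEquiv.symm),
      fun i => ?_⟩
    have h4 := hWR (((finCongr hb.symm).trans finSumFinEquiv.symm) i)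
    rw [gr_gr, wherm_diag] at h4
    rw [wherm_diag]
    exact h4

end Vale.Agent.P160
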