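import Vale.Agent.P160.WLap

/-!
P160 task WPos. Keep the statements unchanged; add lemmas freely (start them with `wpos_`).

M-position. Take `ξ, b, S` from `klartag`, `v = vol K`, `μ = (D det S)^(1/r)`, `G = μ • S⁻¹` (so `det G = D`),
`λ = (D v²)^(1/(2r)) ≥ 1`, `λ² ≥ μ`, `u x = (2λ)⁻¹ • (x - b) ∈ K` for `x ∈ K`. With `w x = exp (ξ·x)`, `Z = ∫_K w`:
`∫_K qf G (x - b) w = μ r Z` (trace of `S⁻¹ S`), so `∫_K qf G (u x) w ≤ r Z / 4`. The tangent line bound
`exp (-y) ≥ exp (-y₀) (1 + y₀ - y)` with `y₀ = π r/4` gives `exp (-π r/4) Z ≤ ∫_K exp (-π qf G (u x)) w`.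
On `K`, `exp (-r) ≤ w ≤ exp r` (symmetry), so `Z ≥ exp (-r) v`; change variables `x = b + 2λ u`
(`Measure.integral_comp_smul`, `integral_add_right_eq_self`, indicator of `K`): `∫_K exp (-π qf G (u x)) ≤ (2λ)^r ∫_K exp (-π qf G)`,
`λ^r = √D v`. Finally `exp (-π/4 - 2) / 2 ≥ exp (-4)`.
`simdiag`: `G₀ = Bᵀ B`, diagonalise `B⁻ᵀ G₁ B⁻¹ = O diag(λ) Oᵀ` (`IsHermitian.spectral_theorem`), `E = Oᵀ B`, `d i = log (λ i) / 2`.
-/

set_option linter.unusedSectionVars false
set_option linter.unusedVariables false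

namespace Vale.Agent.P160

open Finset Matrix MeasureTheory

theorem wpos_root {r : ℕ} (hr : 1 ≤ r) {c : ℝ} (hc : 0 < c) : ∃ μ : ℝ, 0 < μ ∧ μ ^ r = c :=
  ⟨c ^ ((r : ℝ)⁻¹), Real.rpow_pos_of_pos hc _, Real.rpow_inv_natCast_pow hc.le (by omega)⟩

theorem wpos_smul {r : ℕ} (G : Matrix (Fin r) (Fin r) ℝ) (c : ℝ) (x : Fin r → ℝ) :
    qf G (c • x) = c ^ 2 * qf G x := by
  rw [qf, qf, mulVec_smul, smul_dotProduct, dotProduct_smul, smul_eq_mul, smul_eq_mul, sq,
    mul_assoc]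

theorem wpos_trace {r : ℕ} {K : Set (Fin r → ℝ)} (hc : IsCompact K) {ξ b : Fin r → ℝ}
    {S : Matrix (Fin r) (Fin r) ℝ} (hS : S.PosDef) {Z μ : ℝ}
    (h : ∀ i j, ∫ x in K, (x i - b i) * (x j - b j) * Real.exp (ξ ⬝ᵥ x) = S i j * Z) :
    ∫ x in K, qf (μ • S⁻¹) (x - b) * Real.exp (ξ ⬝ᵥ x) = μ * (r * Z) := by
  have hi : ∀ i j, IntegrableOn (fun x : Fin r → ℝ =>
      μ * S⁻¹ i j * ((x i - b i) * (x j - b j) * Real.exp (ξ ⬝ᵥ x))) K := fun i j =>
    Continuous.continuousOn (by fun_prop) |>.integrableOn_compact hc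
  have e : ∀ x : Fin r → ℝ, qf (μ • S⁻¹) (x - b) * Real.exp (ξ ⬝ᵥ x) =
      ∑ i, ∑ j, μ * S⁻¹ i j * ((x i - b i) * (x j - b j) * Real.exp (ξ ⬝ᵥ x)) := fun x => by
    rw [qf, dotProduct, sum_mul]
    refine sum_congr rfl fun i _ => ?_
    rw [mulVec, dotProduct, mul_sum, sum_mul]
    refine sum_congr rfl fun j _ => ?_
    rw [Matrix.smul_apply, smul_eq_mul, Pi.sub_apply, Pi.sub_apply]
    ring
  have t : ∀ i, ∑ j, μ * S⁻¹ i j * (S i j * Z) = μ * Z := fun i => by
    have h1 := congrFun (congrFun (nonsing_inv_mul S (Ne.isUnit hS.det_pos.ne')) i) i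
    rw [mul_apply, one_apply_eq] at h1
    rw [← mul_one (μ * Z), ← h1, mul_sum]
    refine sum_congr rfl fun j _ => ?_
    rw [← hS.1.apply j i, star_trivial]
    ring
  simp only [e]
  rw [integral_finsetSum _ fun i _ => integrable_finsetSum _ fun j _ => hi i j]
  simp only [integral_finsetSum _ fun j _ => hi _ j, integral_const_mul, h, t]
  rw [sum_const, card_univ, Fintype.card_fin, nsmul_eq_mul]
  ring

theorem wpos_tangent {y q w E : ℝ} (h0 : 0 ≤ w) (h1 : w ≤ E) :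
    Real.exp (-y) * ((1 + y) * w - Real.pi * (q * w)) ≤ E * Real.exp (-Real.pi * q) := by
  have h2 := mul_le_mul_of_nonneg_left (Real.add_one_le_exp (y - Real.pi * q))
    (Real.exp_pos (-y)).le
  rw [← Real.exp_add, show -y + (y - Real.pi * q) = -Real.pi * q by ring] at h2
  have h3 := mul_le_mul_of_nonneg_left h2 h0
  have h4 := mul_le_mul_of_nonneg_right h1 (Real.exp_pos (-Real.pi * q)).le
  linarith

theorem wpos_change {r : ℕ} {K : Set (Fin r → ℝ)} (hK : P248.Body K) {q : (Fin r → ℝ) → ℝ}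
    (hq : Continuous q) {b : Fin r → ℝ} (hb : b ∈ K) {l : ℝ} (hl : 1 ≤ l) :
    ∫ x in K, Real.exp (-Real.pi * q ((2 * l)⁻¹ • (x - b))) ≤
      (2 * l) ^ r * ∫ x in K, Real.exp (-Real.pi * q x) := by
  have hm := hK.compact.measurableSet
  have hu : ∀ x ∈ K, (2 * l)⁻¹ • (x - b) ∈ K := fun x hx => by
    have h0 := hK.convex hb (hK.symm b hb) (a := 1 / 2) (b := 1 / 2) (by norm_num) (by norm_num)
      (by norm_num)
    have h1 := hK.convex hx (hK.symm b hb) (a := 1 / 2) (b := 1 / 2) (by norm_num) (by norm_num)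
      (by norm_num)
    rw [← smul_add, add_neg_cancel, smul_zero] at h0
    have h2 := hK.convex.smul_mem_of_zero_mem h0 h1 (t := l⁻¹)
      ⟨by positivity, inv_le_one_of_one_le₀ hl⟩
    rwa [← smul_add, smul_smul, ← sub_eq_add_neg, one_div, ← mul_inv, mul_comm] at h2
  have hF : Integrable (K.indicator fun x => Real.exp (-Real.pi * q x)) :=
    (Continuous.continuousOn (by fun_prop) |>.integrableOn_compact hK.compact :
      IntegrableOn _ K volume).integrable_indicator hm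
  have hi : IntegrableOn (fun x => Real.exp (-Real.pi * q ((2 * l)⁻¹ • (x - b)))) K volume :=
    Continuous.continuousOn (by fun_prop) |>.integrableOn_compact hK.compact
  have h1 := Measure.integral_comp_inv_smul_of_nonneg volume
    (K.indicator fun x => Real.exp (-Real.pi * q x)) (R := 2 * l) (by positivity)
  rw [Module.finrank_fin_fun, smul_eq_mul, integral_indicator hm,
    ← integral_sub_right_eq_self _ b] at h1
  rw [← h1, ← integral_indicator hm]
  refine integral_mono (hi.integrable_indicator hm)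
    ((hF.comp_smul (by positivity)).comp_sub_right b) fun x => ?_
  by_cases hx : x ∈ K
  · simp only [Set.indicator_of_mem hx, Set.indicator_of_mem (hu x hx), le_refl]
  · simp only [Set.indicator_of_notMem hx]
    exact Set.indicator_nonneg (fun _ _ => (Real.exp_pos _).le) _

theorem wpos_diag {r : ℕ} {G : Matrix (Fin r) (Fin r) ℝ} (h : G.PosDef) :
    ∃ (O : Matrix (Fin r) (Fin r) ℝ) (d : Fin r → ℝ), Oᵀ * O = 1 ∧
      G = Oᵀ * diagonal (fun i => Real.exp (2 * d i)) * O := by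
  refine ⟨(h.1.eigenvectorUnitary : Matrix (Fin r) (Fin r) ℝ)ᵀ,
    fun i => Real.log (h.1.eigenvalues i) / 2, ?_, ?_⟩
  · have := Unitary.coe_mul_star_self h.1.eigenvectorUnitary
    rwa [transpose_transpose]
  · have e : (fun i => Real.exp (2 * (Real.log (h.1.eigenvalues i) / 2))) = h.1.eigenvalues :=
      funext fun i => by rw [mul_div_cancel₀ _ two_ne_zero, Real.exp_log (h.eigenvalues_pos i)]
    rw [e, transpose_transpose]
    exact h.1.spectral_theorem

theorem mpos {r : ℕ} (hr : 1 ≤ r) {K : Set (Fin r → ℝ)} (hK : P248.Body K)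
    (hv : 1 ≤ volume.real K) {D : ℝ} (hD : 1 ≤ D) :
    ∃ G : Matrix (Fin r) (Fin r) ℝ, G.PosDef ∧ G.det = D ∧
      Real.exp (-4 * r) ≤ √D * ∫ x in K, Real.exp (-Real.pi * qf G x) := by
  obtain ⟨ξ, b, S, hξ, hb, hS, hdet, hcov⟩ := klartag hr hK
  have hS0 := hS.det_pos
  have hD1 : 1 ≤ √D := Real.one_le_sqrt.2 hD
  obtain ⟨μ, hμ0, hμ⟩ := wpos_root hr (show 0 < D * S.det by positivity)
  obtain ⟨l, hl0, hl⟩ := wpos_root hr (show 0 < √D * volume.real K by positivity)
  have hl1 : 1 ≤ l := by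
    refine le_of_pow_le_pow_left₀ (n := r) (by omega) hl0.le ?_
    rw [one_pow, hl]
    exact one_le_mul_of_one_le_of_one_le hD1 hv
  have hμl : μ ≤ l ^ 2 := by
    refine le_of_pow_le_pow_left₀ (n := r) (by omega) (by positivity) ?_
    rw [hμ, ← pow_mul, mul_comm 2 r, pow_mul, hl, mul_pow, Real.sq_sqrt (by linarith)]
    exact mul_le_mul_of_nonneg_left hdet (by linarith)
  refine ⟨μ • S⁻¹, hS.inv.smul hμ0, ?_, ?_⟩
  · rw [det_smul, Fintype.card_fin, hμ, det_nonsing_inv, Ring.inverse_eq_inv', mul_assoc,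
      mul_inv_cancel₀ hS0.ne', mul_one]
  have hc := hK.compact
  have hm := hc.measurableSet
  have cw : Continuous fun x : Fin r → ℝ => Real.exp (ξ ⬝ᵥ x) := by fun_prop
  have cq : Continuous fun x : Fin r → ℝ => qf (μ • S⁻¹) ((2 * l)⁻¹ • (x - b)) :=
    (continuous_qf _).comp (by fun_prop)
  have ce : Continuous fun x : Fin r → ℝ =>
      Real.exp (-Real.pi * qf (μ • S⁻¹) ((2 * l)⁻¹ • (x - b))) := by fun_prop
  set Z := ∫ x in K, Real.exp (ξ ⬝ᵥ x) with hZ
  have h1 : ∫ x in K, qf (μ • S⁻¹) ((2 * l)⁻¹ • (x - b)) * Real.exp (ξ ⬝ᵥ x) =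
      ((2 * l)⁻¹) ^ 2 * (μ * (r * Z)) := by
    simp only [wpos_smul, mul_assoc]
    rw [integral_const_mul, wpos_trace hc hS hcov]
  have h2 : Real.exp (-r) * volume.real K ≤ Z := by
    rw [mul_comm, ← smul_eq_mul, ← setIntegral_const]
    refine setIntegral_mono_on (continuous_const.continuousOn.integrableOn_compact hc)
      (cw.continuousOn.integrableOn_compact hc) hm fun x hx => Real.exp_le_exp.2 ?_
    have := hξ _ (hK.symm x hx)
    rw [dotProduct_neg] at this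
    linarith
  have hZ0 : 0 ≤ Z := le_trans (by positivity) h2
  have h3 : ((2 * l)⁻¹) ^ 2 * (μ * (r * Z)) ≤ r * Z / 4 := by
    rw [inv_pow, inv_mul_le_iff₀ (by positivity)]
    nlinarith [mul_le_mul_of_nonneg_right hμl (show 0 ≤ r * Z by positivity)]
  have h4 : Real.exp (-(Real.pi * r / 4)) * ((1 + Real.pi * r / 4) * Z -
      Real.pi * (((2 * l)⁻¹) ^ 2 * (μ * (r * Z)))) ≤ Real.exp r *
        ∫ x in K, Real.exp (-Real.pi * qf (μ • S⁻¹) ((2 * l)⁻¹ • (x - b))) := by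
    have i1 := cw.continuousOn.integrableOn_compact (μ := volume) hc
    have i2 : IntegrableOn (fun x => qf (μ • S⁻¹) ((2 * l)⁻¹ • (x - b)) * Real.exp (ξ ⬝ᵥ x)) K
        volume := (cq.mul cw).continuousOn.integrableOn_compact hc
    rw [← h1, hZ, ← integral_const_mul, ← integral_const_mul,
      ← integral_sub (i1.const_mul _) (i2.const_mul _), ← integral_const_mul, ← integral_const_mul]
    refine setIntegral_mono_on (((i1.const_mul _).sub (i2.const_mul _)).const_mul _)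
      ((ce.continuousOn.integrableOn_compact hc).const_mul _) hm fun x hx => ?_
    exact wpos_tangent (Real.exp_pos _).le (Real.exp_le_exp.2 (hξ x hx))
  have h5 := wpos_change hK (continuous_qf (μ • S⁻¹)) hb hl1
  have h6 : Real.exp (-(Real.pi * r / 4)) * (Real.exp (-r) * volume.real K) ≤
      Real.exp r * ((2 * l) ^ r * ∫ x in K, Real.exp (-Real.pi * qf (μ • S⁻¹) x)) := by
    refine le_trans (mul_le_mul_of_nonneg_left ?_ (Real.exp_pos _).le)
      (h4.trans (mul_le_mul_of_nonneg_left h5 (Real.exp_pos _).le))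
    nlinarith [mul_le_mul_of_nonneg_left h3 Real.pi_pos.le]
  have hJ : 0 ≤ √D * ∫ x in K, Real.exp (-Real.pi * qf (μ • S⁻¹) x) :=
    mul_nonneg (by positivity) (integral_nonneg fun _ => (Real.exp_pos _).le)
  have h7 : (2 : ℝ) ^ r ≤ Real.exp r := by
    rw [← Real.exp_one_pow]
    exact pow_le_pow_left₀ zero_le_two (by linarith [Real.add_one_le_exp (1 : ℝ)]) r
  rw [mul_pow, hl] at h6
  have h8 : Real.exp (-(Real.pi * r / 4)) * Real.exp (-r) ≤
      Real.exp r * Real.exp r * (√D * ∫ x in K, Real.exp (-Real.pi * qf (μ • S⁻¹) x)) := by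
    refine le_of_mul_le_mul_right (a := volume.real K) ?_ (by linarith)
    have h9 := mul_le_mul_of_nonneg_right h7
      (mul_nonneg (mul_nonneg (Real.exp_pos r).le hJ) (zero_le_one.trans hv))
    nlinarith
  rw [← Real.exp_add, ← Real.exp_add, ← inv_mul_le_iff₀ (Real.exp_pos _), ← Real.exp_neg,
    ← Real.exp_add] at h8
  refine le_trans (Real.exp_le_exp.2 ?_) h8
  nlinarith [Real.pi_le_four, (Nat.cast_nonneg r : (0 : ℝ) ≤ r)]

theorem simdiag {r : ℕ} {G₀ G₁ : Matrix (Fin r) (Fin r) ℝ} (h₀ : G₀.PosDef) (h₁ : G₁.PosDef)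
    (hd : G₁.det = G₀.det) :
    ∃ (E : Matrix (Fin r) (Fin r) ℝ) (d : Fin r → ℝ), E.det ≠ 0 ∧ ∑ i, d i = 0 ∧ G₀ = Eᵀ * E ∧
      G₁ = Eᵀ * diagonal (fun i => Real.exp (2 * d i)) * E := by
  obtain ⟨O, a, -, hO⟩ := wpos_diag h₀
  set B := diagonal (fun i => Real.exp (a i)) * O with hB
  have h1 : G₀ = Bᵀ * B := by
    rw [hO, hB, transpose_mul, diagonal_transpose, Matrix.mul_assoc Oᵀ, Matrix.mul_assoc Oᵀ,
      ← Matrix.mul_assoc (diagonal _), diagonal_mul_diagonal]
    simp only [two_mul, Real.exp_add]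
  have h2 : IsUnit B.det := Ne.isUnit fun h => by
    have := h₀.det_pos
    rw [h1, det_mul, h, mul_zero] at this
    exact lt_irrefl _ this
  have h3 := h₁.conjTranspose_mul_mul_same (B := B⁻¹)
    (mulVec_injective_iff_isUnit.2 (isUnit_nonsing_inv_iff.2 ((isUnit_iff_isUnit_det B).2 h2)))
  obtain ⟨P, d, hP, hd'⟩ := wpos_diag h3
  have h4 : G₀ = (P * B)ᵀ * (P * B) := by
    rw [transpose_mul, Matrix.mul_assoc, ← Matrix.mul_assoc Pᵀ, hP, Matrix.one_mul, h1]
  have h5 : G₁ = (P * B)ᵀ * diagonal (fun i => Real.exp (2 * d i)) * (P * B) := by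
    have e : (P * B)ᵀ * diagonal (fun i => Real.exp (2 * d i)) * (P * B) =
        Bᵀ * (Pᵀ * diagonal (fun i => Real.exp (2 * d i)) * P) * B := by
      simp only [transpose_mul, Matrix.mul_assoc]
    rw [e, ← hd', conjTranspose_eq_transpose_of_trivial, Matrix.mul_assoc, Matrix.mul_assoc,
      nonsing_inv_mul _ h2, Matrix.mul_one, ← Matrix.mul_assoc, ← transpose_mul,
      nonsing_inv_mul _ h2, transpose_one, Matrix.one_mul]
  have h6 : (P * B).det ≠ 0 := fun h => by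
    have := h₀.det_pos
    rw [h4, det_mul, h, mul_zero] at this
    exact lt_irrefl _ this
  refine ⟨P * B, d, h6, ?_, h4, h5⟩
  rw [h5, h4, det_mul, det_mul, det_mul (P * B)ᵀ, det_transpose, det_diagonal, ← Real.exp_sum,
    mul_left_inj' h6, mul_eq_left₀ h6, Real.exp_eq_one_iff, ← mul_sum] at hd
  linarith

end Vale.Agent.P160
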