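import Vale.Agent.P160.WVor
import Vale.Agent.P160.WB
import Vale.Agent.P160.WPos

/-!
P160 task WInt. Keep the statements unchanged; add lemmas freely (start them with `wint_`).

The interior case. `K = Vor G₀`, `D = det G₀ ≥ 1`, `G₁` from `mpos`, `E, d` from `simdiag`,
`G t = Eᵀ diag (exp (2 d t)) E`, `qf (G t) x = ∑ i, (exp (d i t) * (E i ⬝ᵥ x))²`, `det (G t) = D`,
`g t = ∫_K exp (-π qf (G t))`. For small `τ > 0`, `G (-τ)` is within `1 ± η` of `G₀` with `η = C₁ τ` (`|exp y - 1| ≤ 2|y|`), and it is `Stab`: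
for `1 ≤ j < r` by `det_mono` the determinant is at least `(1-η)^j (1+η₀) ≥ 1`; `j = r` by `det_gr_sq`; `j = 0` trivial; `j > r` impossible
(`card_le_of_hg`). Hence `√D g(-τ) ≥ FF (G (-τ)) - C τ² ≥ FF G₀ - C τ² ≥ √D g 0 - C τ²` (`envelope`, minimality, `vor_le_FF`).
`bthm` with `a i = exp (-d i τ) • E i`, `d' = (1+τ) d`, `s = τ/(1+τ)` gives `g(-τ)^(1-s) g(1)^s ≤ g 0`. Taking logarithms
(`g > 0`), `log g 1 ≤ log g 0 + C' τ`, let `τ → 0`. So `FF G₀ ≥ √D g 0 ≥ √D g 1 ≥ exp (-4 r)`.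
-/

set_option linter.unusedSectionVars false
set_option linter.unusedVariables false

namespace Vale.Agent.P160

open Finset Matrix MeasureTheory

theorem wint_lim {a b C τ₀ : ℝ} (ha : 0 < a) (hb : 0 < b) (h0 : 0 < τ₀)
    (h : ∀ τ, 0 < τ → τ ≤ τ₀ → ∃ u, a - C * τ ^ 2 ≤ u ∧
      u ^ (1 - τ / (1 + τ)) * b ^ (τ / (1 + τ)) ≤ a) : b ≤ a := by
  by_contra hab
  have hL : 0 < Real.log b - Real.log a := sub_pos.2 (Real.log_lt_log ha (not_le.1 hab))
  obtain ⟨K, hK, hCK⟩ : ∃ K : ℝ, 0 < K ∧ C ≤ K :=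
    ⟨|C| + 1, by positivity, by linarith [le_abs_self C]⟩
  obtain ⟨τ, t0, t1, t2, t3, t4⟩ : ∃ τ : ℝ, 0 < τ ∧ τ ≤ τ₀ ∧ τ ≤ 1 ∧ τ ≤ a / (2 * K) ∧
      τ ≤ (Real.log b - Real.log a) * a / (4 * K) :=
    ⟨min (min τ₀ 1) (min (a / (2 * K)) ((Real.log b - Real.log a) * a / (4 * K))),
      by positivity, (min_le_left _ _).trans (min_le_left _ _),
      (min_le_left _ _).trans (min_le_right _ _), (min_le_right _ _).trans (min_le_left _ _),
      (min_le_right _ _).trans (min_le_right _ _)⟩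
  rw [le_div_iff₀ (by positivity)] at t3 t4
  obtain ⟨u, u1, u2⟩ := h τ t0 t1
  have k1 : C * τ ^ 2 ≤ K * τ ^ 2 := mul_le_mul_of_nonneg_right hCK (sq_nonneg _)
  have k2 : K * τ ^ 2 ≤ K * τ := mul_le_mul_of_nonneg_left (by nlinarith) hK.le
  have u3 : a / 2 ≤ u := by nlinarith
  have hu : 0 < u := by linarith
  have u4 := Real.log_le_log (by positivity) u2
  rw [Real.log_mul (by positivity) (by positivity), Real.log_rpow hu, Real.log_rpow hb] at u4
  have u5 : Real.log u + τ * Real.log b ≤ (1 + τ) * Real.log a := by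
    have e : Real.log u + τ * Real.log b =
        (1 + τ) * ((1 - τ / (1 + τ)) * Real.log u + τ / (1 + τ) * Real.log b) := by
      field_simp
      ring
    rw [e]
    exact mul_le_mul_of_nonneg_left u4 (by linarith)
  have u6 : Real.log a - Real.log u ≤ a / u - 1 := by
    rw [← Real.log_div ha.ne' hu.ne']
    exact Real.log_le_sub_one_of_pos (by positivity)
  have u7 : a / u - 1 ≤ 2 * K * τ ^ 2 / a := by
    rw [div_sub_one hu.ne', div_le_div_iff₀ hu ha]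
    have k3 : 0 ≤ K * τ ^ 2 := by positivity
    nlinarith
  have u8 : τ * (Real.log b - Real.log a) * a ≤ 2 * K * τ ^ 2 := by
    rw [← le_div_iff₀ ha]
    linarith
  have k4 : 0 < K * τ ^ 2 := by positivity
  nlinarith

variable {r : ℕ}

theorem wint_qf (E : Matrix (Fin r) (Fin r) ℝ) (w x : Fin r → ℝ) :
    qf (Eᵀ * diagonal w * E) x = ∑ i, w i * (E i ⬝ᵥ x) ^ 2 := by
  rw [qf, ← mulVec_mulVec, ← mulVec_mulVec, dotProduct_mulVec, vecMul_transpose, dotProduct]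
  refine sum_congr rfl fun i _ => ?_
  rw [mulVec_diagonal]
  show E i ⬝ᵥ x * (w i * (E i ⬝ᵥ x)) = _
  ring

theorem wint_pos {E : Matrix (Fin r) (Fin r) ℝ} (hE : E.det ≠ 0) {w : Fin r → ℝ}
    (hw : ∀ i, 0 < w i) : (Eᵀ * diagonal w * E).PosDef := by
  refine posDef_iff.2 ⟨?_, fun x hx => ?_⟩
  · rw [transpose_mul, transpose_mul, transpose_transpose, diagonal_transpose, Matrix.mul_assoc]
  · rw [wint_qf]
    obtain ⟨i, hi⟩ : ∃ i, E i ⬝ᵥ x ≠ 0 := by
      by_contra hn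
      exact hx (eq_zero_of_mulVec_eq_zero hE (funext fun i => not_not.1 fun h => hn ⟨i, h⟩))
    exact sum_pos' (fun j _ => mul_nonneg (hw j).le (sq_nonneg _))
      ⟨i, mem_univ _, mul_pos (hw i) (sq_pos_of_ne_zero hi)⟩

theorem wint_stab {G₀ G' : Matrix (Fin r) (Fin r) ℝ} (hG : G₀.PosDef) (hS : Stab G₀) {η₀ η : ℝ}
    (hη : 0 < η₀) (hint : ∀ (j : ℕ) (Z : Matrix (Fin r) (Fin j) ℤ), 1 ≤ j → j < r →
      hg Z ≠ 0 → 1 + η₀ ≤ (gr G₀ Z).det) (hG' : G'.PosDef) (hd : G'.det = G₀.det) (h0 : 0 ≤ η)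
    (h1 : η ≤ 1) (h2 : r * η * (1 + η₀) ≤ η₀) (h : ∀ x, (1 - η) * qf G₀ x ≤ qf G' x) :
    Stab G' := by
  intro j Z hZ
  have hj : j ≤ r := by simpa using card_le_of_hg hZ
  rcases Nat.eq_zero_or_pos j with rfl | hj0
  · rw [det_isEmpty]
  rcases hj.eq_or_lt with rfl | hjr
  · rw [det_gr_sq, hd, ← det_gr_sq]
    exact hS _ Z hZ
  have a1 := det_mono ((gr_posSemidef hG.posSemidef Z).smul (sub_nonneg.2 h1))
    (gr_posSemidef hG'.posSemidef Z) fun x => by
      rw [qf_gr]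
      refine le_trans (le_of_eq ?_) (h _)
      rw [← qf_gr, qf, qf, smul_mulVec, dotProduct_smul, smul_eq_mul]
  rw [det_smul, Fintype.card_fin] at a1
  have a2 : 1 - r * η ≤ (1 - η) ^ j := by
    have := one_add_mul_le_pow (a := -η) (by linarith) j
    have h3 : (j : ℝ) * η ≤ r * η := mul_le_mul_of_nonneg_right (by exact_mod_cast hj) h0
    rw [← sub_eq_add_neg] at this
    linarith
  have a3 := mul_le_mul_of_nonneg_left (hint j Z hj0 hjr hZ) (pow_nonneg (sub_nonneg.2 h1) j)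
  have a4 := mul_le_mul_of_nonneg_right a2 (by linarith : 0 ≤ 1 + η₀)
  nlinarith

/-- the geodesic of forms -/
noncomputable def wint_G (E : Matrix (Fin r) (Fin r) ℝ) (d : Fin r → ℝ) (t : ℝ) :
    Matrix (Fin r) (Fin r) ℝ := Eᵀ * diagonal (fun i => Real.exp (2 * (d i * t))) * E

variable {E : Matrix (Fin r) (Fin r) ℝ} {d : Fin r → ℝ}

theorem wint_G_zero : wint_G E d 0 = Eᵀ * E := by
  simp [wint_G]

theorem wint_G_det (hd : ∑ i, d i = 0) (t : ℝ) : (wint_G E d t).det = (Eᵀ * E).det := by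
  rw [wint_G, det_mul, det_mul, det_mul, det_diagonal, ← Real.exp_sum, ← mul_sum, ← sum_mul, hd]
  simp

theorem wint_G_close {M τ : ℝ} (hM : ∀ i, |d i| ≤ M) (h0 : 0 ≤ τ) (h1 : 2 * M * τ ≤ 1)
    (x : Fin r → ℝ) : (1 - 4 * M * τ) * qf (wint_G E d 0) x ≤ qf (wint_G E d (-τ)) x ∧
      qf (wint_G E d (-τ)) x ≤ (1 + 4 * M * τ) * qf (wint_G E d 0) x := by
  have key : ∀ i, |Real.exp (2 * (d i * -τ)) - 1| ≤ 4 * M * τ := fun i => by
    have e : |2 * (d i * -τ)| ≤ 2 * M * τ := by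
      rw [abs_mul, abs_mul, abs_neg, abs_of_nonneg h0, abs_two, mul_assoc]
      exact mul_le_mul_of_nonneg_left (mul_le_mul_of_nonneg_right (hM i) h0) zero_le_two
    exact (Real.abs_exp_sub_one_le (e.trans h1)).trans (by linarith)
  simp only [wint_G, wint_qf, mul_zero, Real.exp_zero, one_mul, mul_sum]
  constructor
  · exact sum_le_sum fun i _ =>
      mul_le_mul_of_nonneg_right (by linarith [(abs_le.1 (key i)).1]) (sq_nonneg _)
  · exact sum_le_sum fun i _ =>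
      mul_le_mul_of_nonneg_right (by linarith [(abs_le.1 (key i)).2]) (sq_nonneg _)

theorem wint_shift (τ t : ℝ) (x : Fin r → ℝ) :
    ∑ i, (Real.exp ((1 + τ) * d i * t) * ((Real.exp (-(d i * τ)) • E i) ⬝ᵥ x)) ^ 2 =
      qf (wint_G E d ((1 + τ) * t - τ)) x := by
  rw [wint_G, wint_qf]
  refine sum_congr rfl fun i _ => ?_
  rw [smul_dotProduct, smul_eq_mul, ← mul_assoc, ← Real.exp_add, mul_pow, ← Real.exp_nat_mul]
  congr 2
  push_cast
  ring

theorem wint_b (hE : E.det ≠ 0) {m : ℕ} (b : Fin m → Fin r → ℝ) {g : ℝ → ℝ}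
    (hg' : g = fun t => ∫ x in {x : Fin r → ℝ | ∀ j, |b j ⬝ᵥ x| ≤ 1},
      Real.exp (-Real.pi * qf (wint_G E d t) x)) {τ : ℝ} (h0 : 0 < τ) :
    g (-τ) ^ (1 - τ / (1 + τ)) * g 1 ^ (τ / (1 + τ)) ≤ g 0 := by
  have h1 : 0 < 1 + τ := by linarith
  have key := bthm (fun i => Real.exp (-(d i * τ)) • E i) (fun i => (1 + τ) * d i) b
    (g := fun t => g ((1 + τ) * t - τ)) (s := τ / (1 + τ)) ?_ ?_ (by positivity)
    ((div_le_one h1).2 (by linarith))
  · rwa [mul_zero, zero_sub, mul_one, add_sub_cancel_right, mul_div_cancel₀ _ h1.ne',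
      sub_self] at key
  · obtain ⟨c, hc, _, _, h⟩ := exists_qf_bounds
      (wint_pos hE (w := fun i => Real.exp (2 * (d i * ((1 + τ) * 0 - τ)))) fun i => Real.exp_pos _)
    refine ⟨c, hc, fun x => ?_⟩
    have a := wint_shift (E := E) (d := d) τ 0 x
    simp only [mul_zero, Real.exp_zero, one_mul] at a
    rw [a, ← qf_one]
    simpa [wint_G] using (h x).1
  · funext t
    simp only [hg', wint_shift]

theorem interior_case {r : ℕ} (hr : 1 ≤ r) {G₀ : Matrix (Fin r) (Fin r) ℝ} (hG : G₀.PosDef)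
    (hS : Stab G₀)
    (hmin : ∀ G' : Matrix (Fin r) (Fin r) ℝ, G'.PosDef → Stab G' → G'.det = G₀.det → FF G₀ ≤ FF G')
    {η₀ : ℝ} (hη : 0 < η₀) (hint : ∀ (j : ℕ) (Z : Matrix (Fin r) (Fin j) ℤ), 1 ≤ j → j < r →
      hg Z ≠ 0 → 1 + η₀ ≤ (gr G₀ Z).det) : Real.exp (-4 * r) ≤ FF G₀ := by
  have hD := hS.one_le_det
  obtain ⟨G₁, p1, p2, p3⟩ := mpos hr (vor_body hG hS) (one_le_vol_vor hG hS) hD
  obtain ⟨E, d, hE, hd, e0, e1⟩ := simdiag hG p1 p2
  obtain ⟨m, b, hb⟩ := vor_poly hG hS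
  obtain ⟨C, hC⟩ := envelope hG hS
  obtain ⟨g, hg'⟩ : ∃ g : ℝ → ℝ, g = fun t => ∫ x in Vor G₀,
      Real.exp (-Real.pi * qf (wint_G E d t) x) := ⟨_, rfl⟩
  have z0 : wint_G E d 0 = G₀ := wint_G_zero.trans e0.symm
  have z1 : wint_G E d 1 = G₁ := by simp only [e1, wint_G, mul_one]
  have hP : ∀ t, (wint_G E d t).PosDef := fun t => wint_pos hE fun i => Real.exp_pos _
  have hdet : ∀ t, (wint_G E d t).det = G₀.det := fun t => by rw [wint_G_det hd, e0]
  have sD : 0 < √G₀.det := Real.sqrt_pos.2 (by linarith)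
  have gp : ∀ t, 0 < g t := fun t => by
    have : NeZero (volume.restrict (Vor G₀)) := ⟨fun h => by
      have := one_le_vol_vor hG hS
      rw [Measure.restrict_eq_zero] at h
      rw [measureReal_def, h] at this
      norm_num at this⟩
    rw [hg']
    exact integral_exp_pos (integrable_gauss (hP t)).integrableOn
  have f0 : √G₀.det * g 0 ≤ FF G₀ := by
    simp only [hg', z0]
    exact vor_le_FF hG hS
  have f1 : Real.exp (-4 * r) ≤ √G₀.det * g 1 := by
    simp only [hg', z1]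
    exact p3
  obtain ⟨M, hM0, hM⟩ : ∃ M : ℝ, 0 < M ∧ ∀ i, |d i| ≤ M :=
    ⟨∑ i, |d i| + 1, by positivity, fun i => by
      linarith [single_le_sum (f := fun i => |d i|) (fun j _ => abs_nonneg _) (mem_univ i)]⟩
  have hr' : (0 : ℝ) < r := by exact_mod_cast hr
  have key : g 1 ≤ g 0 := by
    refine wint_lim (C := C * (4 * M) ^ 2) (τ₀ := min (1 / (8 * M)) (η₀ / (r * (4 * M) * (1 + η₀))))
      (gp 0) (gp 1) (by positivity) fun τ t0 t1 => ⟨g (-τ), ?_, wint_b hE b (by rw [hg', hb]) t0⟩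
    have t2 := t1.trans (min_le_left _ _)
    have t3 := t1.trans (min_le_right _ _)
    rw [le_div_iff₀ (by positivity)] at t2 t3
    have c0 : 0 ≤ M * τ := by positivity
    have cl := wint_G_close (E := E) hM t0.le (by linarith)
    rw [z0] at cl
    have st := wint_stab hG hS hη hint (hP (-τ)) (hdet _) (η := 4 * M * τ) (by positivity)
      (by linarith) (by linarith) fun x => (cl x).1
    have q1 := hmin _ (hP (-τ)) st (hdet _)
    have q2 := hC (4 * M * τ) (by positivity) (by linarith) _ (hP (-τ)) cl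
    have q3 := f0.trans (q1.trans (le_of_eq (by rw [FF, hdet])))
    have q4 := (le_of_mul_le_mul_left q3 sD).trans q2
    have q5 : g (-τ) = ∫ x in Vor G₀, Real.exp (-Real.pi * qf (wint_G E d (-τ)) x) := by rw [hg']
    rw [← q5] at q4
    linarith
  exact f1.trans ((mul_le_mul_of_nonneg_left key sD.le).trans f0)

end Vale.Agent.P160
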