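import Vale.Agent.P160.W0
import Vale.Agent.P160.Schur

/-!
P160 task WInv. Keep the statements unchanged; add lemmas freely (start them with `winv_`).

`FF_uni`: `dl (gr G Z) x = dl G (rm Z x)` (the map `z ↦ Z z` is a bijection of integer vectors). First the case of a reindexing
`e : κ ≃ ι` (`MeasurableEquiv.piCongrLeft`, `volume_preserving_piCongrLeft` or `volume_measurePreserving_piCongrLeft`), then `κ = ι`:
change variables `x ↦ rm Z x` (determinant `±1`, measure preserving), the image of the cell both packs and covers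
(`packing`, `covering`). `FF_prod`: for `x = (x₁, x₂)` pick `z₂` attaining `dl (sch G) x₂`; by `qf_split`,
`dl G x ≤ dl G₁₁ (x₁ + s) + dl (sch G) x₂` with `s = G₁₁⁻¹ G₁₂ (x₂ - z₂)`; integrate in `x₁` with `integral_cell_add`, then in `x₂`
(`volume_measurePreserving_sumPiEquivProdPi`, `setIntegral_prod` or `integral_prod_symm`); `det_eq_sch`.
-/

set_option linter.unusedSectionVars false
set_option linter.unusedVariables false

namespace Vale.Agent.P160

open Finset Matrix MeasureTheory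

variable {ι κ : Type} [Fintype ι] [DecidableEq ι] [Fintype κ] [DecidableEq κ]

theorem winv_mp {Z : Matrix ι κ ℤ} (hZ : Uni Z) :
    MeasurePreserving (fun x : κ → ℝ => rm Z *ᵥ x) volume volume := by
  obtain ⟨e⟩ := Fintype.card_eq.1 (gram_card_eq hZ).symm
  obtain ⟨Q, h1, -⟩ := hZ
  have h2 : Z.submatrix id e * Q.submatrix e id = 1 := by
    rw [submatrix_mul_equiv, h1, submatrix_id_id]
  have h3 := congrArg det h2
  rw [det_mul, det_one] at h3
  have h4 : (rm (Z.submatrix id e)).det = ((Z.submatrix id e).det : ℝ) :=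
    ((Int.castRingHom ℝ).map_det _).symm
  have h5 : |(rm (Z.submatrix id e)).det| = 1 := by
    rw [h4]
    rcases Int.eq_one_or_neg_one_of_mul_eq_one h3 with h | h <;> rw [h] <;> norm_num
  have h6 : MeasurePreserving (toLin' (rm (Z.submatrix id e))) volume volume := by
    refine ⟨(LinearMap.continuous_of_finiteDimensional _).measurable, ?_⟩
    rw [Real.map_matrix_volume_pi_eq_smul_volume_pi (abs_pos.1 (by rw [h5]; exact one_pos)),
      abs_inv, h5, inv_one, ENNReal.ofReal_one, one_smul]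
  have h7 := h6.comp (volume_preserving_arrowCongr' e.symm (MeasurableEquiv.refl ℝ)
    (MeasurePreserving.id volume))
  have h8 : (fun x : κ → ℝ => rm Z *ᵥ x) = toLin' (rm (Z.submatrix id e)) ∘
      MeasurableEquiv.arrowCongr' e.symm (MeasurableEquiv.refl ℝ) := by
    funext x
    funext i
    exact (e.sum_comp fun j => rm Z i j * x j).symm
  rw [h8]
  exact h7

theorem winv_dl (G : Matrix ι ι ℝ) {Z : Matrix ι κ ℤ} (hZ : Uni Z) (x : κ → ℝ) :
    dl (gr G Z) x = dl G (rm Z *ᵥ x) := by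
  obtain ⟨Q, h1, -⟩ := hZ
  have h : Function.Surjective fun z : κ → ℤ => Z *ᵥ z := fun w =>
    ⟨Q *ᵥ w, by simp only [mulVec_mulVec, h1, one_mulVec]⟩
  rw [dl, dl, ← h.iInf_comp]
  simp only [qf_gr, mulVec_sub, iv_mulVec]

theorem winv_pack {x : ι → ℝ} {w : ι → ℤ} (h : x ∈ cell ι) (h' : x + iv w ∈ cell ι) : w = 0 := by
  funext i
  obtain ⟨h1, h2⟩ := h i (Set.mem_univ i)
  obtain ⟨h3, h4⟩ : 0 ≤ x i + w i ∧ x i + w i < 1 := h' i (Set.mem_univ i)
  have h5 : (-1 : ℤ) < w i := by exact_mod_cast (show ((-1 : ℤ) : ℝ) < w i by push_cast; linarith)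
  have h6 : w i < 1 := by exact_mod_cast (show (w i : ℝ) < ((1 : ℤ) : ℝ) by push_cast; linarith)
  show w i = 0
  omega

theorem winv_cov (x : ι → ℝ) : x + iv (fun i => -⌊x i⌋) ∈ cell ι := fun i _ => by
  have h : (x + iv fun i => -⌊x i⌋) i = Int.fract (x i) := by
    simp only [Pi.add_apply, iv, Int.cast_neg, Int.fract, sub_eq_add_neg]
  rw [h]
  exact ⟨Int.fract_nonneg _, Int.fract_lt_one _⟩

theorem winv_cont {G : Matrix ι ι ℝ} (hG : G.PosDef) :
    Continuous fun x => Real.exp (-Real.pi * dl G x) :=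
  (continuous_const.mul (continuous_dl hG)).rexp

theorem winv_le_one {G : Matrix ι ι ℝ} (hG : G.PosDef) (x : ι → ℝ) :
    Real.exp (-Real.pi * dl G x) ≤ 1 :=
  Real.exp_le_one_iff.2 (mul_nonpos_of_nonpos_of_nonneg (neg_nonpos.2 Real.pi_pos.le)
    (dl_nonneg hG x))

theorem FF_uni {G : Matrix ι ι ℝ} (hG : G.PosDef) {Z : Matrix ι κ ℤ} (hZ : Uni Z) :
    FF (gr G Z) = FF G := by
  have hd := winv_dl G hZ
  have hG' := gr_posDef hG hZ.hg_ne
  rw [FF, FF, det_gr_uni hZ]
  congr 1
  obtain ⟨Q, h1, h2⟩ := hZ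
  have hT := winv_mp (Z := Q) ⟨Z, h2, h1⟩
  have hr : rm (1 : Matrix ι ι ℤ) = 1 := Matrix.map_one _ Int.cast_zero Int.cast_one
  have hP : MeasurableSet ((fun y : ι → ℝ => rm Q *ᵥ y) ⁻¹' cell κ) :=
    hT.measurable measurableSet_cell
  have e1 : ∫ x in cell κ, Real.exp (-Real.pi * dl (gr G Z) x) =
      ∫ y in (fun y : ι → ℝ => rm Q *ᵥ y) ⁻¹' cell κ, Real.exp (-Real.pi * dl G y) := by
    rw [← (hT.restrict_preimage measurableSet_cell).map_eq,
      integral_map hT.measurable.aemeasurable (winv_cont hG').aestronglyMeasurable]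
    simp only [hd, mulVec_mulVec, ← rm_mul, h1, hr, one_mulVec]
  rw [e1]
  refine le_antisymm (packing (winv_cont hG).measurable (fun x => (Real.exp_pos _).le)
    (winv_le_one hG) (fun x z => by rw [dl_add]) hP fun y hy z hz => ?_)
    (covering (winv_cont hG).measurable (fun x => (Real.exp_pos _).le)
      (winv_le_one hG) (fun x z => by rw [dl_add]) hP ?_ fun y => ?_)
  · rw [Set.mem_preimage, mulVec_add, ← iv_mulVec] at hz
    rw [← one_mulVec z, ← h1, ← mulVec_mulVec, winv_pack hy hz, mulVec_zero]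
  · rw [hT.measure_preimage measurableSet_cell.nullMeasurableSet, volume_cell]
    exact ENNReal.one_ne_top
  · refine ⟨Z *ᵥ fun k => -⌊(rm Q *ᵥ y) k⌋, ?_⟩
    rw [Set.mem_preimage, mulVec_add, ← iv_mulVec, mulVec_mulVec, h2, one_mulVec]
    exact winv_cov _

theorem winv_split {G : Matrix (ι ⊕ κ) (ι ⊕ κ) ℝ} (hG : G.PosDef) (y : κ → ℝ) :
    ∃ s : ι → ℝ, ∀ x, dl G (Sum.elim x y) ≤ dl G.toBlocks₁₁ (x + s) + dl (sch G) y := by
  have h1 := toBlocks₁₁_posDef hG
  obtain ⟨z₂, h2⟩ := dl_attain (sch_posDef hG) y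
  refine ⟨(G.toBlocks₁₁⁻¹ * G.toBlocks₁₂) *ᵥ (y - iv z₂), fun x => ?_⟩
  obtain ⟨z₁, h3⟩ := dl_attain h1 (x + (G.toBlocks₁₁⁻¹ * G.toBlocks₁₂) *ᵥ (y - iv z₂))
  have h4 : Sum.elim x y - iv (Sum.elim z₁ z₂) = Sum.elim (x - iv z₁) (y - iv z₂) := by
    funext k
    cases k <;> rfl
  refine (dl_le hG _ (Sum.elim z₁ z₂)).trans_eq ?_
  rw [h4, qf_split hG.posSemidef h1, h2, h3, add_sub_right_comm]

theorem winv_inner {G : Matrix (ι ⊕ κ) (ι ⊕ κ) ℝ} (hG : G.PosDef) (y : κ → ℝ) :
    (∫ x in cell ι, Real.exp (-Real.pi * dl G.toBlocks₁₁ x)) * Real.exp (-Real.pi * dl (sch G) y) ≤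
      ∫ x in cell ι, Real.exp (-Real.pi * dl G (Sum.elim x y)) := by
  have h1 := toBlocks₁₁_posDef hG
  obtain ⟨s, hs⟩ := winv_split hG y
  have hc : Continuous fun x : ι → ℝ => (Sum.elim x y : ι ⊕ κ → ℝ) :=
    continuous_pi fun k => by cases k <;> simp only [Sum.elim_inl, Sum.elim_inr] <;> fun_prop
  rw [← integral_cell_add (winv_cont h1).measurable (fun x => (Real.exp_pos _).le)
    (winv_le_one h1) (fun x z => by rw [dl_add]) s, ← integral_mul_const]
  refine integral_mono_of_nonneg (Filter.Eventually.of_forall fun x => by positivity)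
    (Measure.integrableOn_of_bounded (M := 1) (by rw [volume_cell]; exact ENNReal.one_ne_top)
      ((winv_cont hG).comp hc).aestronglyMeasurable (Filter.Eventually.of_forall fun x => ?_))
    (Filter.Eventually.of_forall fun x => ?_)
  · rw [Real.norm_of_nonneg (Real.exp_pos _).le]
    exact winv_le_one hG _
  · refine (Real.exp_add _ _).symm.trans_le (Real.exp_le_exp.2 ?_)
    rw [← mul_add]
    exact mul_le_mul_of_nonpos_left (hs x) (neg_nonpos.2 Real.pi_pos.le)

theorem FF_prod {G : Matrix (ι ⊕ κ) (ι ⊕ κ) ℝ} (hG : G.PosDef) :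
    FF G.toBlocks₁₁ * FF (sch G) ≤ FF G := by
  have h1 := toBlocks₁₁_posDef hG
  have hT := volume_measurePreserving_sumPiEquivProdPi_symm fun _ : ι ⊕ κ => ℝ
  have hE := (MeasurableEquiv.sumPiEquivProdPi fun _ : ι ⊕ κ => ℝ).symm.measurableEmbedding
  have h2 : (MeasurableEquiv.sumPiEquivProdPi fun _ : ι ⊕ κ => ℝ).symm ⁻¹' cell (ι ⊕ κ) =
      cell ι ×ˢ cell κ := by
    ext p
    exact ⟨fun h => ⟨fun i _ => h (Sum.inl i) (Set.mem_univ _), fun k _ =>
      h (Sum.inr k) (Set.mem_univ _)⟩, fun h k _ => by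
        cases k with
        | inl i => exact h.1 i (Set.mem_univ _)
        | inr k => exact h.2 k (Set.mem_univ _)⟩
  have h3 : ∀ p : (ι → ℝ) × (κ → ℝ),
      (MeasurableEquiv.sumPiEquivProdPi fun _ : ι ⊕ κ => ℝ).symm p = Sum.elim p.1 p.2 := fun p => by
    funext k
    cases k <;> rfl
  have h4 := hT.setIntegral_preimage_emb hE (fun x => Real.exp (-Real.pi * dl G x)) (cell _)
  have h5 := (hT.integrableOn_comp_preimage hE).2
    (integrableOn_dl hG (P := cell _) (by rw [volume_cell]; exact ENNReal.one_ne_top))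
  rw [h2, IntegrableOn, Measure.volume_eq_prod, ← Measure.prod_restrict] at h5
  rw [h2, Measure.volume_eq_prod, ← Measure.prod_restrict] at h4
  simp only [Function.comp_def, h3] at h4 h5
  rw [integral_prod_symm _ h5] at h4
  rw [FF, FF, FF, det_eq_sch h1, Real.sqrt_mul h1.det_pos.le, mul_mul_mul_comm, ← h4,
    ← integral_const_mul]
  refine mul_le_mul_of_nonneg_left (integral_mono_of_nonneg
    (Filter.Eventually.of_forall fun y => mul_nonneg (integral_nonneg fun x => (Real.exp_pos _).le)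
      (Real.exp_pos _).le) h5.integral_prod_right
    (Filter.Eventually.of_forall (winv_inner hG))) (by positivity)

end Vale.Agent.P160
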