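import Vale.Agent.P160.Unfold
import Vale.Agent.P248.Final

/-!
P160 task WLap. Keep the statements unchanged; add lemmas freely (start them with `wlap_`).

Klartag's Laplace transform argument. `Z ξ = ∫_K exp (ξ·x)`, `N ξ = ∫_K exp (ξ·x) • x`, `b ξ = (Z ξ)⁻¹ • N ξ`.
Differentiate under the integral (`hasFDerivAt_integral_of_dominated_of_fderiv_le`, `K` compact), or coordinatewise:
the derivative of `b` at `ξ` is the covariance matrix `S ξ` (as `Matrix.toLin'`/continuous linear map). `S ξ` is positive definite: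
`qf (S ξ) v * Z = ∫_K (v·(x - b))² exp (ξ·x) > 0` as `K` has interior. `b` is injective: `s ↦ (ξ-η)·b (η + s(ξ-η))` has positive
derivative. `b ξ ∈ K` (`Convex.set_average_mem`/`Convex.integral_mem` for the tilted probability measure, or Hahn-Banach separation).
With `Ω = r • polar K` (closed), `lintegral_abs_det_fderiv_le_addHaar_image` gives `∫_Ω det S ≤ vol K =: v`.
If `det S > v²` on all of `Ω` then `v ≥ v² r^r vol (polar K) ≥ v r^r 4^r / r! > v` by `P248.mahler_ineq` and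
`Nat.factorial_le_pow`, contradiction (`polar K` has finite volume: it is bounded, see P248/Basic or Bodies).
-/

set_option linter.unusedSectionVars false
set_option linter.unusedVariables false

namespace Vale.Agent.P160

open Finset Matrix MeasureTheory

theorem wlap_int {r : ℕ} {K : Set (Fin r → ℝ)} (hK : IsCompact K) {E : Type*} [NormedAddCommGroup E]
    {g : (Fin r → ℝ) → E} (hg : Continuous g) : Integrable g (volume.restrict K) :=
  hg.continuousOn.integrableOn_compact hK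

/-- The coordinate functionals. -/
noncomputable def wlapP {r : ℕ} (i : Fin r) : (Fin r → ℝ) →L[ℝ] ℝ := ContinuousLinearMap.proj i

theorem wlap_dot {r : ℕ} (x ξ : Fin r → ℝ) :
    HasFDerivAt (fun η : Fin r → ℝ => η ⬝ᵥ x) (∑ i, x i • wlapP i) ξ := by
  have h : (fun η : Fin r → ℝ => η ⬝ᵥ x) = (∑ i, x i • wlapP i : (Fin r → ℝ) →L[ℝ] ℝ) := by
    funext η
    simp [wlapP, dotProduct, mul_comm]
  rw [h]
  exact ContinuousLinearMap.hasFDerivAt _

theorem wlap_deriv {r : ℕ} {K : Set (Fin r → ℝ)} (hK : IsCompact K) {g : (Fin r → ℝ) → ℝ}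
    (hg : Continuous g) (ξ : Fin r → ℝ) :
    HasFDerivAt (fun η : Fin r → ℝ => ∫ x in K, g x * Real.exp (η ⬝ᵥ x))
      (∑ i, (∫ x in K, g x * x i * Real.exp (ξ ⬝ᵥ x)) • wlapP i) ξ := by
  set F' : (Fin r → ℝ) → (Fin r → ℝ) → ((Fin r → ℝ) →L[ℝ] ℝ) :=
    fun η x => ∑ i, (g x * x i * Real.exp (η ⬝ᵥ x)) • wlapP i with hF'
  have hc : Continuous fun p : (Fin r → ℝ) × (Fin r → ℝ) => F' p.1 p.2 := by
    simp only [hF']
    fun_prop
  obtain ⟨C, hC⟩ := ((isCompact_closedBall ξ 1).prod hK).exists_bound_of_continuousOn hc.continuousOn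
  have hfin : IsFiniteMeasure (volume.restrict K) := isFiniteMeasure_restrict.2 hK.measure_lt_top.ne
  have h := hasFDerivAt_integral_of_dominated_of_fderiv_le (μ := volume.restrict K)
    (F := fun (η : Fin r → ℝ) (x : Fin r → ℝ) => g x * Real.exp (η ⬝ᵥ x)) (F' := F') (x₀ := ξ)
    (bound := fun _ => C) (Metric.closedBall_mem_nhds ξ one_pos)
    (Filter.Eventually.of_forall fun η =>
      (show Continuous fun x : Fin r → ℝ => g x * Real.exp (η ⬝ᵥ x) by fun_prop).aestronglyMeasurable)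
    (wlap_int hK (by fun_prop))
    (hc.comp (Continuous.prodMk_right ξ)).aestronglyMeasurable
    ((ae_restrict_iff' hK.measurableSet).2 (Filter.Eventually.of_forall fun x hx η hη =>
      hC (η, x) ⟨hη, hx⟩))
    (integrable_const C)
    (Filter.Eventually.of_forall fun x η _ => by
      have h1 := ((wlap_dot x η).exp).const_mul (g x)
      refine h1.congr_fderiv ?_
      ext v
      simp [hF', wlapP, Finset.mul_sum]
      exact Finset.sum_congr rfl fun i _ => by ring)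
  refine h.congr_fderiv ?_
  simp only [hF']
  rw [integral_finsetSum _ fun i _ => wlap_int hK (by fun_prop)]
  exact Finset.sum_congr rfl fun i _ => integral_smul_const _ _

theorem wlap_pos {r : ℕ} {K : Set (Fin r → ℝ)} (hK : IsCompact K) {f : (Fin r → ℝ) → ℝ}
    (hf : Continuous f) (h0 : ∀ x, 0 ≤ f x) {x : Fin r → ℝ} (hx : x ∈ interior K) (hfx : f x ≠ 0) :
    0 < ∫ x in K, f x := by
  rw [setIntegral_pos_iff_support_of_nonneg_ae (Filter.Eventually.of_forall h0) (wlap_int hK hf)]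
  have ho : IsOpen (Function.support f ∩ interior K) := hf.isOpen_support.inter isOpen_interior
  exact (ho.measure_pos volume ⟨x, hfx, hx⟩).trans_le
    (measure_mono (Set.inter_subset_inter_right _ interior_subset))

/-- Partition function. -/
noncomputable def wlapZ {r : ℕ} (K : Set (Fin r → ℝ)) (ξ : Fin r → ℝ) : ℝ :=
  ∫ x in K, Real.exp (ξ ⬝ᵥ x)

/-- First moments. -/
noncomputable def wlapN {r : ℕ} (K : Set (Fin r → ℝ)) (ξ : Fin r → ℝ) (i : Fin r) : ℝ :=
  ∫ x in K, x i * Real.exp (ξ ⬝ᵥ x)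

/-- Second moments. -/
noncomputable def wlapM {r : ℕ} (K : Set (Fin r → ℝ)) (ξ : Fin r → ℝ) (i j : Fin r) : ℝ :=
  ∫ x in K, x i * x j * Real.exp (ξ ⬝ᵥ x)

/-- Barycenter of the tilted measure. -/
noncomputable def wlapB {r : ℕ} (K : Set (Fin r → ℝ)) (ξ : Fin r → ℝ) : Fin r → ℝ :=
  fun i => wlapN K ξ i * (wlapZ K ξ)⁻¹

/-- Covariance of the tilted measure. -/
noncomputable def wlapS {r : ℕ} (K : Set (Fin r → ℝ)) (ξ : Fin r → ℝ) : Matrix (Fin r) (Fin r) ℝ :=
  Matrix.of fun i j => wlapM K ξ i j * (wlapZ K ξ)⁻¹ - wlapB K ξ i * wlapB K ξ j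

theorem wlap_Z_pos {r : ℕ} {K : Set (Fin r → ℝ)} (hK : P248.Body K) (ξ : Fin r → ℝ) :
    0 < wlapZ K ξ :=
  wlap_pos hK.compact (by fun_prop) (fun x => (Real.exp_pos _).le) hK.zero_mem_interior
    (Real.exp_pos _).ne'

theorem wlap_cov {r : ℕ} {K : Set (Fin r → ℝ)} (hK : P248.Body K) (ξ : Fin r → ℝ) (i j : Fin r) :
    ∫ x in K, (x i - wlapB K ξ i) * (x j - wlapB K ξ j) * Real.exp (ξ ⬝ᵥ x) =
      wlapS K ξ i j * wlapZ K ξ := by
  have hZ := wlap_Z_pos hK ξ
  have e : ∀ x : Fin r → ℝ, (x i - wlapB K ξ i) * (x j - wlapB K ξ j) * Real.exp (ξ ⬝ᵥ x) =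
      x i * x j * Real.exp (ξ ⬝ᵥ x) - wlapB K ξ j * (x i * Real.exp (ξ ⬝ᵥ x)) -
        wlapB K ξ i * (x j * Real.exp (ξ ⬝ᵥ x)) + wlapB K ξ i * wlapB K ξ j * Real.exp (ξ ⬝ᵥ x) :=
    fun x => by ring
  simp only [e]
  rw [integral_add (wlap_int hK.compact (by fun_prop)) (wlap_int hK.compact (by fun_prop)),
    integral_sub (wlap_int hK.compact (by fun_prop)) (wlap_int hK.compact (by fun_prop)),
    integral_sub (wlap_int hK.compact (by fun_prop)) (wlap_int hK.compact (by fun_prop)),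
    integral_const_mul, integral_const_mul, integral_const_mul]
  change wlapM K ξ i j - wlapB K ξ j * wlapN K ξ i - wlapB K ξ i * wlapN K ξ j +
    wlapB K ξ i * wlapB K ξ j * wlapZ K ξ = _
  simp only [wlapS, wlapB, Matrix.of_apply]
  field_simp
  ring

theorem wlap_qf {r : ℕ} {K : Set (Fin r → ℝ)} (hK : P248.Body K) (ξ v : Fin r → ℝ) (hv : v ≠ 0) :
    0 < v ⬝ᵥ (wlapS K ξ *ᵥ v) := by
  have hZ := wlap_Z_pos hK ξ
  have e : v ⬝ᵥ (wlapS K ξ *ᵥ v) * wlapZ K ξ =
      ∫ x in K, (v ⬝ᵥ (x - wlapB K ξ)) ^ 2 * Real.exp (ξ ⬝ᵥ x) := by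
    have e1 : ∀ x : Fin r → ℝ, (v ⬝ᵥ (x - wlapB K ξ)) ^ 2 * Real.exp (ξ ⬝ᵥ x) =
        ∑ i, ∑ j, v i * v j * ((x i - wlapB K ξ i) * (x j - wlapB K ξ j) * Real.exp (ξ ⬝ᵥ x)) := by
      intro x
      rw [sq, show v ⬝ᵥ (x - wlapB K ξ) = ∑ i, v i * (x i - wlapB K ξ i) from rfl,
        Finset.sum_mul_sum, Finset.sum_mul]
      refine Finset.sum_congr rfl fun i _ => ?_
      rw [Finset.sum_mul]
      exact Finset.sum_congr rfl fun j _ => by ring
    simp only [e1]
    rw [integral_finsetSum _ fun i _ => wlap_int hK.compact (by fun_prop)]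
    rw [show v ⬝ᵥ (wlapS K ξ *ᵥ v) = ∑ i, v i * ∑ j, wlapS K ξ i j * v j from rfl, Finset.sum_mul]
    refine Finset.sum_congr rfl fun i _ => ?_
    rw [integral_finsetSum _ fun j _ => wlap_int hK.compact (by fun_prop), Finset.mul_sum,
      Finset.sum_mul]
    refine Finset.sum_congr rfl fun j _ => ?_
    rw [integral_const_mul, wlap_cov hK]
    ring
  have hex : ∃ x ∈ interior K, v ⬝ᵥ (x - wlapB K ξ) ≠ 0 := by
    by_contra hn
    push Not at hn
    have h0 := hn 0 hK.zero_mem_interior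
    have hc : Continuous fun t : ℝ => t • v := by fun_prop
    have ht : ∀ᶠ t : ℝ in nhds 0, t • v ∈ interior K :=
      hc.continuousAt.eventually_mem (by
        simpa using isOpen_interior.mem_nhds hK.zero_mem_interior)
    obtain ⟨t, ht1, ht2⟩ := ((ht.filter_mono nhdsWithin_le_nhds).and
      (self_mem_nhdsWithin : {0}ᶜ ∈ nhdsWithin (0 : ℝ) {0}ᶜ)).exists
    have h1 := hn _ ht1
    rw [dotProduct_sub] at h0 h1
    rw [dotProduct_zero] at h0
    rw [dotProduct_smul, smul_eq_mul] at h1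
    have h2 : t * (v ⬝ᵥ v) = 0 := by linarith
    rcases mul_eq_zero.1 h2 with h | h
    · exact ht2 h
    · exact hv (dotProduct_self_eq_zero.1 h)
  obtain ⟨x, hx, hx2⟩ := hex
  have hp : 0 < ∫ x in K, (v ⬝ᵥ (x - wlapB K ξ)) ^ 2 * Real.exp (ξ ⬝ᵥ x) :=
    wlap_pos hK.compact (by fun_prop) (fun x => by positivity) hx
      (mul_ne_zero (pow_ne_zero 2 hx2) (Real.exp_pos _).ne')
  rw [← e] at hp
  exact (mul_pos_iff_of_pos_right hZ).1 hp

theorem wlap_posDef {r : ℕ} {K : Set (Fin r → ℝ)} (hK : P248.Body K) (ξ : Fin r → ℝ) :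
    (wlapS K ξ).PosDef := by
  refine Matrix.PosDef.of_dotProduct_mulVec_pos ?_ fun v hv => ?_
  · ext i j
    simp only [conjTranspose_apply, star_trivial, wlapS, Matrix.of_apply, wlapM]
    simp only [mul_comm (wlapB K ξ j), fun x : Fin r → ℝ => mul_comm (x j) (x i)]
  · simpa using wlap_qf hK ξ v hv

theorem wlap_B_deriv {r : ℕ} {K : Set (Fin r → ℝ)} (hK : P248.Body K) (ξ : Fin r → ℝ) :
    HasFDerivAt (wlapB K) (LinearMap.toContinuousLinearMap (Matrix.toLin' (wlapS K ξ))) ξ := by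
  have hZ := wlap_Z_pos hK ξ
  have h0 : HasFDerivAt (wlapZ K) (∑ i, wlapN K ξ i • wlapP i) ξ := by
    have := wlap_deriv hK.compact (g := fun _ => 1) continuous_const ξ
    simp only [one_mul] at this
    exact this
  have h1 : ∀ i, HasFDerivAt (fun η => wlapN K η i) (∑ j, wlapM K ξ i j • wlapP j) ξ := fun i =>
    wlap_deriv hK.compact (g := fun x => x i) (continuous_apply i) ξ
  have h2 := (hasDerivAt_inv hZ.ne').comp_hasFDerivAt ξ h0
  rw [hasFDerivAt_pi']
  intro i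
  refine ((h1 i).mul h2).congr_fderiv ?_
  ext v
  simp [wlapP, wlapS, wlapB, Matrix.mulVec, dotProduct, Finset.mul_sum]
  rw [← Finset.sum_neg_distrib, ← Finset.sum_add_distrib]
  refine Finset.sum_congr rfl fun j _ => ?_
  field_simp
  ring

theorem wlap_inj {r : ℕ} {K : Set (Fin r → ℝ)} (hK : P248.Body K) : Function.Injective (wlapB K) := by
  intro ξ η h
  by_contra hne
  have hv : ξ - η ≠ 0 := sub_ne_zero.2 hne
  have hd : ∀ s : ℝ, HasDerivAt (fun s : ℝ => wlapB K (η + s • (ξ - η)) ⬝ᵥ (ξ - η))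
      ((ξ - η) ⬝ᵥ (wlapS K (η + s • (ξ - η)) *ᵥ (ξ - η))) s := by
    intro s
    have h1 : HasDerivAt (fun s : ℝ => η + s • (ξ - η)) (ξ - η) s := by
      simpa using ((hasDerivAt_id s).smul_const (ξ - η)).const_add η
    have h2 := (wlap_B_deriv hK (η + s • (ξ - η))).comp_hasDerivAt s h1
    have h3 := (wlap_dot (ξ - η) (wlapB K (η + s • (ξ - η)))).comp_hasDerivAt s h2
    refine h3.congr_deriv ?_
    simp [wlapP, dotProduct]
  have hm := strictMono_of_hasDerivAt_pos hd fun s => wlap_qf hK _ _ hv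
  have := hm (zero_lt_one' ℝ)
  simp [h] at this

theorem wlap_mem {r : ℕ} {K : Set (Fin r → ℝ)} (hK : P248.Body K) (ξ : Fin r → ℝ) :
    wlapB K ξ ∈ K := by
  have hZ := wlap_Z_pos hK ξ
  rw [← hK.bipolar]
  intro y hy
  have e : wlapB (P248.polar (P248.polar K)) ξ = wlapB K ξ := by rw [hK.bipolar]
  rw [e]
  have h1 : ∑ i, wlapN K ξ i * y i = ∫ x in K, (y ⬝ᵥ x) * Real.exp (ξ ⬝ᵥ x) := by
    have e1 : ∀ x : Fin r → ℝ, (y ⬝ᵥ x) * Real.exp (ξ ⬝ᵥ x) =
        ∑ i, x i * Real.exp (ξ ⬝ᵥ x) * y i := by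
      intro x
      rw [show y ⬝ᵥ x = ∑ i, y i * x i from rfl, Finset.sum_mul]
      exact Finset.sum_congr rfl fun i _ => by ring
    simp only [e1]
    rw [integral_finsetSum _ fun i _ => wlap_int hK.compact (by fun_prop)]
    exact Finset.sum_congr rfl fun i _ => (integral_mul_const _ _).symm
  have h2 : ∫ x in K, (y ⬝ᵥ x) * Real.exp (ξ ⬝ᵥ x) ≤ wlapZ K ξ :=
    setIntegral_mono_on (wlap_int hK.compact (by fun_prop)) (wlap_int hK.compact (by fun_prop))
      hK.compact.measurableSet fun x hx =>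
        mul_le_of_le_one_left (Real.exp_pos _).le (hy x hx)
  have h3 : wlapB K ξ ⬝ᵥ y = (∑ i, wlapN K ξ i * y i) * (wlapZ K ξ)⁻¹ := by
    rw [Finset.sum_mul]
    exact Finset.sum_congr rfl fun i _ => by simp only [wlapB]; ring
  rw [h3, h1, ← div_eq_mul_inv, div_le_one hZ]
  exact h2

open scoped Pointwise in
theorem wlap_det {r : ℕ} (hr : 1 ≤ r) {K : Set (Fin r → ℝ)} (hK : P248.Body K) :
    ∃ ξ ∈ (r : ℝ) • P248.polar K, (wlapS K ξ).det ≤ volume.real K ^ 2 := by
  by_contra hn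
  push Not at hn
  have hP := hK.polar_body
  have hm : MeasurableSet ((r : ℝ) • P248.polar K) := (hP.compact.smul (r : ℝ)).measurableSet
  have h1 := lintegral_abs_det_fderiv_le_addHaar_image volume hm
    (fun ξ _ => (wlap_B_deriv hK ξ).hasFDerivWithinAt) (wlap_inj hK).injOn
  have h2 : volume (wlapB K '' ((r : ℝ) • P248.polar K)) ≤ volume K :=
    measure_mono (by rintro _ ⟨ξ, _, rfl⟩; exact wlap_mem hK ξ)
  have h3 : ENNReal.ofReal (volume.real K ^ 2) * volume ((r : ℝ) • P248.polar K) ≤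
      ∫⁻ ξ in (r : ℝ) • P248.polar K, ENNReal.ofReal
        |(LinearMap.toContinuousLinearMap (Matrix.toLin' (wlapS K ξ))).det| := by
    rw [← setLIntegral_const]
    refine setLIntegral_mono' hm fun ξ hξ => ENNReal.ofReal_le_ofReal ?_
    have : (LinearMap.toContinuousLinearMap (Matrix.toLin' (wlapS K ξ))).det = (wlapS K ξ).det := by
      simp [ContinuousLinearMap.det]
    rw [this]
    exact (hn ξ hξ).le.trans (le_abs_self _)
  have h4 := (h3.trans h1).trans h2
  rw [Measure.addHaar_smul, Module.finrank_fin_fun] at h4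
  have h5 := ENNReal.toReal_mono hK.compact.measure_lt_top.ne h4
  rw [ENNReal.toReal_mul, ENNReal.toReal_mul, ENNReal.toReal_ofReal (by positivity),
    ENNReal.toReal_ofReal (abs_nonneg _), abs_of_nonneg (by positivity)] at h5
  change volume.real K ^ 2 * ((r : ℝ) ^ r * volume.real (P248.polar K)) ≤ volume.real K at h5
  have h6 := P248.mahler_ineq hr hK
  unfold P248.vp at h6
  have hv := hK.volume_pos
  have hf : (0 : ℝ) < r.factorial := by exact_mod_cast r.factorial_pos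
  have h7 : (r.factorial : ℝ) ≤ (r : ℝ) ^ r := by exact_mod_cast Nat.factorial_le_pow r
  rw [div_le_iff₀ hf] at h6
  have h8 : (1 : ℝ) < 4 ^ r := one_lt_pow₀ (by norm_num) (by omega)
  have hw := hP.volume_pos
  have h9 : volume.real K * volume.real (P248.polar K) * (r : ℝ) ^ r ≤ 1 := by
    have : volume.real K * (volume.real K * volume.real (P248.polar K) * (r : ℝ) ^ r) ≤
        volume.real K * 1 := by nlinarith
    exact le_of_mul_le_mul_left this hv
  have h10 : volume.real K * volume.real (P248.polar K) * r.factorial ≤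
      volume.real K * volume.real (P248.polar K) * (r : ℝ) ^ r :=
    mul_le_mul_of_nonneg_left h7 (by positivity)
  linarith

theorem klartag {r : ℕ} (hr : 1 ≤ r) {K : Set (Fin r → ℝ)} (hK : P248.Body K) :
    ∃ (ξ b : Fin r → ℝ) (S : Matrix (Fin r) (Fin r) ℝ), (∀ x ∈ K, ξ ⬝ᵥ x ≤ r) ∧ b ∈ K ∧ S.PosDef ∧
      S.det ≤ volume.real K ^ 2 ∧ ∀ i j, ∫ x in K, (x i - b i) * (x j - b j) * Real.exp (ξ ⬝ᵥ x) =
        S i j * ∫ x in K, Real.exp (ξ ⬝ᵥ x) := by
  obtain ⟨ξ, ⟨y, hy, rfl⟩, hd⟩ := wlap_det hr hK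
  refine ⟨_, wlapB K _, wlapS K _, fun x hx => ?_, wlap_mem hK _, wlap_posDef hK _, hd,
    fun i j => wlap_cov hK _ i j⟩
  have := hy x hx
  simp only [smul_dotProduct, smul_eq_mul]
  exact mul_le_of_le_one_right (Nat.cast_nonneg r) this

end Vale.Agent.P160
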