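import Vale.Agent.P160.WHerm
import Vale.Agent.P160.WInv

/-!
P160 task WMin. Keep the statements unchanged; add lemmas freely (start them with `wmin_`).

Existence of a minimiser. Let `D = det G`, `R` from `hermite r 1 D`. The set `K` of positive semidefinite `H` with `det H = D`,
`Stab H` and `|H i j| ≤ R` is compact (closed and bounded in `Fin r → Fin r → ℝ`; `Stab` is an intersection of closed conditions;
`|H i j| ≤ R` follows from the diagonal bound by testing `e_i ± e_j`), its members are positive definite (`D ≥ 1`),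
and `FF` is continuous on it (`FF_close`: entries close to those of a fixed positive definite `H` give the two-sided comparison,
`exists_qf_bounds`). Every competitor `G'` has the representative `gr G' Z` in `K` with the same `FF` (`FF_uni`, `Stab.gr`, `det_gr_uni`).
-/

set_option linter.unusedSectionVars false
set_option linter.unusedVariables false

namespace Vale.Agent.P160

open Finset Matrix MeasureTheory

section
variable {ι : Type} [Fintype ι] [DecidableEq ι]

theorem wmin_abs (A : Matrix ι ι ℝ) (x : ι → ℝ) : |qf A x| ≤ (∑ i, ∑ j, |A i j|) * qf 1 x := by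
  have h : ∀ i, x i ^ 2 ≤ qf 1 x := fun i => by
    rw [qf_one]; exact single_le_sum (f := fun i => x i ^ 2) (fun j _ => sq_nonneg _) (mem_univ i)
  generalize qf 1 x = q at *
  simp only [qf, dotProduct, mulVec, Finset.mul_sum, Finset.sum_mul]
  refine (abs_sum_le_sum_abs _ _).trans (sum_le_sum fun i _ =>
    (abs_sum_le_sum_abs _ _).trans (sum_le_sum fun j _ => ?_))
  rw [mul_left_comm, abs_mul]
  refine mul_le_mul_of_nonneg_left (abs_le.2 ⟨?_, ?_⟩) (abs_nonneg _) <;>
    nlinarith [h i, h j, sq_nonneg (x i + x j), sq_nonneg (x i - x j)]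

theorem wmin_sub (A B : Matrix ι ι ℝ) (x : ι → ℝ) : qf (A - B) x = qf A x - qf B x := by
  simp only [qf, sub_mulVec, dotProduct_sub]

theorem wmin_entry {H : Matrix ι ι ℝ} (hH : H.PosSemidef) {R : ℝ} (h : ∀ i, H i i ≤ R) (i j : ι) :
    H i j ∈ Set.Icc (-R) R := by
  have h0 : ∀ i, 0 ≤ H i i := fun i => hH.diag_nonneg
  have h1 := gram_cs hH (Pi.single i 1) (Pi.single j 1)
  rw [gram_qf_single, gram_qf_single] at h1
  simp only [mulVec_single_one, single_one_dotProduct, col_apply] at h1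
  exact abs_le.1 (abs_le_of_sq_le_sq' (h1.trans (by
    rw [sq]; exact mul_le_mul (h i) (h j) (h0 j) ((h0 i).trans (h i)))) ((h0 i).trans (h i)) |>
      abs_le.2)

theorem wmin_cont {K : Set (Matrix ι ι ℝ)} {D : ℝ} (hK : ∀ H ∈ K, H.PosDef ∧ H.det = D) :
    ContinuousOn FF K := fun H hH => by
  obtain ⟨c, hc, C, -, hb⟩ := exists_qf_bounds (hK H hH).1
  have h1 : Filter.Tendsto (fun H' : Matrix ι ι ℝ => (∑ i, ∑ j, |(H' - H) i j|) / c)
      (nhdsWithin H K) (nhds 0) := by
    have h : Continuous fun H' : Matrix ι ι ℝ => (∑ i, ∑ j, |(H' - H) i j|) / c := by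
      simp only [Matrix.sub_apply]
      fun_prop
    simpa using (h.tendsto H).mono_left nhdsWithin_le_nhds
  refine tendsto_iff_norm_sub_tendsto_zero.2 (squeeze_zero' (.of_forall fun _ => norm_nonneg _) ?_
    (by simpa using h1.const_mul √H.det))
  filter_upwards [self_mem_nhdsWithin, h1.eventually (ge_mem_nhds one_half_pos)]
    with H' hH' h2
  have h0 : 0 ≤ (∑ i, ∑ j, |(H' - H) i j|) / c := by positivity
  refine FF_close (hK H hH).1 (hK H' hH').1 ((hK H' hH').2.trans (hK H hH).2.symm) h0 h2 fun x => ?_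
  have h3 := wmin_abs (H' - H) x
  have h4 := mul_le_mul_of_nonneg_left (hb x).1 h0
  rw [← mul_assoc, div_mul_cancel₀ _ hc.ne'] at h4
  rw [wmin_sub, abs_le] at h3
  simp only [Matrix.sub_apply] at h3 h4
  constructor <;> linarith [h3.1, h3.2]

theorem wmin_closed (D : ℝ) :
    IsClosed {H : Matrix ι ι ℝ | H.PosSemidef ∧ H.det = D ∧ Stab H} := by
  simp only [posSemidef_iff, Stab, Set.ofPred_and, Set.ofPred_forall]
  refine ((isClosed_eq (by fun_prop) continuous_id).inter (isClosed_iInter fun x =>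
    isClosed_le continuous_const (by unfold qf; fun_prop))).inter
    ((isClosed_eq (by fun_prop) continuous_const).inter (isClosed_iInter fun j =>
      isClosed_iInter fun Z => isClosed_iInter fun _ =>
        isClosed_le continuous_const (by unfold gr; fun_prop)))

end

theorem exists_min {r : ℕ} {G : Matrix (Fin r) (Fin r) ℝ} (hG : G.PosDef) (hS : Stab G) :
    ∃ G₀ : Matrix (Fin r) (Fin r) ℝ, G₀.PosDef ∧ Stab G₀ ∧ G₀.det = G.det ∧
      ∀ G' : Matrix (Fin r) (Fin r) ℝ, G'.PosDef → Stab G' → G'.det = G.det → FF G₀ ≤ FF G' := by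
  obtain ⟨R, hR⟩ := hermite r one_pos G.det
  obtain ⟨K, hK⟩ : ∃ K : Set (Matrix (Fin r) (Fin r) ℝ), K =
      {H | H.PosSemidef ∧ H.det = G.det ∧ Stab H} ∩
        Set.pi Set.univ fun _ => Set.pi Set.univ fun _ => Set.Icc (-R) R := ⟨_, rfl⟩
  have hc : IsCompact K := hK ▸ IsCompact.inter_left
    (isCompact_univ_pi fun _ => isCompact_univ_pi fun _ => isCompact_Icc) (wmin_closed _)
  have hp : ∀ H ∈ K, H.PosDef ∧ H.det = G.det := fun H hH => by
    rw [hK] at hH
    exact ⟨hH.1.1.posDef_iff_det_ne_zero.2 (hH.1.2.1 ▸ hG.det_pos.ne'), hH.1.2.1⟩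
  have hrep : ∀ G' : Matrix (Fin r) (Fin r) ℝ, G'.PosDef → Stab G' → G'.det = G.det →
      ∃ H ∈ K, FF H = FF G' := fun G' h1 h2 h3 => by
    obtain ⟨Z, hZ, h⟩ := hR G' h1 (fun z hz => h2.one_le_qf hz) h3.le
    have h4 := gr_posSemidef h1.posSemidef Z
    exact ⟨gr G' Z, hK ▸ ⟨⟨h4, (det_gr_uni hZ).trans h3, h2.gr hZ.hg_ne⟩,
      fun i _ j _ => wmin_entry h4 h i j⟩, FF_uni h1 hZ⟩
  obtain ⟨H, hH, -⟩ := hrep G hG hS rfl
  obtain ⟨G₀, h0, hm⟩ := hc.exists_isMinOn ⟨H, hH⟩ (wmin_cont hp)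
  refine ⟨G₀, (hp _ h0).1, (hK ▸ h0 :).1.2.2, (hp _ h0).2, fun G' h1 h2 h3 => ?_⟩
  obtain ⟨H', hH', e⟩ := hrep G' h1 h2 h3
  exact e ▸ hm hH'

end Vale.Agent.P160
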