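import Vale.Agent.P160.WInt
import Vale.Agent.P160.WMin

/-!
P160 task WMain. Keep the statements unchanged; add lemmas freely (start them with `wmain_`).

Weak reverse Minkowski. `FF_ge_fin`: strong induction on `r`. `r = 0`: `dl = 0`, `FF = 1`. Else take `G₀` from `exists_min`; if the
hypothesis of `interior_case` holds for some `η₀` done. Otherwise for every `η > 0` there is a proper `Z` with
`det (gr G₀ Z) < 1 + η`; `saturate` gives unimodular `[P Y]`, `H = gr G₀ [P Y]`, `H₁₁ = gr G₀ P` is `Stab`, and `(1+η) • sch H` is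
`Stab` (`det_gr_ext`, `hg_ext_ne`, `gr_smul`, `Matrix.det_smul`). So
`FF G₀ = FF H ≥ FF H₁₁ * FF (sch H) ≥ exp (-4a) (1+η)^(-b) exp (-4b)` (`FF_uni`, `FF_prod`, `FF_smul_le`), `a + b = r`; let `η → 0`.
General index types: `gr G Z` with the permutation-like matrix of `Fintype.equivFin`. `wrm`: `count_le`.
`hn`: the numbers `det (gr G Z) / τ^j` over all `j, Z` with `hg Z ≠ 0` are at least `τ^(-card ι) > 0` (`card_le_of_hg`); choose one below
`4` times the infimum (the infimum is at most `1`, take `j = 0`), `saturate` it; for `Z₁` compare `[P, Y Z₁]` (reindexed to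
`Fin (a + j)`) with the infimum, `det_gr_ext`.
-/

set_option linter.unusedSectionVars false
set_option linter.unusedVariables false

namespace Vale.Agent.P160

open Finset Matrix MeasureTheory

variable {ι κ : Type} [Fintype ι] [DecidableEq ι] [Fintype κ] [DecidableEq κ]

theorem wmain_stab {G : Matrix ι ι ℝ} (hG : G.PosDef) {a b : ℕ} {P : Matrix ι (Fin a) ℤ}
    {Y : Matrix ι (Fin b) ℤ} (hU : Uni (fromCols P Y)) (hP : hg P ≠ 0) {k τ : ℝ} (hk : 1 ≤ k)
    (hτ : 0 < τ) (h : ∀ (j : ℕ) (W : Matrix ι (Fin a ⊕ Fin j) ℤ), hg W ≠ 0 →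
      (gr G P).det * τ ^ j ≤ k * (gr G W).det) : Stab ((k / τ) • sch (gr G (fromCols P Y))) := by
  intro j Z hZ
  rcases j with _ | j
  · exact det_isEmpty.ge
  have h1 := h _ _ (hg_ext_ne hU.hg_ne hZ)
  have h2 := (gr_posDef (sch_posDef (gr_posDef hG hU.hg_ne)) hZ).det_pos
  rw [det_gr_ext hG hP, mul_left_comm] at h1
  rw [gr_smul, det_smul, Fintype.card_fin, div_pow, div_mul_eq_mul_div, one_le_div (pow_pos hτ _)]
  exact (le_of_mul_le_mul_left h1 (gr_posDef hG hP).det_pos).trans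
    (mul_le_mul_of_nonneg_right (le_self_pow₀ hk j.succ_ne_zero) h2.le)

theorem FF_ge_fin (r : ℕ) : ∀ G : Matrix (Fin r) (Fin r) ℝ, G.PosDef → Stab G →
    Real.exp (-4 * r) ≤ FF G := by
  induction r using Nat.strong_induction_on with
  | _ r ih =>
    intro G hG hS
    rcases Nat.eq_zero_or_pos r with rfl | hr
    · have h1 : ∀ x, dl G x = 0 := fun x => by
        obtain ⟨z, hz⟩ := dl_attain hG x
        rw [hz, qf, dotProduct, Finset.univ_eq_empty, Finset.sum_empty]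
      simp [FF, h1, Measure.real, volume_cell]
    obtain ⟨G₀, h0, hS0, hd, hm⟩ := exists_min hG hS
    refine le_trans ?_ (hm G hG hS rfl)
    by_cases h : ∃ η₀ : ℝ, 0 < η₀ ∧ ∀ (j : ℕ) (Z : Matrix (Fin r) (Fin j) ℤ), 1 ≤ j → j < r →
        hg Z ≠ 0 → 1 + η₀ ≤ (gr G₀ Z).det
    · obtain ⟨η₀, hη, h⟩ := h
      exact interior_case hr h0 hS0 (fun G' h1 h2 h3 => hm G' h1 h2 (h3.trans hd)) hη h
    have key : ∀ η : ℝ, 0 < η → Real.exp (-4 * r) ≤ (1 + η) ^ r * FF G₀ := by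
      intro η hη
      push Not at h
      obtain ⟨j, Z, h1, h2, hZ, h3⟩ := h η hη
      obtain ⟨a, b, P, Y, hU, ha, hP, h4⟩ := saturate h0 hZ
      have hab := hU.card_eq
      simp only [Fintype.card_sum, Fintype.card_fin] at ha hab
      have hk : 1 ≤ 1 + η := le_add_of_nonneg_right hη.le
      have hH := gr_posDef h0 hU.hg_ne
      have h5 := wmain_stab h0 hU hP hk one_pos fun j W hW => by
        rw [one_pow, mul_one]
        exact (h4.trans h3.le).trans (le_mul_of_one_le_right (by positivity) (hS0.any hW))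
      rw [div_one] at h5
      have h6 := ih a (by omega) _ (gr_posDef h0 hP) (hS0.gr hP)
      have h7 := (ih b (by omega) _ ((sch_posDef hH).smul (by positivity : 0 < 1 + η)) h5).trans
        (FF_smul_le (sch_posDef hH) hk)
      have h8 := FF_prod hH
      rw [gr_cols₁₁, FF_uni h0 hU] at h8
      rw [Fintype.card_fin] at h7
      calc Real.exp (-4 * r) = Real.exp (-4 * a) * Real.exp (-4 * b) := by
            rw [← Real.exp_add, ← hab, Nat.cast_add, mul_add]
        _ ≤ FF (gr G₀ P) * ((1 + η) ^ b * FF (sch (gr G₀ (fromCols P Y)))) :=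
            mul_le_mul h6 h7 (Real.exp_pos _).le (FF_nonneg _)
        _ ≤ (1 + η) ^ r * FF G₀ := by
            rw [mul_left_comm]
            exact mul_le_mul (pow_le_pow_right₀ hk (by omega)) h8
              (mul_nonneg (FF_nonneg _) (FF_nonneg _)) (by positivity)
    have hc : Continuous fun η : ℝ => (1 + η) ^ r * FF G₀ := by fun_prop
    have h9 := ge_of_tendsto ((hc.tendsto 0).mono_left (nhdsWithin_le_nhds (s := Set.Ioi 0)))
      (eventually_nhdsWithin_of_forall key)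
    rwa [add_zero, one_pow, one_mul] at h9

theorem FF_ge {G : Matrix ι ι ℝ} (hG : G.PosDef) (hS : Stab G) :
    Real.exp (-4 * Fintype.card ι) ≤ FF G := by
  have hU : Uni ((1 : Matrix ι ι ℤ).submatrix id (Fintype.equivFin ι).symm) :=
    ⟨(1 : Matrix ι ι ℤ).submatrix (Fintype.equivFin ι).symm id,
      by rw [submatrix_mul_equiv, mul_one, submatrix_id_id],
      (submatrix_mul_equiv 1 1 _ (Equiv.refl ι) _).trans (by rw [mul_one, submatrix_one_equiv])⟩
  rw [← FF_uni hG hU]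
  exact FF_ge_fin _ _ (gr_posDef hG hU.hg_ne) (hS.gr hU.hg_ne)

theorem wrm {G : Matrix ι ι ℝ} (hG : G.PosDef) (hS : Stab G) (Y : Finset (ι → ℤ)) {r : ℝ}
    (hY : ∀ z ∈ Y, qf G (iv z) ≤ r) :
    (Y.card : ℝ) ≤ Real.exp (4 * Fintype.card ι + Real.pi * r) := by
  have h := (mul_le_mul_of_nonneg_left (FF_ge hG hS) (Nat.cast_nonneg _)).trans (count_le hG Y hY)
  rwa [← le_div_iff₀ (Real.exp_pos _), ← Real.exp_sub, neg_mul, sub_neg_eq_add, add_comm] at h

theorem hn {G : Matrix ι ι ℝ} (hG : G.PosDef) (hS : Stab G) {τ : ℝ} (hτ : 1 ≤ τ) :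
    ∃ (a b : ℕ) (P : Matrix ι (Fin a) ℤ) (Y : Matrix ι (Fin b) ℤ), Uni (fromCols P Y) ∧ hg P ≠ 0 ∧
      (gr G P).det ≤ 4 * τ ^ a ∧ Stab ((4 / τ) • sch (gr G (fromCols P Y))) := by
  have h0 : 0 < τ := one_pos.trans_le hτ
  let S : Set ℝ := {x | ∃ (j : ℕ) (Z : Matrix ι (Fin j) ℤ), hg Z ≠ 0 ∧ (gr G Z).det / τ ^ j = x}
  have h1 : (1 : ℝ) ∈ S := ⟨0, 0, by simp [hg], by simp⟩
  have h2 : ∀ x ∈ S, 1 / τ ^ Fintype.card ι ≤ x := by
    rintro _ ⟨j, Z, hZ, rfl⟩
    have h3 := card_le_of_hg hZ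
    rw [Fintype.card_fin] at h3
    exact div_le_div₀ (zero_le_one.trans (hS j Z hZ)) (hS j Z hZ) (pow_pos h0 _)
      (pow_le_pow_right₀ hτ h3)
  have h3 : 0 < sInf S := lt_of_lt_of_le (by positivity) (le_csInf ⟨1, h1⟩ h2)
  obtain ⟨_, ⟨j, Z, hZ, rfl⟩, h4⟩ := exists_lt_of_csInf_lt ⟨1, h1⟩ (show sInf S < 4 * sInf S by linarith)
  obtain ⟨a, b, P, Y, hU, ha, hP, h5⟩ := saturate hG hZ
  rw [Fintype.card_fin] at ha
  subst ha
  have h6 := h5.trans ((div_lt_iff₀ (pow_pos h0 _)).1 h4).le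
  refine ⟨a, b, P, Y, hU, hP, h6.trans (mul_le_mul_of_nonneg_right ?_ (pow_pos h0 _).le),
    wmain_stab hG hU hP (by norm_num) h0 fun j W hW => ?_⟩
  · linarith [csInf_le ⟨_, h2⟩ h1]
  · have h7 := csInf_le ⟨_, h2⟩ (show _ ∈ S from ⟨a + j, W.submatrix id finSumFinEquiv.symm,
      by rwa [hg_reindex], rfl⟩)
    rw [det_gr_reindex, le_div_iff₀ (pow_pos h0 _), pow_add] at h7
    linarith [mul_le_mul_of_nonneg_right h6 (pow_pos h0 j).le]

end Vale.Agent.P160
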