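import Vale.Agent.P160.W0
import Vale.Agent.P248.Basic

/-!
P160 task WVor. Keep the statements unchanged; add lemmas freely (start them with `wvor_`).

The Voronoi cell `V`. `x ∈ V` iff `2 x·G z ≤ qf G z` for all integer `z`; on `V`, `dl G x = qf G x`; `V` is bounded since `dl G` is
bounded (periodic: round `x`), say `qf G x ≤ R²` on `V`; it contains a neighbourhood of `0` because `qf G z ≥ 1` for `z ≠ 0`
(Cauchy-Schwarz for the form). It covers (`dl_attain`), so `1 ≤ vol V` by `covering` with `f = 1`.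
`vor_poly`: take the finite set of `z ≠ 0` with `√qf G z ≤ 2(R+1)` and `b_z = 2 G z / qf G z`. If `x` satisfies these and
`√qf G x ≤ R+1` then `x ∈ V` (Cauchy-Schwarz for the other `z`); if `√qf G x > R+1` scale `x` down to norm `R+1`, contradiction.
`vor_le_FF`: for `λ < 1` the set `λ V` packs (`qf (x - z) - qf x ≥ (1-λ) qf z > 0` on `λ V`); `vol (V \ λ V) = (1 - λ^r) vol V`
(`Measure.addHaar_smul`); let `λ → 1`. `envelope`: put `1 - λ = 4 η R²` (if this is `≥ 1` use `λ = 0`); on `λ V`, `dl G' x = qf G' x`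
because `(1-η)(qf x + (1-λ) qf z) ≥ (1+η) qf x`; on `V \ λ V`,
`exp (-π dl G' x) - exp (-π qf G' x) ≤ exp (-π (1-η) qf G x) - exp (-π (1+η) qf G x) ≤ 2 π η R²`; use `covering` first.
-/

set_option linter.unusedSectionVars false
set_option linter.unusedVariables false

namespace Vale.Agent.P160

open Finset Matrix MeasureTheory
open scoped Pointwise

section aux
variable {r : ℕ} {G : Matrix (Fin r) (Fin r) ℝ}

theorem wvor_sub (hG : G.PosDef) (x y : Fin r → ℝ) :
    qf G (x - y) = qf G x - 2 * ((G *ᵥ y) ⬝ᵥ x) + qf G y := by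
  have h : x ⬝ᵥ G *ᵥ y = y ⬝ᵥ G *ᵥ x := by
    rw [dotProduct_mulVec, ← mulVec_transpose, (posDef_iff.1 hG).1, dotProduct_comm]
  simp only [qf, mulVec_sub, dotProduct_sub, sub_dotProduct]
  rw [dotProduct_comm (G *ᵥ y) x, h]
  ring

theorem wvor_smul (t : ℝ) (x : Fin r → ℝ) : qf G (t • x) = t ^ 2 * qf G x := by
  simp only [qf, mulVec_smul, dotProduct_smul, smul_dotProduct, smul_eq_mul]
  ring

theorem wvor_nonneg (hG : G.PosDef) (x : Fin r → ℝ) : 0 ≤ qf G x :=
  (posSemidef_iff.1 hG.posSemidef).2 x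

theorem wvor_zero : iv (0 : Fin r → ℤ) = 0 := by funext i; simp [iv]

theorem wvor_neg (z : Fin r → ℤ) : iv (-z) = -iv z := by funext i; simp [iv]

theorem wvor_add (z w : Fin r → ℤ) : iv (z + w) = iv z + iv w := by funext i; simp [iv]

theorem wvor_mem (hG : G.PosDef) {x : Fin r → ℝ} :
    x ∈ Vor G ↔ ∀ z : Fin r → ℤ, 2 * ((G *ᵥ iv z) ⬝ᵥ x) ≤ qf G (iv z) :=
  forall_congr' fun z => by
    rw [wvor_sub hG]
    constructor <;> intro h <;> linarith

theorem wvor_far (hG : G.PosDef) {x y : Fin r → ℝ} (h : 4 * qf G x ≤ qf G y) :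
    2 * ((G *ᵥ y) ⬝ᵥ x) ≤ qf G y := by
  have h1 := wvor_nonneg hG ((2 : ℝ) • x - y)
  rw [wvor_sub hG, wvor_smul, dotProduct_smul, smul_eq_mul] at h1
  linarith

theorem wvor_z0 (x : Fin r → ℝ) : 2 * ((G *ᵥ iv 0) ⬝ᵥ x) ≤ qf G (iv 0) := by
  simp [wvor_zero, qf]

theorem wvor_ball (hG : G.PosDef) (B : ℝ) : ∃ R : ℝ, ∀ x, qf G x ≤ B → ∀ i, |x i| ≤ R := by
  obtain ⟨c, hc, C, -, h⟩ := exists_qf_bounds hG
  refine ⟨1 + B / c, fun x hx i => ?_⟩
  have h1 : x i ^ 2 ≤ qf 1 x := by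
    rw [qf_one]
    exact single_le_sum (f := fun i => x i ^ 2) (fun _ _ => sq_nonneg _) (mem_univ i)
  have h2 : qf 1 x ≤ B / c := by
    rw [le_div_iff₀ hc]
    linarith [(h x).1]
  nlinarith [sq_abs (x i), sq_nonneg (|x i| - 1)]

theorem wvor_bdd (hG : G.PosDef) : ∃ B : ℝ, 0 ≤ B ∧ ∀ x ∈ Vor G, qf G x ≤ B := by
  obtain ⟨c, -, C, hC, h⟩ := exists_qf_bounds hG
  refine ⟨C * r, by positivity, fun x hx => (hx fun i => ⌊x i⌋).trans ((h _).2.trans ?_)⟩
  refine mul_le_mul_of_nonneg_left ?_ hC.le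
  rw [qf_one]
  refine (sum_le_card_nsmul _ _ 1 fun i _ => ?_).trans (by simp)
  have h1 := Int.fract_nonneg (x i)
  have h2 := Int.fract_lt_one (x i)
  change Int.fract (x i) ^ 2 ≤ 1
  nlinarith

theorem wvor_compact (hG : G.PosDef) : IsCompact (Vor G) := by
  obtain ⟨B, -, hB⟩ := wvor_bdd hG
  obtain ⟨R, hR⟩ := wvor_ball hG B
  refine (isCompact_Icc (a := fun _ => -R) (b := fun _ => R)).of_isClosed_subset ?_ fun x hx =>
    ⟨fun i => (abs_le.1 (hR x (hB x hx) i)).1, fun i => (abs_le.1 (hR x (hB x hx) i)).2⟩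
  rw [Vor, Set.ofPred_forall]
  exact isClosed_iInter fun z => isClosed_le (continuous_qf G)
    ((continuous_qf G).comp (continuous_id.sub continuous_const))

theorem wvor_convex (hG : G.PosDef) : Convex ℝ (Vor G) := by
  intro x hx y hy a b ha hb hab
  rw [wvor_mem hG] at hx hy ⊢
  intro z
  have h1 := mul_le_mul_of_nonneg_left (hx z) ha
  have h2 := mul_le_mul_of_nonneg_left (hy z) hb
  have h3 : a * qf G (iv z) + b * qf G (iv z) = qf G (iv z) := by rw [← add_mul, hab, one_mul]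
  simp only [dotProduct_add, dotProduct_smul, smul_eq_mul]
  linarith

theorem wvor_symm (hG : G.PosDef) {x : Fin r → ℝ} (hx : x ∈ Vor G) : -x ∈ Vor G := by
  rw [wvor_mem hG] at hx ⊢
  intro z
  simpa [wvor_neg, qf, mulVec_neg] using hx (-z)

theorem wvor_dl (hG : G.PosDef) {x : Fin r → ℝ} (hx : x ∈ Vor G) : dl G x = qf G x := by
  obtain ⟨z, hz⟩ := dl_attain hG x
  refine le_antisymm ?_ (hz ▸ hx z)
  simpa [wvor_zero] using dl_le hG x 0

theorem wvor_cover (hG : G.PosDef) (x : Fin r → ℝ) : ∃ z : Fin r → ℤ, x + iv z ∈ Vor G := by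
  obtain ⟨z, hz⟩ := dl_attain hG x
  refine ⟨-z, fun w => ?_⟩
  rw [wvor_neg, ← sub_eq_add_neg, ← hz, sub_sub, ← wvor_add]
  exact dl_le hG x _

theorem wvor_sub_smul (hG : G.PosDef) {l : ℝ} (h0 : 0 ≤ l) (h1 : l ≤ 1) : l • Vor G ⊆ Vor G := by
  rintro _ ⟨y, hy, rfl⟩
  refine (wvor_convex hG).smul_mem_of_zero_mem ((wvor_mem hG).2 fun z => ?_) hy ⟨h0, h1⟩
  simpa using wvor_nonneg hG (iv z)

theorem wvor_diff (hG : G.PosDef) {l : ℝ} (h0 : 0 ≤ l) (h1 : l ≤ 1) :
    volume.real (Vor G \ l • Vor G) ≤ r * (1 - l) * volume.real (Vor G) := by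
  have h2 : volume.real (l • Vor G) = l ^ r * volume.real (Vor G) := by
    rw [Measure.real, Measure.addHaar_smul_of_nonneg _ h0, ENNReal.toReal_mul,
      ENNReal.toReal_ofReal (by positivity), Module.finrank_fin_fun, Measure.real]
  have h3 := one_add_mul_le_pow (a := l - 1) (by linarith) r
  rw [measureReal_sdiff (wvor_sub_smul hG h0 h1) ((wvor_compact hG).smul l).measurableSet
    (wvor_compact hG).measure_ne_top, h2]
  rw [add_sub_cancel] at h3
  nlinarith [mul_le_mul_of_nonneg_right h3 (measureReal_nonneg (μ := volume) (s := Vor G))]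

theorem wvor_gain (hG : G.PosDef) {l : ℝ} (h0 : 0 ≤ l) {x : Fin r → ℝ} (hx : x ∈ l • Vor G)
    (z : Fin r → ℤ) : qf G x + (1 - l) * qf G (iv z) ≤ qf G (x - iv z) := by
  obtain ⟨y, hy, rfl⟩ := hx
  have h := mul_le_mul_of_nonneg_left ((wvor_mem hG).1 hy z) h0
  rw [wvor_sub hG, dotProduct_smul, smul_eq_mul]
  linarith

theorem wvor_split {V W : Set (Fin r → ℝ)} (hV : MeasurableSet V) (hW : MeasurableSet W)
    (hWV : W ⊆ V) (hfin : volume V ≠ ⊤) {f g : (Fin r → ℝ) → ℝ} (hf : IntegrableOn f V)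
    (hg : IntegrableOn g V) {A c : ℝ} (h1 : ∫ x in W, f x ≤ A + ∫ x in W, g x)
    (h2 : ∀ x ∈ V, f x ≤ g x + c) :
    ∫ x in V, f x ≤ A + (∫ x in V, g x) + c * volume.real (V \ W) := by
  have h3 : IntegrableOn (fun _ => c) (V \ W) :=
    integrableOn_const (measure_ne_top_of_subset Set.sdiff_subset hfin)
  have h4 := setIntegral_mono_on (hf.mono_set Set.sdiff_subset)
    ((hg.mono_set Set.sdiff_subset).add h3) (hV.diff hW) fun x hx => h2 x hx.1
  simp only [Pi.add_apply] at h4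
  rw [integral_add (hg.mono_set Set.sdiff_subset) h3, setIntegral_const, smul_eq_mul,
    setIntegral_sdiff hW hf hWV, setIntegral_sdiff hW hg hWV] at h4
  linarith

theorem wvor_meas (hG : G.PosDef) : Measurable fun x => Real.exp (-Real.pi * dl G x) :=
  (Real.continuous_exp.comp (continuous_const.mul (continuous_dl hG))).measurable

theorem wvor_le_one (hG : G.PosDef) (x : Fin r → ℝ) : Real.exp (-Real.pi * dl G x) ≤ 1 :=
  Real.exp_le_one_iff.2 (by nlinarith [Real.pi_pos, dl_nonneg hG x])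

end aux

theorem vor_body {r : ℕ} {G : Matrix (Fin r) (Fin r) ℝ} (hG : G.PosDef) (hS : Stab G) :
    P248.Body (Vor G) := by
  refine ⟨wvor_compact hG, wvor_convex hG, ⟨0, ?_⟩, fun x hx => wvor_symm hG hx⟩
  refine mem_interior.2 ⟨{x | qf G x < 1 / 4}, fun x hx => (wvor_mem hG).2 fun z => ?_,
    isOpen_lt (continuous_qf G) continuous_const, by simp [qf]⟩
  by_cases hz : z = 0
  · rw [hz]
    exact wvor_z0 x
  · have h1 : qf G x < 1 / 4 := hx
    exact wvor_far hG (by linarith [hS.one_le_qf hz])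

theorem one_le_vol_vor {r : ℕ} {G : Matrix (Fin r) (Fin r) ℝ} (hG : G.PosDef) (hS : Stab G) :
    1 ≤ volume.real (Vor G) := by
  have h := covering (f := fun _ : Fin r → ℝ => (1 : ℝ)) measurable_const (fun _ => zero_le_one)
    (fun _ => le_rfl) (fun _ _ => rfl) (wvor_compact hG).measurableSet
    (wvor_compact hG).measure_ne_top (wvor_cover hG)
  simpa [Measure.real, volume_cell] using h

theorem vor_poly {r : ℕ} {G : Matrix (Fin r) (Fin r) ℝ} (hG : G.PosDef) (hS : Stab G) :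
    ∃ (m : ℕ) (b : Fin m → Fin r → ℝ), Vor G = {x | ∀ j, |b j ⬝ᵥ x| ≤ 1} := by
  obtain ⟨B, B0, hB⟩ := wvor_bdd hG
  obtain ⟨R, hR⟩ := wvor_ball hG (4 * (B + 1))
  have hfin : {z : Fin r → ℤ | z ≠ 0 ∧ qf G (iv z) ≤ 4 * (B + 1)}.Finite := by
    refine (Set.finite_Icc (fun _ => -⌈R⌉) fun _ => ⌈R⌉).subset fun z hz => ?_
    have h1 : ∀ i, |z i| ≤ ⌈R⌉ := fun i => by
      have h2 : |(z i : ℝ)| ≤ R := hR _ hz.2 i
      exact_mod_cast h2.trans (Int.le_ceil R)
    exact ⟨fun i => (abs_le.1 (h1 i)).1, fun i => (abs_le.1 (h1 i)).2⟩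
  obtain ⟨m, f, -, hf⟩ := hfin.fin_param
  have hm : ∀ j, f j ≠ 0 ∧ qf G (iv (f j)) ≤ 4 * (B + 1) := fun j =>
    (hf.le ⟨j, rfl⟩ : f j ∈ {z : Fin r → ℤ | z ≠ 0 ∧ qf G (iv z) ≤ 4 * (B + 1)})
  have key : ∀ j x, |((2 / qf G (iv (f j))) • G *ᵥ iv (f j)) ⬝ᵥ x| ≤ 1 ↔
      |2 * ((G *ᵥ iv (f j)) ⬝ᵥ x)| ≤ qf G (iv (f j)) := fun j x => by
    have h1 : 0 < qf G (iv (f j)) := one_pos.trans_le (hS.one_le_qf (hm j).1)
    rw [smul_dotProduct, smul_eq_mul, div_mul_eq_mul_div, abs_div, abs_of_pos h1, div_le_one h1]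
  refine ⟨m, fun j => (2 / qf G (iv (f j))) • G *ᵥ iv (f j), ?_⟩
  have small : ∀ x, (∀ j, |2 * ((G *ᵥ iv (f j)) ⬝ᵥ x)| ≤ qf G (iv (f j))) → qf G x ≤ B + 1 →
      x ∈ Vor G := fun x h1 h2 => (wvor_mem hG).2 fun z => by
    by_cases hz : z = 0
    · rw [hz]
      exact wvor_z0 x
    by_cases h3 : qf G (iv z) ≤ 4 * (B + 1)
    · obtain ⟨j, rfl⟩ := hf.ge (⟨hz, h3⟩ : z ∈ {z : Fin r → ℤ | z ≠ 0 ∧ qf G (iv z) ≤ 4 * (B + 1)})
      exact le_of_abs_le (h1 j)
    · exact wvor_far hG (by linarith)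
  ext x
  simp only [Set.mem_ofPred_eq, key]
  refine ⟨fun hx j => abs_le.2 ⟨?_, (wvor_mem hG).1 hx _⟩, fun hx => ?_⟩
  · have h1 := (wvor_mem hG).1 (wvor_symm hG hx) (f j)
    rw [dotProduct_neg] at h1
    linarith
  · by_contra hn
    have h1 : B + 1 < qf G x := not_le.1 fun h => hn (small x hx h)
    have h2 : 0 < qf G x := by linarith
    have h3 : √((B + 1) / qf G x) ≤ 1 := Real.sqrt_le_one.2 ((div_le_one h2).2 h1.le)
    have h4 : qf G (√((B + 1) / qf G x) • x) = B + 1 := by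
      rw [wvor_smul, Real.sq_sqrt (by positivity), div_mul_cancel₀ _ h2.ne']
    have h5 := hB _ (small _ (fun j => ?_) h4.le)
    · linarith
    · rw [dotProduct_smul, smul_eq_mul, mul_left_comm, abs_mul, abs_of_nonneg (Real.sqrt_nonneg _)]
      exact (mul_le_of_le_one_left (abs_nonneg _) h3).trans (hx j)

theorem vor_le_FF {r : ℕ} {G : Matrix (Fin r) (Fin r) ℝ} (hG : G.PosDef) (hS : Stab G) :
    √G.det * ∫ x in Vor G, Real.exp (-Real.pi * qf G x) ≤ FF G := by
  refine mul_le_mul_of_nonneg_left ?_ (Real.sqrt_nonneg _)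
  have hc := wvor_compact hG
  rw [← setIntegral_congr_fun (f := fun x => Real.exp (-Real.pi * dl G x)) hc.measurableSet
    fun x hx => by simp only [wvor_dl hG hx]]
  refine le_of_forall_pos_le_add fun ε hε => ?_
  have v0 : 0 ≤ r * volume.real (Vor G) := mul_nonneg (Nat.cast_nonneg r) measureReal_nonneg
  set D := r * volume.real (Vor G) with hD
  have l0 : 0 ≤ D / (D + ε) := by positivity
  have l1 : D / (D + ε) < 1 := (div_lt_one (by positivity)).2 (by linarith)
  have h1 := packing (wvor_meas hG) (fun _ => (Real.exp_pos _).le) (wvor_le_one hG)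
    (fun x z => by rw [dl_add]) (hc.smul (D / (D + ε))).measurableSet fun x hx z hz => by
      by_contra h0
      have h2 := wvor_gain hG l0 hx (-z)
      have h3 := wvor_gain hG l0 hz z
      rw [wvor_neg, sub_neg_eq_add, ← wvor_neg] at h2
      rw [add_sub_cancel_right] at h3
      have h4 := mul_pos (sub_pos.2 l1) (one_pos.trans_le (hS.one_le_qf h0))
      have h5 := mul_nonneg (sub_pos.2 l1).le (wvor_nonneg hG (iv (-z)))
      linarith
  have h2 := wvor_split hc.measurableSet (hc.smul (D / (D + ε))).measurableSet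
    (wvor_sub_smul hG l0 l1.le) hc.measure_ne_top (integrableOn_dl hG hc.measure_ne_top)
    (g := fun _ => 0) integrableOn_zero (c := 1)
    (h1.trans (le_add_of_nonneg_right (integral_nonneg fun _ => le_rfl)))
    fun x _ => by simpa using wvor_le_one hG x
  have h3 := wvor_diff hG l0 l1.le
  have h4 : r * (1 - D / (D + ε)) * volume.real (Vor G) = D / (D + ε) * ε := by
    rw [mul_right_comm, ← hD]
    field_simp
    ring
  have h5 := mul_le_of_le_one_left hε.le l1.le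
  simp only [integral_zero] at h2
  linarith

theorem envelope {r : ℕ} {G : Matrix (Fin r) (Fin r) ℝ} (hG : G.PosDef) (hS : Stab G) :
    ∃ C : ℝ, ∀ η : ℝ, 0 ≤ η → η ≤ 1 / 2 → ∀ G' : Matrix (Fin r) (Fin r) ℝ, G'.PosDef →
      (∀ x, (1 - η) * qf G x ≤ qf G' x ∧ qf G' x ≤ (1 + η) * qf G x) →
      ∫ x in cell (Fin r), Real.exp (-Real.pi * dl G' x) ≤
        (∫ x in Vor G, Real.exp (-Real.pi * qf G' x)) + C * η ^ 2 := by
  obtain ⟨B, B0, hB⟩ := wvor_bdd hG
  have hc := wvor_compact hG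
  refine ⟨8 * Real.pi * B ^ 2 * r * volume.real (Vor G), fun η e0 e1 G' hG' h => ?_⟩
  have p0 : 0 ≤ 4 * η * B := by positivity
  obtain ⟨l, l0, l1, l2⟩ : ∃ l : ℝ, 0 ≤ l ∧ l ≤ 1 ∧ 1 - l = 4 * η * B * l :=
    ⟨1 / (1 + 4 * η * B), by positivity, (div_le_one (by positivity)).2 (by linarith), by
      field_simp; ring⟩
  have a0 : ∀ x, dl G' x ≤ qf G' x := fun x => by simpa [wvor_zero] using dl_le hG' x 0
  have a1 : ∀ x ∈ l • Vor G, dl G' x = qf G' x := fun x hx => by
    refine wvor_dl hG' fun z => ?_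
    by_cases hz : z = 0
    · rw [hz, wvor_zero, sub_zero]
    have h1 := wvor_gain hG l0 hx z
    have h2 : qf G x ≤ l * B := by
      obtain ⟨y, hy, rfl⟩ := hx
      have h3 := hB y hy
      have h4 := wvor_nonneg hG y
      have h5 : l ^ 2 ≤ l := by nlinarith
      rw [wvor_smul]
      exact mul_le_mul h5 h3 h4 l0
    have h3 := mul_le_mul_of_nonneg_left (hS.one_le_qf hz) (sub_nonneg.2 l1)
    have h4 := mul_le_mul_of_nonneg_left h1 (by linarith : 0 ≤ 1 - η)
    have h5 := mul_le_mul_of_nonneg_left h2 e0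
    have h6 := mul_le_mul_of_nonneg_right (by linarith : 1 / 2 ≤ 1 - η)
      (mul_nonneg (sub_nonneg.2 l1) (wvor_nonneg hG (iv z)))
    linarith [(h x).2, (h (x - iv z)).1]
  have a2 : ∀ x ∈ Vor G, Real.exp (-Real.pi * dl G' x) ≤
      Real.exp (-Real.pi * qf G' x) + 2 * Real.pi * η * B := fun x hx => by
    obtain ⟨z, hz⟩ := dl_attain hG' x
    have h1 := mul_le_mul_of_nonneg_left (hx z) (by linarith : 0 ≤ 1 - η)
    have h2 := mul_le_mul_of_nonneg_left (hB x hx) e0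
    have h3 : qf G' x - dl G' x ≤ 2 * η * B := by linarith [(h x).2, (h (x - iv z)).1]
    have h4 := Real.add_one_le_exp (-Real.pi * (qf G' x - dl G' x))
    have h5 := mul_le_mul_of_nonneg_left h4 (Real.exp_pos (-Real.pi * dl G' x)).le
    rw [← Real.exp_add, show -Real.pi * dl G' x + -Real.pi * (qf G' x - dl G' x) =
      -Real.pi * qf G' x by ring] at h5
    have h6 := mul_le_mul_of_nonneg_left h3 Real.pi_pos.le
    have h7 := mul_le_of_le_one_left (mul_nonneg Real.pi_pos.le (sub_nonneg.2 (a0 x)))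
      (wvor_le_one hG' x)
    linarith
  have h1 := covering (wvor_meas hG') (fun _ => (Real.exp_pos _).le) (wvor_le_one hG')
    (fun x z => by rw [dl_add]) hc.measurableSet hc.measure_ne_top (wvor_cover hG)
  have h2 := wvor_split hc.measurableSet (hc.smul l).measurableSet
    (wvor_sub_smul hG l0 l1) hc.measure_ne_top (integrableOn_dl hG' hc.measure_ne_top)
    (integrable_gauss hG').integrableOn (A := 0)
    (by rw [zero_add]
        exact (setIntegral_congr_fun (hc.smul l).measurableSet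
          fun x hx => by simp only [a1 x hx]).le) a2
  have h3 := wvor_diff hG l0 l1
  have h4 : r * (1 - l) * volume.real (Vor G) ≤ r * (4 * η * B) * volume.real (Vor G) := by
    rw [l2]
    exact mul_le_mul_of_nonneg_right (mul_le_mul_of_nonneg_left (mul_le_of_le_one_right p0 l1)
      (Nat.cast_nonneg r)) measureReal_nonneg
  have h5 := mul_le_mul_of_nonneg_left (h3.trans h4)
    (by positivity : 0 ≤ 2 * Real.pi * η * B)
  linarith

end Vale.Agent.P160
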